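import Vale.Agent.P031.Basic

/-! Mertens estimates and levels. -/

namespace Vale.Agent.P031

open Finset Real

lemma sum_log_primeFactors_le {m : ℕ} (hm : m ≠ 0) : ∑ p ∈ m.primeFactors, log p ≤ log m := by
  rw [← log_prod (fun p hp => by exact_mod_cast (Nat.prime_of_mem_primeFactors hp).ne_zero)]
  apply log_le_log
  · exact prod_pos fun p hp => by exact_mod_cast (Nat.prime_of_mem_primeFactors hp).pos
  · rw [← Nat.cast_prod]
    exact_mod_cast Nat.le_of_dvd (Nat.pos_of_ne_zero hm) (Nat.prod_primeFactors_dvd m)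

lemma log_four_le : log 4 ≤ 2 * log 2 := by
  rw [show (4 : ℝ) = 2 ^ 2 by norm_num, log_pow]; norm_num

lemma mertens1 {n : ℕ} (hn : 1 ≤ n) :
    ∑ p ∈ Ioc 0 n with p.Prime, log p / p ≤ log n + log 4 := by
  have hn' : (0 : ℝ) < n := by exact_mod_cast hn
  have h1 : ∑ p ∈ Ioc 0 n with p.Prime, log p * ((n / p : ℕ) : ℝ) ≤ n * log n := by
    calc ∑ p ∈ Ioc 0 n with p.Prime, log p * ((n / p : ℕ) : ℝ)
        = ∑ p ∈ Ioc 0 n with p.Prime, ∑ m ∈ Ioc 0 n, if p ∣ m then log p else 0 := by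
          refine sum_congr rfl fun p _ => ?_
          rw [← sum_filter, sum_const, Nat.Ioc_filter_dvd_card_eq_div, nsmul_eq_mul, mul_comm]
      _ = ∑ m ∈ Ioc 0 n, ∑ p ∈ Ioc 0 n with p.Prime, if p ∣ m then log p else 0 := sum_comm
      _ ≤ ∑ m ∈ Ioc 0 n, log n := by
          apply sum_le_sum
          intro m hm
          rw [mem_Ioc] at hm
          rw [← sum_filter]
          calc _ ≤ ∑ p ∈ m.primeFactors, log p := by
                apply sum_le_sum_of_subset_of_nonneg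
                · intro p hp
                  simp only [mem_filter] at hp
                  exact Nat.mem_primeFactors.mpr ⟨hp.1.2, hp.2, by omega⟩
                · intro i _ _; exact log_natCast_nonneg i
            _ ≤ log m := sum_log_primeFactors_le (by omega)
            _ ≤ log n := log_le_log (by exact_mod_cast hm.1) (by exact_mod_cast hm.2)
      _ = n * log n := by simp
  have h2 : ∑ p ∈ Ioc 0 n with p.Prime, log p ≤ log 4 * n := by
    have := Chebyshev.theta_le_log4_mul_x (x := n) hn'.le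
    simpa [Chebyshev.theta] using this
  have h3 : n * ∑ p ∈ Ioc 0 n with p.Prime, log p / p ≤
      ∑ p ∈ Ioc 0 n with p.Prime, log p * ((n / p : ℕ) : ℝ) + ∑ p ∈ Ioc 0 n with p.Prime, log p := by
    rw [mul_sum, ← sum_add_distrib]
    apply sum_le_sum
    intro p hp
    have hp0 : 0 < p := (mem_filter.mp hp).2.pos
    have hp' : (0 : ℝ) < p := by exact_mod_cast hp0
    have h4 : (n : ℝ) / p ≤ ((n / p : ℕ) : ℝ) + 1 := by
      rw [div_le_iff₀ hp']
      have := Nat.lt_div_mul_add hp0 (a := n)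
      have h : (n : ℝ) < ((n / p * p + p : ℕ) : ℝ) := by exact_mod_cast this
      push_cast at h
      linarith
    have h5 := log_natCast_nonneg p
    calc n * (log p / p) = log p * (n / p) := by ring
      _ ≤ log p * (((n / p : ℕ) : ℝ) + 1) := by gcongr
      _ = _ := by ring
  have : n * ∑ p ∈ Ioc 0 n with p.Prime, log p / p ≤ n * (log n + log 4) := by linarith
  exact le_of_mul_le_mul_left this hn'

lemma sum_shift (g : ℕ → ℝ) (k : ℕ) (h1 : g 1 = 0) :
    ∑ i ∈ range k, (if (i + 2).Prime then g (i + 2) else 0) = ∑ p ∈ Ioc 0 (k + 1) with p.Prime, g p := by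
  rw [sum_filter]
  induction k with
  | zero => simp [h1]
  | succ k ih => rw [sum_range_succ, ih, sum_Ioc_succ_top (b := k + 1) (by omega)]

lemma mertens_upper {n : ℕ} (hn : 2 ≤ n) :
    ∑ p ∈ Ioc 0 n with p.Prime, (1 : ℝ) / p ≤ log (log n) + 4 := by
  obtain ⟨k, rfl⟩ : ∃ k, n = k + 2 := ⟨n - 2, by omega⟩
  have hl2 : 0 < log 2 := log_pos (by norm_num)
  have hlp : ∀ i : ℕ, 0 < log ((i : ℝ) + 2) := fun i => log_pos (by
    have : (0 : ℝ) ≤ i := Nat.cast_nonneg i
    linarith)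
  let φ : ℕ → ℝ := fun i => 1 / log ((i : ℝ) + 2)
  let b : ℕ → ℝ := fun i => log ((i : ℝ) + 2) - log ((i : ℝ) + 1)
  let a : ℕ → ℝ := fun i => if (i + 2).Prime then log ((i + 2 : ℕ) : ℝ) / ((i + 2 : ℕ) : ℝ) else 0
  have hb : ∀ j, ∑ i ∈ range j, b i = log ((j : ℝ) + 1) := by
    intro j
    induction j with
    | zero => simp
    | succ j ih => rw [sum_range_succ, ih]; simp only [b]; push_cast; ring_nf
  have ha : ∀ j, ∑ i ∈ range j, a i ≤ log ((j : ℝ) + 1) + log 4 := by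
    intro j
    have := sum_shift (fun p => log p / p) j (by simp)
    simp only [a]
    rw [this]
    have := mertens1 (n := j + 1) (by omega)
    simpa using this
  have hab := abel_ge φ (fun i => b i - a i) (log 4) (k + 1) (fun i => by
    simp only [φ]
    apply one_div_le_one_div_of_le (hlp i)
    apply log_le_log (by positivity); push_cast; linarith)
    (fun i => (one_div_pos.mpr (hlp i)).le) (fun j _ => by
      rw [sum_sub_distrib, hb]; linarith [ha j])
  have h1 : ∑ i ∈ range (k + 1), φ i * a i = ∑ p ∈ Ioc 0 (k + 2) with p.Prime, (1 : ℝ) / p := by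
    have := sum_shift (fun p => if p = 1 then 0 else (1 : ℝ) / p) (k + 1) (by simp)
    rw [show ∑ p ∈ Ioc 0 (k + 2) with p.Prime, (1 : ℝ) / p = ∑ p ∈ Ioc 0 (k + 1 + 1) with p.Prime,
      (if p = 1 then 0 else (1 : ℝ) / p) from sum_congr rfl fun p hp => by
        rw [if_neg (mem_filter.mp hp).2.ne_one], ← this]
    refine sum_congr rfl fun i _ => ?_
    simp only [φ, a]
    have := hlp i
    split_ifs with h h'
    · omega
    · push_cast; field_simp
    · simp
  have h2 : ∀ j, ∑ i ∈ range (j + 1), φ i * b i ≤ 1 + log (log ((j : ℝ) + 2)) - log (log 2) := by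
    intro j
    induction j with
    | zero =>
      simp only [φ, b]
      simp
      rw [inv_mul_cancel₀ hl2.ne']
    | succ j ih =>
      rw [sum_range_succ]
      have h3 : φ (j + 1) * b (j + 1) ≤ log (log ((j : ℝ) + 1 + 2)) - log (log ((j : ℝ) + 2)) := by
        simp only [φ, b]
        have e1 := hlp j
        have e2 := hlp (j + 1)
        push_cast at e2 ⊢
        rw [← log_div e2.ne' e1.ne']
        have := one_sub_inv_le_log_of_pos (div_pos e2 e1)
        refine le_trans (le_of_eq ?_) this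
        rw [show (j : ℝ) + 1 + 1 = j + 2 by ring]
        field_simp
      push_cast
      linarith
  have h3 : ∑ i ∈ range (k + 1), φ i * (b i - a i) =
      ∑ i ∈ range (k + 1), φ i * b i - ∑ i ∈ range (k + 1), φ i * a i := by
    rw [← sum_sub_distrib]; refine sum_congr rfl fun i _ => by ring
  have h4 : log 4 * φ 0 ≤ 2 := by
    simp only [φ]
    rw [Nat.cast_zero, zero_add, mul_one_div, div_le_iff₀ hl2]; exact log_four_le
  have h5 : -1 ≤ log (log 2) := by
    have := one_sub_inv_le_log_of_pos hl2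
    have h6 : (log 2)⁻¹ ≤ 2 := by
      rw [inv_le_comm₀ hl2 (by norm_num)]; linarith [log_two_gt_d9]
    linarith
  have := h2 k
  push_cast
  linarith

lemma mertens_lower (n : ℕ) :
    log ((n : ℝ) + 1) ≤ exp (∑ p ∈ Ioc 0 n with p.Prime, (1 : ℝ) / p + 9) := by
  have h := EP1 ((Ioc 0 n).filter Nat.Prime) (fun q hq => (mem_filter.mp hq).2) (fun _ => 0)
    (fun _ _ => by norm_num) (Icc 1 n) (fun m hm => by
      rw [mem_Icc] at hm
      refine ⟨by omega, fun q hq hd => ?_⟩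
      rw [mem_filter, mem_Ioc]
      exact ⟨⟨hq.pos, (Nat.le_of_dvd (by omega) hd).trans hm.2⟩, hq⟩)
  simp only [Ad_zero, exp_zero] at h
  refine le_trans ?_ h
  have := log_add_one_le_harmonic n
  rw [harmonic_eq_sum_Icc] at this
  push_cast at this
  simpa using this

/-- level of a number -/
noncomputable def lev (q : ℕ) : ℕ := ⌈log (log q)⌉₊

/-- largest integer of level at most `s` -/
noncomputable def Y (s : ℕ) : ℕ := ⌊exp (exp s)⌋₊

lemma lev_le_iff {q s : ℕ} : lev q ≤ s ↔ log q ≤ exp s := by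
  unfold lev
  rw [Nat.ceil_le]
  rcases (log_natCast_nonneg q).eq_or_lt with h | h
  · rw [← h]; simp [exp_nonneg]
  · exact log_le_iff_le_exp h

lemma lev_le_iff_Y {q s : ℕ} : lev q ≤ s ↔ q ≤ Y s := by
  rw [lev_le_iff, Y, Nat.le_floor_iff (exp_pos _).le]
  rcases Nat.eq_zero_or_pos q with rfl | h
  · simp [exp_nonneg]
  · exact log_le_iff_le_exp (by exact_mod_cast h)

lemma log_le_lev (q : ℕ) : log q ≤ exp (lev q) := lev_le_iff.mp le_rfl

lemma lt_log_of_lt_lev {q s : ℕ} (h : s < lev q) : exp s < log q := by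
  by_contra h'
  have := lev_le_iff.mpr (not_lt.mp h')
  omega

lemma lt_log_of_lev {q : ℕ} (h : 1 ≤ lev q) : exp ((lev q : ℝ) - 1) < log q := by
  have := lt_log_of_lt_lev (q := q) (s := lev q - 1) (by omega)
  rwa [Nat.cast_sub h, Nat.cast_one] at this

lemma lev_mono {q q' : ℕ} (h : q ≤ q') : lev q ≤ lev q' :=
  lev_le_iff_Y.mpr (h.trans (lev_le_iff_Y.mp le_rfl))

lemma two_le_Y (s : ℕ) : 2 ≤ Y s := by
  unfold Y
  apply Nat.le_floor
  have h1 : (1 : ℝ) ≤ exp s := one_le_exp (Nat.cast_nonneg s)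
  have := add_one_le_exp (exp s)
  push_cast; linarith

lemma lev_two : lev 2 = 0 := Nat.le_zero.mp (lev_le_iff_Y.mpr (two_le_Y 0))

lemma log_Y_le (s : ℕ) : log (Y s) ≤ exp s := lev_le_iff.mp (lev_le_iff_Y.mpr le_rfl)

/-- primes of level at most `s` -/
noncomputable def Pr (s : ℕ) : Finset ℕ := (Ioc 0 (Y s)).filter Nat.Prime

lemma mem_Pr {q s : ℕ} : q ∈ Pr s ↔ q.Prime ∧ lev q ≤ s := by
  rw [Pr, mem_filter, mem_Ioc, lev_le_iff_Y]
  exact ⟨fun h => ⟨h.2, h.1.2⟩, fun h => ⟨⟨h.1.pos, h.2⟩, h.1⟩⟩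

lemma Pr_mono {s t : ℕ} (h : s ≤ t) : Pr s ⊆ Pr t := fun _ hq =>
  mem_Pr.mpr ⟨(mem_Pr.mp hq).1, (mem_Pr.mp hq).2.trans h⟩

/-- sum of reciprocals of the primes of level at most `s` -/
noncomputable def mass (s : ℕ) : ℝ := ∑ q ∈ Pr s, (1 : ℝ) / q

lemma mass_le (s : ℕ) : mass s ≤ s + 4 := by
  have h := mertens_upper (two_le_Y s)
  have h2 : (2 : ℝ) ≤ Y s := by exact_mod_cast two_le_Y s
  have h1 : log (log (Y s)) ≤ s := by
    rw [log_le_iff_le_exp (log_pos (by linarith))]; exact log_Y_le s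
  unfold mass Pr
  linarith

lemma le_mass (s : ℕ) : (s : ℝ) - 9 ≤ mass s := by
  have h := mertens_lower (Y s)
  have h1 : exp s ≤ log ((Y s : ℝ) + 1) := by
    rw [le_log_iff_exp_le (by positivity)]
    exact (Nat.lt_floor_add_one _).le
  have := exp_le_exp.mp (h1.trans h)
  unfold mass Pr
  linarith

lemma mass_nonneg (s : ℕ) : 0 ≤ mass s := sum_nonneg fun _ _ => by positivity

/-- mass of the primes with level in `(a, b]` -/
lemma mass_sub {a b : ℕ} (h : a ≤ b) :
    ∑ q ∈ Pr b with a < lev q, (1 : ℝ) / q = mass b - mass a := by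
  unfold mass
  rw [← sum_filter_add_sum_filter_not (Pr b) (fun q => a < lev q)]
  have : (Pr b).filter (fun q => ¬ a < lev q) = Pr a := by
    ext q
    simp only [mem_filter, mem_Pr, not_lt]
    exact ⟨fun h' => ⟨h'.1.1, h'.2⟩, fun h' => ⟨⟨h'.1, h'.2.trans h⟩, h'.2⟩⟩
  rw [this]; ring

/-- all prime factors have level at most `s` -/
def Sm (s m : ℕ) : Prop := m ≠ 0 ∧ ∀ q, q.Prime → q ∣ m → lev q ≤ s

lemma Sm.mono {s t m : ℕ} (h : Sm s m) (hst : s ≤ t) : Sm t m :=
  ⟨h.1, fun q h1 h2 => (h.2 q h1 h2).trans hst⟩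

lemma Sm.of_dvd {s m d : ℕ} (h : Sm s m) (hd : d ∣ m) : Sm s d :=
  ⟨fun h0 => h.1 (by rw [h0] at hd; exact zero_dvd_iff.mp hd), fun q h1 h2 => h.2 q h1 (h2.trans hd)⟩

lemma Sm.mul {s a b : ℕ} (ha : Sm s a) (hb : Sm s b) : Sm s (a * b) :=
  ⟨mul_ne_zero ha.1 hb.1, fun q h1 h2 => ((Nat.Prime.dvd_mul h1).mp h2).elim (ha.2 q h1) (hb.2 q h1)⟩

lemma Sm.one (s : ℕ) : Sm s 1 := ⟨one_ne_zero, fun q h1 h2 => absurd (Nat.dvd_one.mp h2) h1.ne_one⟩

lemma Sm.prod {ι : Type*} {s : ℕ} (T : Finset ι) (g : ι → ℕ) (h : ∀ i ∈ T, Sm s (g i)) :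
    Sm s (∏ i ∈ T, g i) :=
  prod_induction g (Sm s) (fun _ _ ha hb => ha.mul hb) (Sm.one s) h

lemma Sm.of_le {s m : ℕ} (h0 : m ≠ 0) (h : lev m ≤ s) : Sm s m :=
  ⟨h0, fun _ _ h2 => (lev_mono (Nat.le_of_dvd (Nat.pos_of_ne_zero h0) h2)).trans h⟩

lemma Sm.mem {s m : ℕ} (h : Sm s m) : m ≠ 0 ∧ ∀ q, q.Prime → q ∣ m → q ∈ Pr s :=
  ⟨h.1, fun q h1 h2 => mem_Pr.mpr ⟨h1, h.2 q h1 h2⟩⟩

lemma Sm.pred {p : ℕ} (hp : p.Prime) : Sm (lev p) (p - 1) :=
  Sm.of_le (by have := hp.two_le; omega) (lev_mono (Nat.sub_le _ _))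

/-- number of prime factors of level at most `i`, with multiplicity -/
noncomputable def Om (i m : ℕ) : ℝ := Ad (fun q => if lev q ≤ i then 1 else 0) m

/-- Chernoff bound for smooth numbers -/
lemma chernoff (t H : ℝ) (ht : |t| ≤ 1 / 4) {i s : ℕ} (his : i ≤ s) (S : Finset ℕ)
    (hS : ∀ m ∈ S, Sm s m ∧ H ≤ t * (Om i m - i)) :
    ∑ m ∈ S, (1 : ℝ) / m ≤ exp (-H + t ^ 2 * i + s + 17) := by
  have hP : ∀ q ∈ Pr s, q.Prime := fun q hq => (mem_Pr.mp hq).1
  have ht' := abs_le.mp ht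
  have h := EP1 (Pr s) hP (fun q => t * if lev q ≤ i then 1 else 0) (fun q _ => by
    split_ifs <;> linarith) S (fun m hm => (hS m hm).1.mem)
  have h1 : ∑ m ∈ S, (1 : ℝ) / m ≤ exp (-H - t * i) *
      ∑ m ∈ S, exp (Ad (fun q => t * if lev q ≤ i then 1 else 0) m) / m := by
    rw [mul_sum]
    apply sum_le_sum
    intro m hm
    rw [Ad_smul, ← mul_div_assoc, ← exp_add]
    gcongr
    apply one_le_exp
    have := (hS m hm).2
    unfold Om at this
    linarith
  have h2 : ∑ q ∈ Pr s, exp (t * if lev q ≤ i then 1 else 0) / q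
      = mass s + (exp t - 1) * mass i := by
    unfold mass
    have : Pr i = (Pr s).filter (fun q => lev q ≤ i) := by
      ext q
      simp only [mem_filter, mem_Pr]
      exact ⟨fun h' => ⟨⟨h'.1, h'.2.trans his⟩, h'.2⟩, fun h' => ⟨h'.1.1, h'.2⟩⟩
    rw [this, sum_filter, mul_sum, ← sum_add_distrib]
    refine sum_congr rfl fun q _ => ?_
    split_ifs <;> simp
    ring
  have h3 : exp t - 1 ≤ t + t ^ 2 := by
    have := abs_exp_sub_one_sub_id_le (x := t) (by linarith)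
    linarith [(abs_le.mp this).2]
  have h4 : (exp t - 1) * mass i ≤ (t + t ^ 2) * mass i := by
    gcongr; exact mass_nonneg i
  have h5 : (t + t ^ 2) * mass i ≤ (t + t ^ 2) * i + 4 := by
    have e1 := mass_le i
    have e2 := le_mass i
    have e3 : |t + t ^ 2| ≤ 5 / 16 := by
      rw [abs_le]; constructor <;> nlinarith
    have e4 : |mass i - i| ≤ 9 := by rw [abs_le]; constructor <;> linarith
    have e5 : (t + t ^ 2) * (mass i - i) ≤ 5 / 16 * 9 := by
      refine (le_abs_self _).trans ?_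
      rw [abs_mul]; gcongr
    nlinarith
  calc _ ≤ exp (-H - t * i) * exp (mass s + (exp t - 1) * mass i + 9) := by
        rw [← h2]; exact h1.trans (by gcongr)
    _ ≤ _ := by
        rw [← exp_add]
        apply exp_le_exp.mpr
        have := mass_le s
        nlinarith

lemma smooth_sum {s : ℕ} (S : Finset ℕ) (hS : ∀ m ∈ S, Sm s m) :
    ∑ m ∈ S, (1 : ℝ) / m ≤ exp (s + 17) := by
  have := chernoff 0 0 (by norm_num) (le_refl s) S (fun m hm => ⟨hS m hm, by simp⟩)
  simpa using this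

/-- Rankin bound for large smooth numbers -/
lemma smooth_tail {s : ℕ} (W τ : ℝ) (hW : 0 < W) (S : Finset ℕ)
    (hS : ∀ m ∈ S, Sm s m ∧ (∀ q, q.Prime → q ∣ m → log q ≤ W) ∧ τ ≤ log m) :
    ∑ m ∈ S, (1 : ℝ) / m ≤ exp (-τ / (4 * W) + 2 * s + 15) := by
  classical
  let P := (Pr s).filter fun q : ℕ => log q ≤ W
  have hP : ∀ q ∈ P, q.Prime := fun q hq => (mem_Pr.mp (mem_filter.mp hq).1).1
  have hf : ∀ q ∈ P, 1 / (4 * W) * log q ≤ 2 / 5 := fun q hq => by
    have := (mem_filter.mp hq).2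
    have h2 : 1 / (4 * W) * log q ≤ 1 / (4 * W) * W := by gcongr
    have h3 : 1 / (4 * W) * W = 1 / 4 := by field_simp
    linarith
  have h := EP1 P hP (fun q => 1 / (4 * W) * log q) hf S (fun m hm => ⟨(hS m hm).1.1, fun q h1 h2 =>
    mem_filter.mpr ⟨(hS m hm).1.mem.2 q h1 h2, (hS m hm).2.1 q h1 h2⟩⟩)
  have h1 : ∑ m ∈ S, (1 : ℝ) / m ≤ exp (-τ / (4 * W)) *
      ∑ m ∈ S, exp (Ad (fun q => 1 / (4 * W) * log q) m) / m := by
    rw [mul_sum]
    apply sum_le_sum
    intro m hm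
    rw [Ad_smul, Ad_log (hS m hm).1.1, ← mul_div_assoc, ← exp_add]
    gcongr
    apply one_le_exp
    have := (hS m hm).2.2
    have h2 : -τ / (4 * W) + 1 / (4 * W) * log m = (log m - τ) / (4 * W) := by ring
    rw [h2]; apply div_nonneg <;> linarith
  have h2 : ∑ q ∈ P, exp (1 / (4 * W) * log q) / q ≤ 3 / 2 * mass s := by
    unfold mass
    rw [mul_sum]
    calc _ ≤ ∑ q ∈ P, 3 / 2 * ((1 : ℝ) / q) := by
          apply sum_le_sum
          intro q hq
          rw [mul_one_div]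
          gcongr
          exact (exp_le_exp.mpr (hf q hq)).trans exp_two_fifth
      _ ≤ _ := sum_le_sum_of_subset_of_nonneg (filter_subset _ _) (fun _ _ _ => by positivity)
  calc _ ≤ exp (-τ / (4 * W)) * exp (3 / 2 * mass s + 9) :=
        h1.trans (by gcongr; exact h.trans (by gcongr))
    _ ≤ _ := by
        rw [← exp_add]
        apply exp_le_exp.mpr
        have := mass_le s
        have : (0 : ℝ) ≤ s := Nat.cast_nonneg s
        linarith

/-- Chebyshev bound for large primes -/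
lemma cheb (T ρ : ℝ) (hρ : 0 < ρ) (hT : 0 ≤ T) (S : Finset ℕ)
    (hS : ∀ r ∈ S, r.Prime ∧ (r : ℝ) ≤ T ∧ ρ ≤ log r) : (S.card : ℝ) ≤ 2 * T / ρ := by
  rw [le_div_iff₀ hρ]
  have h1 : (S.card : ℝ) * ρ ≤ ∑ r ∈ S, log r := by
    rw [← nsmul_eq_mul]; exact card_nsmul_le_sum _ _ _ fun r hr => (hS r hr).2.2
  have h2 : ∑ r ∈ S, log r ≤ Chebyshev.theta T := by
    unfold Chebyshev.theta
    apply sum_le_sum_of_subset_of_nonneg
    · intro r hr
      rw [mem_filter, mem_Ioc]
      exact ⟨⟨(hS r hr).1.pos, Nat.le_floor (hS r hr).2.1⟩, (hS r hr).1⟩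
    · intro i _ _; exact log_natCast_nonneg i
  have h3 := Chebyshev.theta_le_log4_mul_x hT
  have h4 : log 4 ≤ 2 := by linarith [log_four_le, log_two_lt_d9]
  nlinarith

end Vale.Agent.P031
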