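import Vale.Agent.P031.Canon

/-! Anti-concentration of the functional on canonical tuples. -/

namespace Vale.Agent.P031

open Finset Real

/-- distribution function of the functionals -/
noncomputable def FF (N u k : ℕ) (x : ℝ) : ℝ :=
  ∑ t ∈ Can N u with ck N u k t ≤ x, (1 : ℝ) / val t

lemma FF_mono (N u k : ℕ) {x y : ℝ} (h : x ≤ y) : FF N u k x ≤ FF N u k y :=
  sum_le_sum_of_subset_of_nonneg (fun t ht => by
    rw [mem_filter] at ht ⊢
    exact ⟨ht.1, ht.2.trans h⟩) (fun _ _ _ => by positivity)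

lemma le_FF {N u k : ℕ} {x : ℝ} (S : Finset (Finset ℕ × ℕ))
    (h : ∀ t ∈ S, t ∈ Can N u ∧ ck N u k t ≤ x) : ∑ t ∈ S, (1 : ℝ) / val t ≤ FF N u k x :=
  sum_le_sum_of_subset_of_nonneg (fun t ht => mem_filter.mpr (h t ht)) (fun _ _ _ => by positivity)

lemma one_le_FF (N u k : ℕ) {x : ℝ} (h : 0 ≤ x) : 1 ≤ FF N u k x := by
  have := le_FF (N := N) (u := u) (k := k) (x := x) {(∅, 1)} (fun t ht => by
    rw [mem_singleton.mp ht, ck_empty]; exact ⟨empty_can N u, h⟩)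
  simpa [val, pv] using this

lemma FF_grow (N u k : ℕ) (x : ℝ) : FF N u (k + 2) x ≤ FF N u (k + 1) (4 / 5 * x) :=
  le_FF _ fun t ht => by
    rw [mem_filter] at ht
    exact ⟨ht.1, by linarith [ck_grow N u k t, ht.2]⟩

lemma sq_le_two_sq (N : ℕ) : N ^ 2 ≤ 2 * N ^ 2 := by omega

lemma band_sum {u i0 : ℕ} (hi : 1 ≤ i0) (S : Finset ℕ) (w : ℝ) (hw : 0 ≤ w)
    (hS : ∀ p ∈ S, p.Prime ∧ i0 < lev p ∧ lev p ≤ u)
    (hw' : ∀ p ∈ S, ∀ q ∈ S, (lv i0 q : ℝ) ≤ lv i0 p + w) :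
    ∑ p ∈ S, (1 : ℝ) / ((p - 1 : ℕ) : ℝ) ≤ 2 * (w + 14) := by
  rcases S.eq_empty_or_nonempty with rfl | hne
  · simp only [sum_empty]; positivity
  obtain ⟨p1, hp1, hmin⟩ := S.exists_min_image lev hne
  have h1 := mass_band (lev p1 - 1) (⌊w⌋₊ + 1) (lev p1 + ⌊w⌋₊) (by have := (hS p1 hp1).2.1; omega)
  have hq : ∀ q ∈ S, lev q ≤ lev p1 + ⌊w⌋₊ := fun q hq => by
    have e1 := hw' p1 hp1 q hq
    have e2 := (hS p1 hp1).2.1
    have e3 := (hS q hq).2.1
    have e4 : lv i0 q - lv i0 p1 ≤ ⌊w⌋₊ := by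
      apply Nat.le_floor
      rcases le_total (lv i0 q) (lv i0 p1) with e | e
      · rw [Nat.sub_eq_zero_of_le e]; simpa using hw
      · rw [Nat.cast_sub e]; linarith
    simp only [lv] at e4; omega
  calc _ ≤ ∑ p ∈ S, 2 * if lev p1 - 1 < lev p ∧ lev p ≤ lev p1 - 1 + (⌊w⌋₊ + 1) then (1 : ℝ) / p
        else 0 := by
        apply sum_le_sum
        intro p hp
        have p1' := (hS p hp).1
        have e2 : (2 : ℝ) ≤ p := by exact_mod_cast p1'.two_le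
        have := hmin p hp
        have := hq p hp
        have := (hS p1 hp1).2.1
        rw [if_pos (by omega), cast_pred p1', mul_one_div,
          div_le_div_iff₀ (by linarith) (by linarith)]; linarith
    _ ≤ 2 * (((⌊w⌋₊ + 1 : ℕ) : ℝ) + 13) := by
        rw [← mul_sum]
        refine mul_le_mul_of_nonneg_left (le_trans (sum_le_sum_of_subset_of_nonneg
          (fun q hq' => mem_Pr.mpr ⟨(hS q hq').1, hq q hq'⟩) fun q _ _ => ?_) h1) (by norm_num)
        split_ifs <;> positivity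
    _ ≤ _ := by push_cast; linarith [Nat.floor_le hw]

lemma FF_upper {N u k : ℕ} (h : Ok N u) (hk : k ≤ 2) {a b : ℝ} (ha : 0 ≤ a) (hab : a ≤ b) :
    FF N u k b ≤ FF N u k a + ((8 * (b - a) + 28) * FF N u (k + 1) (b + 100 * (N : ℝ) ^ 58) +
      exp (-(N : ℝ) ^ 57)) := by
  have hn := h.n
  have hN1 : 1 ≤ N := by have := h.hN; omega
  refine or_bound _ (fun t => ck N u k t ≤ a) (fun t => a < ck N u k t) _ (fun _ _ => by positivity)
    (fun t _ => le_or_gt _ _) (fun W hW => le_FF W fun t ht =>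
      ⟨(mem_filter.mp (hW t ht).1).1, (hW t ht).2⟩) fun W hW => ?_
  have hW1 : ∀ t ∈ W, t ∈ Can N u := fun t ht => (mem_filter.mp (hW t ht).1).1
  refine or_bound W (fun t => ∃ p ∈ t.1, (∀ q ∈ t.1, q ≤ p) ∧
      TT u (N ^ 5) 0 (del p t).1 ≤ lv (N ^ 5) p + (N : ℝ) ^ 58)
    (fun t => ∃ p ∈ t.1, (∀ q ∈ t.1, q ≤ p) ∧
      lv (N ^ 5) p + (N : ℝ) ^ 58 ≤ TT u (N ^ 5) 0 (del p t).1) _ (fun _ _ => by positivity)
    (fun t ht => ?_) (fun W' hW' => ?_) fun W' hW' => ?_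
  · have hne : t.1.Nonempty := by
      rw [nonempty_iff_ne_empty]
      intro e
      have := (hW t ht).2
      rw [show t = (∅, t.2) from Prod.ext e rfl, ck_empty] at this
      linarith
    rcases le_total (TT u (N ^ 5) 0 (del (t.1.max' hne) t).1)
      (lv (N ^ 5) (t.1.max' hne) + (N : ℝ) ^ 58) with e | e
    · exact Or.inl ⟨_, max'_mem _ hne, fun q hq => le_max' _ q hq, e⟩
    · exact Or.inr ⟨_, max'_mem _ hne, fun q hq => le_max' _ q hq, e⟩
  · refine decomp_bound W' _ (fun t' p => ins p t')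
      (fun t' => t' ∈ Can N u ∧ ck N u (k + 1) t' ≤ b + 100 * (N : ℝ) ^ 58)
      (fun t' p => p ∈ GP N u (N ^ 5) ∧
        a < cc k (lv (N ^ 5) p) (push (lv (N ^ 5) p) fun j => TT u (N ^ 5) j t'.1) ∧
        cc k (lv (N ^ 5) p) (push (lv (N ^ 5) p) fun j => TT u (N ^ 5) j t'.1) ≤ b)
      (fun t' p => 1 / val t' * (1 / ((p - 1 : ℕ) : ℝ)))
      (fun t' => (8 * (b - a) + 28) * (1 / val t')) _ (fun _ _ _ _ => by positivity)
      (fun t ht => ?_) (fun t' _ S hS => ?_) fun S hS => ?_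
    · obtain ⟨htW, p, p1, p2, p3⟩ := hW' t ht
      have hp : p ∈ GP N u (N ^ 5) := (mem_Adm.mp (Can.adm (hW1 t htW))).1 p1
      have hlt : ∀ q ∈ (del p t).1, q < p := fun q hq => lt_of_mem_del p2 hq
      have e1 := ck_ins k hp hlt
      rw [ins_del p1] at e1
      have e2 := (mem_filter.mp (hW t htW).1).2
      refine ⟨del p t, p, ⟨can_del h (hW1 t htW) p1 p2, ?_⟩, ⟨hp, e1 ▸ (hW t htW).2, e1 ▸ e2⟩,
        ins_del p1, le_of_eq ?_⟩
      · rw [ck_succ]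
        refine (push_lip hk _ (by positivity) (ck_zero_le_of (s := lv (N ^ 5) p)
          (fun q hq => lv_mono _ (hlt q hq).le) (le_add_of_nonneg_right (by positivity)) p3)).trans ?_
        rw [← e1]; linarith
      · conv_lhs => rw [← ins_del p1, val_ins (notMem_erase _ _)]
        push_cast; rw [one_div_mul_one_div, mul_comm]
    · rw [← mul_sum, mul_comm]
      refine mul_le_mul_of_nonneg_right ?_ (by positivity)
      refine (band_sum (u := u) (i0 := N ^ 5) (Nat.one_le_pow _ _ hN1) S (4 * (b - a)) (by linarith)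
        (fun p hp => ?_) fun p hp q hq => ?_).trans (by linarith)
      · obtain ⟨a1, a2, a3, -⟩ := mem_GP.mp (hS p hp).1
        exact ⟨a1, a3, a2⟩
      · rcases le_total (lv (N ^ 5) q : ℝ) (lv (N ^ 5) p) with e | e
        · linarith
        · have := push_slope k (fun j => TT u (N ^ 5) j t'.1) e
          linarith [(hS p hp).2.1, (hS q hq).2.2]
    · rw [← mul_sum]
      exact mul_le_mul_of_nonneg_left (le_FF S hS) (by linarith)
  · have inj : Set.InjOn val (W' : Set (Finset ℕ × ℕ)) := fun t ht t' ht' e =>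
      can_inj (hW1 t (hW' t ht).1) (hW1 t' (hW' t' ht').1) e
    rw [← sum_image (f := fun v : ℕ => (1 : ℝ) / v) inj]
    refine (B_core h (sq_le_two_sq N) ((N : ℝ) ^ 58) _ fun v hv => ?_).trans (exp_le_exp.mpr ?_)
    · obtain ⟨t, ht, rfl⟩ := mem_image.mp hv
      obtain ⟨htW, p, p1, p2, p3⟩ := hW' t ht
      have ha := Can.adm (hW1 t htW)
      refine ⟨t, ha, 1, Or.inl rfl, mul_one _, ?_⟩
      rw [← insert_erase p1, Ph_insert (notMem_erase _ _) (lv_le ((mem_Adm.mp ha).1 p1))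
        fun q hq => lv_mono _ (p2 q (mem_of_mem_erase hq))]
      simp only [del] at p3
      linarith
    · have := h.pw 56 57 (by norm_num)
      have := h.pw 57 58 (by norm_num)
      have : (0 : ℝ) ≤ (N : ℝ) ^ 56 := by positivity
      linarith

lemma good_mass {N u : ℕ} (h : Ok N u) {a1 a2 : ℕ} (h12 : a1 ≤ a2) (hu : N ^ 5 + a2 ≤ u) :
    (a2 : ℝ) - a1 - 14 ≤ ∑ p ∈ GP N u (N ^ 5) with a1 < lv (N ^ 5) p ∧ lv (N ^ 5) p ≤ a2,
      (1 : ℝ) / ((p - 1 : ℕ) : ℝ) := by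
  have hn := h.n
  have hN1 : 2 ≤ N ^ 5 := by
    have := h.hN
    exact le_trans (by omega) (Nat.le_self_pow (by norm_num) N)
  have h1 := mass_sub (Nat.add_le_add_left h12 (N ^ 5))
  have h2 := or_bound ((Pr (N ^ 5 + a2)).filter fun q => N ^ 5 + a1 < lev q) (Nrm N)
    (fun p => ¬ Nrm N p) (fun q => (1 : ℝ) / q) (fun _ _ => by positivity) (fun _ _ => em _)
    (A := ∑ p ∈ GP N u (N ^ 5) with a1 < lv (N ^ 5) p ∧ lv (N ^ 5) p ≤ a2,
      (1 : ℝ) / ((p - 1 : ℕ) : ℝ)) (B := 1) (fun W hW => by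
      refine le_trans (sum_le_sum fun p hp => ?_) (sum_le_sum_of_subset_of_nonneg (fun p hp => ?_)
        fun _ _ _ => by positivity)
      · have p1 := (mem_Pr.mp (mem_filter.mp (hW p hp).1).1).1
        have e2 : (2 : ℝ) ≤ p := by exact_mod_cast p1.two_le
        rw [cast_pred p1]
        apply one_div_le_one_div_of_le <;> linarith
      · obtain ⟨b1, b2⟩ := mem_filter.mp (hW p hp).1
        obtain ⟨b3, b4⟩ := mem_Pr.mp b1
        exact mem_filter.mpr ⟨mem_GP.mpr ⟨b3, by omega, by omega, (hW p hp).2⟩,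
          by simp only [lv]; omega⟩) (fun W hW => by
      have := abn_weight h hN1 (by push_cast; rfl) W (fun p hp => by
        obtain ⟨b1, b2⟩ := mem_filter.mp (hW p hp).1
        obtain ⟨b3, b4⟩ := mem_Pr.mp b1
        exact ⟨b3, by omega, by omega, (hW p hp).2⟩)
      refine le_trans (sum_le_sum fun p hp => ?_) (this.trans (exp_le_one_iff.mpr ?_))
      · have p1 := (mem_Pr.mp (mem_filter.mp (hW p hp).1).1).1
        have e2 : (2 : ℝ) ≤ p := by exact_mod_cast p1.two_le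
        apply one_div_le_one_div_of_le <;> linarith
      · have := h.pw 1 5 (by norm_num)
        push_cast; linarith)
  have h3 := mass_le (N ^ 5 + a1)
  have h4 := le_mass (N ^ 5 + a2)
  push_cast at h3 h4
  linarith

lemma FF_lower {N u k : ℕ} (h : Ok N u) (hk : k ≤ 2) {x R : ℝ} (hx : x ≤ u - (N : ℝ) ^ 5)
    (hR : 300 * (N : ℝ) ^ 58 ≤ R) (hxR : R ≤ x) :
    R / 200 * FF N u (k + 1) (x - R) ≤ FF N u k x := by
  classical
  have hn := h.n
  have p58 := h.pw 0 58 (by norm_num)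
  obtain ⟨a1, ha1⟩ : ∃ a1 : Finset ℕ × ℕ → ℕ, a1 = fun t => ⌊ck N u 0 t + (N : ℝ) ^ 58⌋₊ + 1 :=
    ⟨_, rfl⟩
  obtain ⟨a2, ha2⟩ : ∃ a2 : Finset ℕ × ℕ → ℕ, a2 = fun t => ⌊ck N u 0 t + R / 100⌋₊ := ⟨_, rfl⟩
  have b1 : ∀ t, ck N u 0 t + (N : ℝ) ^ 58 ≤ a1 t := fun t => by
    rw [ha1]; push_cast; exact (Nat.lt_floor_add_one _).le
  have b2 : ∀ t, (a1 t : ℝ) ≤ ck N u 0 t + (N : ℝ) ^ 58 + 1 := fun t => by
    rw [ha1]; push_cast
    linarith [Nat.floor_le (a := ck N u 0 t + (N : ℝ) ^ 58) (by linarith [ck_nonneg N u t])]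
  have b3 : ∀ t, (a2 t : ℝ) ≤ ck N u 0 t + R / 100 := fun t => by
    rw [ha2]; exact Nat.floor_le (by linarith [ck_nonneg N u t])
  have b4 : ∀ t, ck N u 0 t + R / 100 ≤ a2 t + 1 := fun t => by
    rw [ha2]; exact (Nat.lt_floor_add_one _).le
  obtain ⟨C, hC⟩ : ∃ C, C = (Can N u).filter fun t => ck N u (k + 1) t ≤ x - R := ⟨_, rfl⟩
  obtain ⟨G, hG⟩ : ∃ G : Finset ℕ × ℕ → Finset ℕ, G = fun t =>
    (GP N u (N ^ 5)).filter fun p => a1 t < lv (N ^ 5) p ∧ lv (N ^ 5) p ≤ a2 t := ⟨_, rfl⟩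
  have hCm : ∀ t ∈ C, t ∈ Can N u ∧ ck N u (k + 1) t ≤ x - R := fun t ht => mem_filter.mp (hC ▸ ht)
  have hGm : ∀ t, ∀ p ∈ G t, p ∈ GP N u (N ^ 5) ∧ ck N u 0 t + (N : ℝ) ^ 58 ≤ lv (N ^ 5) p ∧
      (lv (N ^ 5) p : ℝ) ≤ ck N u 0 t + R / 100 := fun t p hp => by
    rw [hG] at hp
    obtain ⟨c1, c2, c3⟩ := mem_filter.mp hp
    have c2' : (a1 t : ℝ) ≤ lv (N ^ 5) p := by exact_mod_cast c2.le
    have c3' : (lv (N ^ 5) p : ℝ) ≤ a2 t := by exact_mod_cast c3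
    exact ⟨c1, by linarith [b1 t], by linarith [b3 t]⟩
  have hlt : ∀ t, ∀ p ∈ G t, ∀ q ∈ t.1, q < p := fun t p hp q hq => by
    by_contra hc
    have e1 : (lv (N ^ 5) p : ℝ) ≤ lv (N ^ 5) q := by exact_mod_cast lv_mono _ (not_lt.mp hc)
    linarith [lv_le_ck N u hq, (hGm t p hp).2.1]
  have h1 : (R / 100 - (N : ℝ) ^ 58 - 16) * FF N u (k + 1) (x - R) ≤
      ∑ t ∈ C, ∑ p ∈ G t, (1 : ℝ) / val (ins p t) := by
    rw [FF, ← hC, mul_sum]
    apply sum_le_sum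
    intro t ht
    have e1 := good_mass h (a1 := a1 t) (a2 := a2 t)
      (by have : (a1 t : ℝ) ≤ a2 t := by linarith [b2 t, b4 t]
          exact_mod_cast this)
      (by have : ((N ^ 5 + a2 t : ℕ) : ℝ) ≤ u := by
            push_cast
            linarith [b3 t, ck_zero_le N u (k + 1) t, (hCm t ht).2]
          exact_mod_cast this)
    calc _ ≤ (∑ p ∈ G t, (1 : ℝ) / ((p - 1 : ℕ) : ℝ)) * (1 / val t) := by
          refine mul_le_mul_of_nonneg_right ?_ (by positivity)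
          rw [hG]; linarith [b2 t, b4 t]
      _ = _ := by
          rw [sum_mul]
          refine sum_congr rfl fun p hp => ?_
          rw [val_ins (not_mem_of_lt (hlt t p hp)), one_div_mul_one_div]; push_cast; rfl
  have h2 : ∑ t ∈ C, ∑ p ∈ G t, (1 : ℝ) / val (ins p t) =
      ∑ s ∈ (C.sigma G).image fun z => ins z.2 z.1, (1 : ℝ) / val s := by
    rw [sum_sigma', sum_image]
    intro z hz z' hz' e
    simp only [coe_sigma, Set.mem_sigma_iff, mem_coe] at hz hz'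
    obtain ⟨e1, e2⟩ := ins_inj (hlt _ _ hz.2) (hlt _ _ hz'.2) e
    exact Sigma.ext e2 (heq_of_eq e1)
  have hM : N ^ 2 + 1 + 1 ≤ 2 * N ^ 2 := by have := h.hN; nlinarith
  have h3 := or_bound ((C.sigma G).image fun z => ins z.2 z.1)
    (fun s => s ∈ Can N u ∧ ck N u k s ≤ x)
    (fun s => ∃ t ∈ C, ∃ p ∈ G t, s = ins p t ∧ (Coll N u (N ^ 2 + 1) p s ∨
      (¬ Coll N u (N ^ 2 + 1) p s ∧ Bad u (N ^ 5) (val s)))) (fun s => (1 : ℝ) / val s)
    (fun _ _ => by positivity) (fun s hs => by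
      obtain ⟨⟨t, p⟩, hz, rfl⟩ := mem_image.mp hs
      obtain ⟨ht, hp⟩ := mem_sigma.mp hz
      simp only at ht hp ⊢
      by_cases c1 : Coll N u (N ^ 2 + 1) p (ins p t)
      · exact Or.inr ⟨t, ht, p, hp, rfl, Or.inl c1⟩
      by_cases c2 : Bad u (N ^ 5) (val (ins p t))
      · exact Or.inr ⟨t, ht, p, hp, rfl, Or.inr ⟨c1, c2⟩⟩
      refine Or.inl ⟨can_ins h (hCm t ht).1 (hGm t p hp).1 (hlt t p hp) c2 c1, ?_⟩
      rw [ck_ins k (hGm t p hp).1 (hlt t p hp)]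
      have := push_lip hk (fun j => TT u (N ^ 5) j t.1) (δ := R / 100) (by linarith) (hGm t p hp).2.2
      rw [← ck_succ] at this
      linarith [(hCm t ht).2])
    (fun W hW => le_FF W fun t ht => (hW t ht).2) (B := 1 + 1) (fun W hW => by
      refine or_bound W (fun s => ∃ t ∈ C, ∃ p ∈ G t, s = ins p t ∧ Coll N u (N ^ 2 + 1) p s)
        (fun s => ∃ t ∈ C, ∃ p ∈ G t, s = ins p t ∧
          ¬ Coll N u (N ^ 2 + 1) p s ∧ Bad u (N ^ 5) (val s)) _ (fun _ _ => by positivity)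
        (fun s hs => ?_) (fun W' hW' => ?_) fun W' hW' => ?_
      · obtain ⟨t, ht, p, hp, e, c | c⟩ := (hW s hs).2
        exacts [Or.inl ⟨t, ht, p, hp, e, c⟩, Or.inr ⟨t, ht, p, hp, e, c⟩]
      · refine (col_weight h hM (-(N : ℝ) ^ 58) W' fun s hs => ?_).trans (exp_le_one_iff.mpr ?_)
        · obtain ⟨t, ht, p, hp, rfl, c⟩ := (hW' s hs).2
          refine ⟨ins_adm (Can.adm (hCm t ht).1) (hGm t p hp).1, p, mem_insert_self _ _,
            fun q hq => ?_, ?_, c⟩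
          · rcases mem_insert.mp hq with rfl | hq
            exacts [le_rfl, (hlt t p hp q hq).le]
          · simp only [ins, erase_insert (not_mem_of_lt (hlt t p hp))]
            linarith [TT_le_ck N u t, (hGm t p hp).2.1]
        · have := h.pw 56 58 (by norm_num)
          have : (0 : ℝ) ≤ (N : ℝ) ^ 56 := by positivity
          linarith
      · have inj : Set.InjOn val (W' : Set (Finset ℕ × ℕ)) := fun s hs s' hs' e => by
          obtain ⟨t, ht, p, hp, rfl, c, -⟩ := (hW' s hs).2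
          obtain ⟨t', ht', p', hp', rfl, c', -⟩ := (hW' s' hs').2
          obtain ⟨rfl, rfl⟩ := pair_inj (hCm t ht).1 (hCm t' ht').1 (hGm t p hp).1 (hGm t' p' hp').1
            (hlt t p hp) (hlt t' p' hp') c c' e
          rfl
        rw [← sum_image (f := fun v : ℕ => (1 : ℝ) / v) inj]
        refine (bad_sum h (N ^ 5) _ fun v hv => ?_).trans (exp_le_one_iff.mpr ?_)
        · obtain ⟨s, hs, rfl⟩ := mem_image.mp hv
          obtain ⟨t, ht, p, hp, -, -, c⟩ := (hW' s hs).2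
          exact c
        · have := h.pw 1 5 (by norm_num)
          push_cast; linarith)
  have h4 := one_le_FF N u (k + 1) (x := x - R) (by linarith)
  nlinarith

lemma anti_num (n U Z A0 A1 A2 A3 B1 B2 B3 B4 B5 η : ℝ)
    (pw : ∀ a b : ℕ, a < b → 1000000 * n ^ a ≤ n ^ b) (hU1 : n ^ 100 / 4 ≤ U)
    (u0 : A0 ≤ Z + ((8 * (U + n ^ 58 - (U - n ^ 58)) + 28) * A1 + η))
    (u1 : A1 ≤ B1 + ((8 * (U + n ^ 58 + 100 * n ^ 58 - (U - n ^ 58 - n ^ 62)) + 28) * A2 + η))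
    (u2 : A2 ≤ B3 + ((8 * (U + n ^ 58 + 100 * n ^ 58 + 100 * n ^ 58 -
      (U - n ^ 58 - n ^ 66 - n ^ 66)) + 28) * A3 + η))
    (g : A3 ≤ B5) (l1 : n ^ 62 / 200 * B1 ≤ Z) (l2 : n ^ 66 / 200 * B2 ≤ Z)
    (l3 : n ^ 66 / 200 * B3 ≤ B2) (l4 : U / 20 / 200 * B4 ≤ Z) (l5 : U / 20 / 200 * B5 ≤ B4)
    (z0 : 1 ≤ Z) (z1 : 1 ≤ A1) (z2 : 1 ≤ A2) (z3 : 1 ≤ B5) (z4 : 1 ≤ B3) (hη : η * n ^ 130 ≤ 1)
    (hη0 : 0 < η) : A0 ≤ (1 + 1 / n ^ 3) * Z := by
  have hn : 1000000 ≤ n := by simpa using pw 0 1 (by norm_num)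
  have n0 : 0 < n := by linarith
  have p0 := pw 0 58 (by norm_num)
  have p2 := pw 58 62 (by norm_num)
  have p3 := pw 62 66 (by norm_num)
  have p4 := pw 66 100 (by norm_num)
  have c1 : n ^ 62 * B1 ≤ 200 * Z := by linarith only [l1]
  have c2 : n ^ 132 * B3 ≤ 40000 * Z := by
    have : n ^ 66 * (n ^ 66 / 200 * B3) ≤ n ^ 66 * B2 := by gcongr
    linarith only [this, l2]
  have c3 : n ^ 200 * B5 ≤ 256000000 * Z := by
    have e1 : U / 20 / 200 * (U / 20 / 200 * B5) ≤ U / 20 / 200 * B4 :=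
      mul_le_mul_of_nonneg_left l5 (by linarith)
    have e2 : (n ^ 100 / 16000) * (n ^ 100 / 16000 * B5) ≤ U / 20 / 200 * (U / 20 / 200 * B5) := by
      have e3 : n ^ 100 / 16000 ≤ U / 20 / 200 := by linarith only [hU1]
      gcongr
      linarith
    linarith only [e1, e2, l4]
  have d2 : A2 ≤ B3 + 17 * n ^ 66 * B5 + η := by
    have a : (8 * (U + n ^ 58 + 100 * n ^ 58 + 100 * n ^ 58 - (U - n ^ 58 - n ^ 66 - n ^ 66)) + 28) * A3
        ≤ (8 * (U + n ^ 58 + 100 * n ^ 58 + 100 * n ^ 58 - (U - n ^ 58 - n ^ 66 - n ^ 66)) + 28) * B5 :=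
      mul_le_mul_of_nonneg_left g (by linarith)
    have : (8 * (U + n ^ 58 + 100 * n ^ 58 + 100 * n ^ 58 - (U - n ^ 58 - n ^ 66 - n ^ 66)) + 28) * B5
        ≤ 17 * n ^ 66 * B5 := mul_le_mul_of_nonneg_right (by linarith) (by linarith)
    linarith only [this, a, u2]
  have d1 : A1 ≤ B1 + 9 * n ^ 62 * A2 + η := by
    have : (8 * (U + n ^ 58 + 100 * n ^ 58 - (U - n ^ 58 - n ^ 62)) + 28) * A2 ≤ 9 * n ^ 62 * A2 :=
      mul_le_mul_of_nonneg_right (by linarith) (by linarith)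
    linarith only [this, u1]
  have d0 : A0 ≤ Z + 17 * n ^ 58 * A1 + η := by
    have : (8 * (U + n ^ 58 - (U - n ^ 58)) + 28) * A1 ≤ 17 * n ^ 58 * A1 :=
      mul_le_mul_of_nonneg_right (by linarith) (by linarith)
    linarith only [this, u0]
  have pw' : ∀ (a b : ℕ) (x : ℝ), a < b → 0 ≤ x → 1000000 * (n ^ a * x) ≤ n ^ b * x :=
    fun a b x hab hx => by
      rw [← mul_assoc]; exact mul_le_mul_of_nonneg_right (pw a b hab) hx
  have f2 : n ^ 130 * A2 ≤ 3 * Z := by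
    have e1 : n ^ 130 * A2 ≤ n ^ 130 * (B3 + 17 * n ^ 66 * B5 + η) := by gcongr
    have e2 := pw' 130 132 B3 (by norm_num) (by linarith)
    have e3 := pw' 196 197 B5 (by norm_num) (by linarith)
    have e4 := pw' 197 200 B5 (by norm_num) (by linarith)
    linarith only [e1, e2, e3, e4, c2, c3, hη, z0]
  have f1 : n ^ 62 * A1 ≤ 202 * Z := by
    have e1 : n ^ 62 * A1 ≤ n ^ 62 * (B1 + 9 * n ^ 62 * A2 + η) := by gcongr
    have e2 := pw' 124 130 A2 (by norm_num) (by linarith)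
    have e3 := pw' 62 130 η (by norm_num) hη0.le
    linarith only [e1, e2, e3, c1, f2, hη, z0]
  have f0 : n ^ 3 * A0 ≤ n ^ 3 * Z + Z := by
    have e1 : n ^ 3 * A0 ≤ n ^ 3 * (Z + 17 * n ^ 58 * A1 + η) := by gcongr
    have e2 := pw' 61 62 A1 (by norm_num) (by linarith)
    have e3 := pw' 3 130 η (by norm_num) hη0.le
    linarith only [e1, e2, e3, f1, hη, z0]
  have : (1 + 1 / n ^ 3) * Z = (n ^ 3 * Z + Z) / n ^ 3 := by field_simp
  rw [this, le_div_iff₀ (by positivity)]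
  linarith only [f0]

lemma anti {N u : ℕ} (h : Ok N u) :
    FF N u 0 (u - (N : ℝ) ^ 5 + (N : ℝ) ^ 58) ≤
      (1 + 1 / (N : ℝ) ^ 3) * FF N u 0 (u - (N : ℝ) ^ 5 - (N : ℝ) ^ 58) := by
  have hn := h.n
  obtain ⟨U, hU⟩ : ∃ U : ℝ, U = u - (N : ℝ) ^ 5 := ⟨_, rfl⟩
  have p0 := h.pw 0 5 (by norm_num)
  have p1 := h.pw 5 58 (by norm_num)
  have p2 := h.pw 58 62 (by norm_num)
  have p3 := h.pw 62 66 (by norm_num)
  have p4 := h.pw 66 100 (by norm_num)
  have hU1 : (N : ℝ) ^ 100 / 4 ≤ U := by rw [hU]; linarith [h.u']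
  have u0 := FF_upper h (k := 0) (by norm_num) (a := U - (N : ℝ) ^ 58) (b := U + (N : ℝ) ^ 58)
    (by linarith) (by linarith)
  have u1 := FF_upper h (k := 1) (by norm_num) (a := U - (N : ℝ) ^ 58 - (N : ℝ) ^ 62)
    (b := U + (N : ℝ) ^ 58 + 100 * (N : ℝ) ^ 58) (by linarith) (by linarith)
  have u2 := FF_upper h (k := 2) (by norm_num) (a := U - (N : ℝ) ^ 58 - (N : ℝ) ^ 66 - (N : ℝ) ^ 66)
    (b := U + (N : ℝ) ^ 58 + 100 * (N : ℝ) ^ 58 + 100 * (N : ℝ) ^ 58) (by linarith) (by linarith)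
  have g := (FF_grow N u 1 (U + (N : ℝ) ^ 58 + 100 * (N : ℝ) ^ 58 + 100 * (N : ℝ) ^ 58 +
    100 * (N : ℝ) ^ 58)).trans (FF_mono N u 2
      (y := U - (N : ℝ) ^ 58 - U / 20 - U / 20) (by linarith))
  have l1 := FF_lower h (k := 0) (by norm_num) (x := U - (N : ℝ) ^ 58) (R := (N : ℝ) ^ 62)
    (by linarith) (by linarith) (by linarith)
  have l2 := FF_lower h (k := 0) (by norm_num) (x := U - (N : ℝ) ^ 58) (R := (N : ℝ) ^ 66)
    (by linarith) (by linarith) (by linarith)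
  have l3 := FF_lower h (k := 1) (by norm_num) (x := U - (N : ℝ) ^ 58 - (N : ℝ) ^ 66)
    (R := (N : ℝ) ^ 66) (by linarith) (by linarith) (by linarith)
  have l4 := FF_lower h (k := 0) (by norm_num) (x := U - (N : ℝ) ^ 58) (R := U / 20)
    (by linarith) (by linarith) (by linarith)
  have l5 := FF_lower h (k := 1) (by norm_num) (x := U - (N : ℝ) ^ 58 - U / 20)
    (R := U / 20) (by linarith) (by linarith) (by linarith)
  have z0 := one_le_FF N u 0 (x := U - (N : ℝ) ^ 58) (by linarith)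
  have z1 := one_le_FF N u 1 (x := U + (N : ℝ) ^ 58 + 100 * (N : ℝ) ^ 58) (by linarith)
  have z2 := one_le_FF N u 2 (x := U + (N : ℝ) ^ 58 + 100 * (N : ℝ) ^ 58 + 100 * (N : ℝ) ^ 58)
    (by linarith)
  have z3 := one_le_FF N u 2 (x := U - (N : ℝ) ^ 58 - U / 20 - U / 20) (by linarith)
  have z4 := one_le_FF N u 2 (x := U - (N : ℝ) ^ 58 - (N : ℝ) ^ 66 - (N : ℝ) ^ 66) (by linarith)
  have hη : exp (-(N : ℝ) ^ 57) * (N : ℝ) ^ 130 ≤ 1 := by
    have e1 := pow_le_exp N (by linarith) 130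
    have e2 := h.pw 1 57 (by norm_num)
    calc _ ≤ exp (-(N : ℝ) ^ 57) * exp ((130 : ℕ) * N) := by gcongr
      _ ≤ 1 := by rw [← exp_add, exp_le_one_iff]; push_cast; linarith
  have hη0 := exp_pos (-(N : ℝ) ^ 57)
  rw [← hU]
  exact anti_num N U _ _ _ _ _ _ _ _ _ _ _ h.pw hU1 u0 u1 u2 g l1 l2 l3 l4 l5 z0 z1 z2 z3 z4 hη hη0

end Vale.Agent.P031
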