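import Mathlib

/-! Additive functions, Euler product bounds, Abel summation, dyadic summation, Mertens. -/

namespace Vale.Agent.P031

open Finset Real

/-- additive function over the prime factors with multiplicity -/
noncomputable def Ad (f : ℕ → ℝ) (m : ℕ) : ℝ := (m.primeFactorsList.map f).sum

lemma Ad_mul (f : ℕ → ℝ) {a b : ℕ} (ha : a ≠ 0) (hb : b ≠ 0) :
    Ad f (a * b) = Ad f a + Ad f b := by
  unfold Ad
  rw [((Nat.perm_primeFactorsList_mul ha hb).map f).sum_eq, List.map_append, List.sum_append]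

@[simp] lemma Ad_one (f : ℕ → ℝ) : Ad f 1 = 0 := by simp [Ad]

lemma Ad_prime (f : ℕ → ℝ) {p : ℕ} (hp : p.Prime) : Ad f p = f p := by
  simp [Ad, Nat.primeFactorsList_prime hp]

lemma Ad_prod {ι : Type*} (f : ℕ → ℝ) (s : Finset ι) (g : ι → ℕ) (h : ∀ i ∈ s, g i ≠ 0) :
    Ad f (∏ i ∈ s, g i) = ∑ i ∈ s, Ad f (g i) := by
  classical
  induction s using Finset.induction_on with
  | empty => simp
  | insert a s ha ih =>
    rw [prod_insert ha, sum_insert ha, Ad_mul f (h a (mem_insert_self _ _))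
      (prod_ne_zero_iff.mpr fun i hi => h i (mem_insert_of_mem hi)),
      ih fun i hi => h i (mem_insert_of_mem hi)]

lemma Ad_mono {f g : ℕ → ℝ} {m : ℕ} (h : ∀ q, q.Prime → q ∣ m → f q ≤ g q) :
    Ad f m ≤ Ad g m := by
  unfold Ad
  apply List.sum_le_sum
  intro q hq
  exact h q (Nat.prime_of_mem_primeFactorsList hq) (Nat.dvd_of_mem_primeFactorsList hq)

lemma Ad_congr {f g : ℕ → ℝ} {m : ℕ} (h : ∀ q, q.Prime → q ∣ m → f q = g q) :
    Ad f m = Ad g m :=
  le_antisymm (Ad_mono fun q h1 h2 => (h q h1 h2).le) (Ad_mono fun q h1 h2 => (h q h1 h2).ge)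

lemma Ad_add (f g : ℕ → ℝ) (m : ℕ) : Ad (fun q => f q + g q) m = Ad f m + Ad g m := by
  unfold Ad
  exact List.sum_map_add

lemma Ad_smul (c : ℝ) (f : ℕ → ℝ) (m : ℕ) : Ad (fun q => c * f q) m = c * Ad f m := by
  unfold Ad
  exact List.sum_map_mul_left _ _ _

lemma Ad_zero (m : ℕ) : Ad (fun _ => 0) m = 0 := by
  simp [Ad]

lemma Ad_nonneg {f : ℕ → ℝ} {m : ℕ} (h : ∀ q, q.Prime → q ∣ m → 0 ≤ f q) : 0 ≤ Ad f m := by
  rw [← Ad_zero m]; exact Ad_mono h

lemma Ad_sum {ι : Type*} (s : Finset ι) (f : ι → ℕ → ℝ) (m : ℕ) :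
    Ad (fun q => ∑ i ∈ s, f i q) m = ∑ i ∈ s, Ad (f i) m := by
  classical
  induction s using Finset.induction_on with
  | empty => simpa using Ad_zero m
  | insert a s ha ih =>
    simp only [sum_insert ha]
    rw [Ad_add, ih]

lemma Ad_log {m : ℕ} (hm : m ≠ 0) : Ad (fun q => log q) m = log m := by
  induction m using Nat.recOnMul with
  | zero => exact absurd rfl hm
  | one => simp
  | prime p hp => exact Ad_prime _ hp
  | mul a b iha ihb =>
    have ha : a ≠ 0 := left_ne_zero_of_mul hm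
    have hb : b ≠ 0 := right_ne_zero_of_mul hm
    rw [Ad_mul _ ha hb, iha ha, ihb hb, Nat.cast_mul,
      log_mul (by exact_mod_cast ha) (by exact_mod_cast hb)]

lemma inv_one_sub_le {x : ℝ} (h0 : 0 ≤ x) (h1 : x ≤ 3 / 4) : (1 - x)⁻¹ ≤ exp (x + 4 * x ^ 2) := by
  have h2 : 0 < 1 - x := by linarith
  have h3 : (1 - x)⁻¹ ≤ (x + 4 * x ^ 2) + 1 := by
    rw [inv_le_iff_one_le_mul₀ h2]
    nlinarith [mul_nonneg (sq_nonneg x) (by linarith : 0 ≤ 3 - 4 * x)]
  exact h3.trans (add_one_le_exp _)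

/-- Euler product bound -/
lemma EP0 (P : Finset ℕ) (f : ℕ → ℝ) (hf : ∀ q ∈ P, exp (f q) ≤ 3 / 4 * q) (S : Finset ℕ)
    (hS : ∀ m ∈ S, m ≠ 0 ∧ ∀ q, q.Prime → q ∣ m → q ∈ P) :
    ∑ m ∈ S, exp (Ad f m) / m ≤ exp (∑ q ∈ P, (exp (f q) / q + 4 * (exp (f q) / q) ^ 2)) := by
  classical
  let w : ℕ → ℝ := fun q => if q ∈ P then exp (f q) / q else 0
  have hw0 : ∀ q, 0 ≤ w q := fun q => by
    simp only [w]; split_ifs <;> positivity
  have hw1 : ∀ q, w q ≤ 3 / 4 := fun q => by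
    simp only [w]; split_ifs with h
    · have h1 := hf q h
      have h2 : (0 : ℝ) < q := by
        have := exp_pos (f q)
        linarith
      rw [div_le_iff₀ h2]; exact h1
    · norm_num
  let F : ℕ →* ℝ :=
    { toFun := fun m => if m = 0 then 0 else (m.primeFactorsList.map w).prod
      map_one' := by simp
      map_mul' := by
        intro a b
        by_cases ha : a = 0
        · simp [ha]
        by_cases hb : b = 0
        · simp [hb]
        simp only [ha, hb, mul_eq_zero, or_self, if_false]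
        rw [((Nat.perm_primeFactorsList_mul ha hb).map w).prod_eq, List.map_append,
          List.prod_append] }
  have hFp : ∀ p : ℕ, p.Prime → F p = w p := fun p hp => by
    simp [F, hp.ne_zero, Nat.primeFactorsList_prime hp]
  have hF0 : ∀ m, 0 ≤ F m := fun m => by
    simp only [F, MonoidHom.coe_mk, OneHom.coe_mk]
    split_ifs
    · exact le_rfl
    · apply List.prod_nonneg
      intro a ha
      obtain ⟨q, _, rfl⟩ := List.mem_map.mp ha
      exact hw0 q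
  have hFS : ∀ m : ℕ, m ≠ 0 → (∀ q, q.Prime → q ∣ m → q ∈ P) → F m = exp (Ad f m) / m := by
    intro m
    induction m using Nat.recOnMul with
    | zero => intro h; exact absurd rfl h
    | one => intro _ _; simp
    | prime p hp =>
      intro _ h
      rw [hFp p hp, Ad_prime _ hp]; simp [w, h p hp dvd_rfl]
    | mul a b iha ihb =>
      intro hm h
      have ha : a ≠ 0 := left_ne_zero_of_mul hm
      have hb : b ≠ 0 := right_ne_zero_of_mul hm
      rw [map_mul, iha ha (fun q h1 h2 => h q h1 (h2.mul_right _)),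
        ihb hb (fun q h1 h2 => h q h1 (h2.mul_left _)), Ad_mul _ ha hb, exp_add]
      push_cast; ring
  have hsum := (EulerProduct.summable_and_hasSum_factoredNumbers_prod_filter_prime_geometric
    (f := F) (fun {p} hp => by
      rw [hFp p hp, Real.norm_eq_abs, abs_of_nonneg (hw0 p)]; linarith [hw1 p]) P).2
  have hmem : ∀ m ∈ S, m ∈ Nat.factoredNumbers P := fun m hm =>
    Nat.mem_factoredNumbers'.mpr (hS m hm).2
  calc ∑ m ∈ S, exp (Ad f m) / m = ∑ m ∈ S, F m :=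
        sum_congr rfl fun m hm => (hFS m (hS m hm).1 (hS m hm).2).symm
    _ = ∑ m ∈ S.subtype (· ∈ Nat.factoredNumbers P), F m := by
        rw [Finset.sum_subtype_of_mem (fun m => F m) hmem]
    _ ≤ ∏ p ∈ P with p.Prime, (1 - F p)⁻¹ := sum_le_hasSum _ (fun i _ => hF0 _) hsum
    _ ≤ ∏ p ∈ P with p.Prime, exp (exp (f p) / p + 4 * (exp (f p) / p) ^ 2) := by
        apply prod_le_prod
        · intro p hp
          rw [hFp p (mem_filter.mp hp).2]
          have := hw1 p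
          apply inv_nonneg.mpr; linarith
        · intro p hp
          rw [hFp p (mem_filter.mp hp).2]
          have := inv_one_sub_le (hw0 p) (hw1 p)
          simpa [w, (mem_filter.mp hp).1] using this
    _ ≤ _ := by
        rw [← exp_sum]
        apply exp_le_exp.mpr
        apply sum_le_sum_of_subset_of_nonneg (filter_subset _ _)
        intro i _ _; positivity

lemma sum_inv_sq_le (P : Finset ℕ) (k : ℕ) (hP : ∀ q ∈ P, k < q) :
    ∑ q ∈ P, ((q : ℝ) ^ 2)⁻¹ ≤ 2 / (k + 1) := by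
  refine le_trans ?_ (sum_Ioo_inv_sq_le (α := ℝ) k (P.sup id + 1))
  apply sum_le_sum_of_subset_of_nonneg
  · intro q hq
    rw [mem_Ioo]
    exact ⟨hP q hq, Nat.lt_succ_of_le (le_sup (f := id) hq)⟩
  · intro i _ _; positivity

lemma EP (P : Finset ℕ) (hP : ∀ q ∈ P, q.Prime) (f : ℕ → ℝ) (Z : ℝ)
    (hf : ∀ q ∈ P, exp (f q) ≤ 3 / 4 * q) (hZ : ∀ q ∈ P, exp (f q) ≤ Z) (S : Finset ℕ)
    (hS : ∀ m ∈ S, m ≠ 0 ∧ ∀ q, q.Prime → q ∣ m → q ∈ P) :
    ∑ m ∈ S, exp (Ad f m) / m ≤ exp (∑ q ∈ P, exp (f q) / q + 4 * Z ^ 2) := by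
  refine (EP0 P f hf S hS).trans (exp_le_exp.mpr ?_)
  rw [sum_add_distrib, ← mul_sum]
  have h1 := sum_inv_sq_le P 1 (fun q hq => (hP q hq).one_lt)
  have h2 : ∑ q ∈ P, (exp (f q) / q) ^ 2 ≤ ∑ q ∈ P, Z ^ 2 * ((q : ℝ) ^ 2)⁻¹ := by
    apply sum_le_sum
    intro q hq
    rw [div_pow, div_eq_mul_inv]
    gcongr
    exact hZ q hq
  rw [← mul_sum] at h2
  have h3 : Z ^ 2 * ∑ q ∈ P, ((q : ℝ) ^ 2)⁻¹ ≤ Z ^ 2 * 1 := by
    gcongr; norm_num at h1 ⊢; exact h1
  linarith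

lemma exp_two_fifth : exp (2 / 5) ≤ 3 / 2 := by
  have := Real.exp_bound' (x := 2 / 5) (by norm_num) (by norm_num) (n := 4) (by norm_num)
  simp [sum_range_succ, Nat.factorial] at this
  linarith

lemma EP1 (P : Finset ℕ) (hP : ∀ q ∈ P, q.Prime) (f : ℕ → ℝ)
    (hf : ∀ q ∈ P, f q ≤ 2 / 5) (S : Finset ℕ)
    (hS : ∀ m ∈ S, m ≠ 0 ∧ ∀ q, q.Prime → q ∣ m → q ∈ P) :
    ∑ m ∈ S, exp (Ad f m) / m ≤ exp (∑ q ∈ P, exp (f q) / q + 9) := by
  have h : ∀ q ∈ P, exp (f q) ≤ 3 / 2 := fun q hq =>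
    (exp_le_exp.mpr (hf q hq)).trans exp_two_fifth
  have := EP P hP f (3 / 2) (fun q hq => by
    have h2 : (2 : ℝ) ≤ q := by exact_mod_cast (hP q hq).two_le
    linarith [h q hq]) h S hS
  norm_num at this ⊢
  exact this

/-- Abel summation -/
lemma abel_ge (φ δ : ℕ → ℝ) (H : ℝ) (n : ℕ) (hφ : ∀ i, φ (i + 1) ≤ φ i) (h0 : ∀ i, 0 ≤ φ i)
    (hD : ∀ k ≤ n, -H ≤ ∑ i ∈ range k, δ i) : -H * φ 0 ≤ ∑ i ∈ range n, φ i * δ i := by
  have key : ∀ k ≤ n, -H * φ 0 + φ k * (∑ i ∈ range k, δ i + H) ≤ ∑ i ∈ range k, φ i * δ i := by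
    intro k
    induction k with
    | zero => intro _; simp; linarith
    | succ k ih =>
      intro hk
      have h1 := ih (by omega)
      have h2 := hD (k + 1) hk
      rw [sum_range_succ] at h2
      rw [sum_range_succ, sum_range_succ]
      nlinarith [hφ k]
  have := key n le_rfl
  have h2 := hD n le_rfl
  nlinarith [h0 n]

/-- dyadic summation: a linear counting bound gives a logarithmic bound for reciprocals -/
lemma dyadic {ι : Type*} (T : Finset ι) (w : ι → ℝ) (K Λ : ℝ) (hK : 0 ≤ K) (hΛ : 0 ≤ Λ)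
    (h1 : ∀ i ∈ T, 1 ≤ w i) (h2 : ∀ i ∈ T, log (w i) ≤ Λ)
    (hc : ∀ y : ℝ, 0 < y → ((T.filter fun i => w i ≤ y).card : ℝ) ≤ K * y) :
    ∑ i ∈ T, 1 / w i ≤ 3 * K * (Λ + 1) := by
  classical
  have hmap : ∀ i ∈ T, ⌊log (w i)⌋₊ ∈ range (⌊Λ⌋₊ + 1) := fun i hi =>
    mem_range.mpr (Nat.lt_succ_of_le (Nat.floor_le_floor (h2 i hi)))
  rw [← sum_fiberwise_of_maps_to hmap]
  have hb : ∀ j ∈ range (⌊Λ⌋₊ + 1), ∑ i ∈ T with ⌊log (w i)⌋₊ = j, 1 / w i ≤ 3 * K := by
    intro j _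
    have h3 : ∑ i ∈ T with ⌊log (w i)⌋₊ = j, 1 / w i
        ≤ ((T.filter fun i => ⌊log (w i)⌋₊ = j).card : ℝ) * exp (-j) := by
      rw [← nsmul_eq_mul]
      apply sum_le_card_nsmul
      intro i hi
      rw [mem_filter] at hi
      have h4 : (j : ℝ) ≤ log (w i) := by
        rw [← hi.2]; exact Nat.floor_le (log_nonneg (h1 i hi.1))
      have h5 : 0 < w i := by linarith [h1 i hi.1]
      rw [exp_neg, one_div]
      apply inv_anti₀ (exp_pos _)
      exact (le_log_iff_exp_le h5).mp h4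
    have h4 : ((T.filter fun i => ⌊log (w i)⌋₊ = j).card : ℝ) ≤ K * exp (j + 1) := by
      refine le_trans ?_ (hc _ (exp_pos _))
      norm_cast
      apply card_le_card
      intro i hi
      rw [mem_filter] at hi ⊢
      refine ⟨hi.1, ?_⟩
      have h5 : 0 < w i := by linarith [h1 i hi.1]
      have h6 : log (w i) < (j : ℝ) + 1 := by rw [← hi.2]; exact Nat.lt_floor_add_one _
      push_cast
      exact ((log_lt_iff_lt_exp h5).mp h6).le
    calc _ ≤ K * exp (j + 1) * exp (-j) := h3.trans (by gcongr)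
      _ = K * exp 1 := by rw [mul_assoc, ← exp_add]; congr 2; ring
      _ ≤ K * 3 := by gcongr; linarith [exp_one_lt_d9]
      _ = _ := by ring
  calc _ ≤ ∑ _j ∈ range (⌊Λ⌋₊ + 1), 3 * K := sum_le_sum hb
    _ = (⌊Λ⌋₊ + 1) * (3 * K) := by simp
    _ ≤ (Λ + 1) * (3 * K) := by gcongr; exact Nat.floor_le hΛ
    _ = _ := by ring

end Vale.Agent.P031
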