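import Vale.Agent.P031.Col

/-! Canonical tuples and the iterated functionals. -/

namespace Vale.Agent.P031

open Finset Real

open Classical in
/-- strongly admissible tuples -/
noncomputable def Ad2 (N u : ℕ) : Finset (Finset ℕ × ℕ) :=
  (Adm N u (N ^ 5) (N ^ 2)).filter (NB u (N ^ 5))

/-- the colex weight -/
def kap (P : Finset ℕ) : ℕ := ∑ p ∈ P, 2 ^ p

open Classical in
/-- canonical tuples -/
noncomputable def Can (N u : ℕ) : Finset (Finset ℕ × ℕ) :=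
  (Ad2 N u).filter fun t => ∀ t' ∈ Ad2 N u, val t' = val t → kap t.1 ≤ kap t'.1

/-- insert a prime -/
def ins (p : ℕ) (t : Finset ℕ × ℕ) : Finset ℕ × ℕ := (insert p t.1, t.2)

/-- remove a prime -/
def del (p : ℕ) (t : Finset ℕ × ℕ) : Finset ℕ × ℕ := (t.1.erase p, t.2)

lemma mem_Ad2 {N u : ℕ} {t : Finset ℕ × ℕ} :
    t ∈ Ad2 N u ↔ t ∈ Adm N u (N ^ 5) (N ^ 2) ∧ NB u (N ^ 5) t := by simp [Ad2]

lemma mem_Can {N u : ℕ} {t : Finset ℕ × ℕ} :
    t ∈ Can N u ↔ t ∈ Ad2 N u ∧ ∀ t' ∈ Ad2 N u, val t' = val t → kap t.1 ≤ kap t'.1 := by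
  simp [Can]

lemma Can.adm {N u : ℕ} {t : Finset ℕ × ℕ} (h : t ∈ Can N u) : t ∈ Adm N u (N ^ 5) (N ^ 2) :=
  (mem_Ad2.mp (mem_Can.mp h).1).1

lemma Adm_mono {N u i0 M M' : ℕ} (h : M ≤ M') : Adm N u i0 M ⊆ Adm N u i0 M' := fun _ ht =>
  mem_Adm.mpr ⟨(mem_Adm.mp ht).1, (mem_Adm.mp ht).2.1.trans h, (mem_Adm.mp ht).2.2⟩

lemma ins_del {p : ℕ} {t : Finset ℕ × ℕ} (h : p ∈ t.1) : ins p (del p t) = t :=
  Prod.ext (insert_erase h) rfl

lemma del_ins {p : ℕ} {t : Finset ℕ × ℕ} (h : p ∉ t.1) : del p (ins p t) = t :=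
  Prod.ext (erase_insert h) rfl

lemma val_ins {p : ℕ} {t : Finset ℕ × ℕ} (h : p ∉ t.1) : val (ins p t) = (p - 1) * val t := by
  simp only [val, ins, pv_insert h]; ring

lemma not_mem_of_lt {p : ℕ} {P : Finset ℕ} (h : ∀ q ∈ P, q < p) : p ∉ P :=
  fun hp => lt_irrefl _ (h p hp)

lemma ins_adm {N u i0 M p : ℕ} {t : Finset ℕ × ℕ} (ht : t ∈ Adm N u i0 M) (hp : p ∈ GP N u i0) :
    ins p t ∈ Adm N u i0 (M + 1) := by
  obtain ⟨t1, t2, t3⟩ := mem_Adm.mp ht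
  exact mem_Adm.mpr ⟨insert_subset hp t1, (card_insert_le _ _).trans (by omega), t3⟩

lemma kap_lt {p : ℕ} {P : Finset ℕ} (h : ∀ q ∈ P, q < p) : kap P < 2 ^ p :=
  Nat.geomSum_lt le_rfl h

lemma lt_of_kap_lt {p : ℕ} {P : Finset ℕ} (h : kap P < 2 ^ p) : ∀ q ∈ P, q < p := fun q hq => by
  have : 2 ^ q ≤ kap P := single_le_sum (f := fun p => 2 ^ p) (fun _ _ => Nat.zero_le _) hq
  exact (Nat.pow_lt_pow_iff_right (by norm_num)).mp (this.trans_lt h)

lemma kap_ins {p : ℕ} {t : Finset ℕ × ℕ} (h : p ∉ t.1) : kap (ins p t).1 = 2 ^ p + kap t.1 :=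
  sum_insert h

lemma can_inj {N u : ℕ} {t t' : Finset ℕ × ℕ} (h : t ∈ Can N u) (h' : t' ∈ Can N u)
    (hv : val t = val t') : t = t' := by
  have e1 : t.1 = t'.1 := Finset.geomSum_injective le_rfl (le_antisymm
    ((mem_Can.mp h).2 t' (mem_Can.mp h').1 hv.symm) ((mem_Can.mp h').2 t (mem_Can.mp h).1 hv))
  refine Prod.ext e1 ?_
  unfold val at hv
  rw [e1] at hv
  exact Nat.eq_of_mul_eq_mul_right (Nat.pos_of_ne_zero
    (pv_ne_zero fun p hp => (mem_GP.mp ((mem_Adm.mp (Can.adm h')).1 hp)).1)) hv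

lemma exists_can {N u p : ℕ} {t : Finset ℕ × ℕ} (h : t ∈ Ad2 N u) (hp : ∀ q ∈ t.1, q < p) :
    ∃ t' ∈ Can N u, val t' = val t ∧ ∀ q ∈ t'.1, q < p := by
  obtain ⟨t', h1, h2⟩ := ((Ad2 N u).filter fun t' => val t' = val t).exists_min_image
    (fun t' => kap t'.1) ⟨t, mem_filter.mpr ⟨h, rfl⟩⟩
  rw [mem_filter] at h1
  refine ⟨t', mem_Can.mpr ⟨h1.1, fun s hs hv => h2 s (mem_filter.mpr ⟨hs, hv.trans h1.2⟩)⟩, h1.2,
    lt_of_kap_lt ((h2 t (mem_filter.mpr ⟨h, rfl⟩)).trans_lt (kap_lt hp))⟩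

lemma ad2_ins {N u p : ℕ} (h : Ok N u) {t : Finset ℕ × ℕ} (ht : t ∈ Ad2 N u)
    (hp : p ∈ GP N u (N ^ 5)) (hlt : ∀ q ∈ t.1, q < p) (hb : ¬ Bad u (N ^ 5) (val (ins p t))) :
    ins p t ∈ Ad2 N u := by
  obtain ⟨h1, h2⟩ := mem_Ad2.mp ht
  obtain ⟨t1, t2, t3⟩ := mem_Adm.mp (ins_adm h1 hp)
  have hNB : NB u (N ^ 5) (ins p t) := by
    intro q hq
    rcases mem_insert.mp hq with rfl | hq
    · rw [filter_le_top fun x hx => by
        rcases mem_insert.mp hx with rfl | hx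
        exacts [le_rfl, (hlt x hx).le]]
      exact hb
    · simp only [ins, filter_le_insert (hlt q hq)]
      exact h2 q hq
  exact mem_Ad2.mpr ⟨mem_Adm.mpr ⟨t1, (card_bad h _ _ t1 _ (Bl_sm t3) hNB).le, t3⟩, hNB⟩

lemma lt_of_mem_del {p q : ℕ} {t : Finset ℕ × ℕ} (hle : ∀ q ∈ t.1, q ≤ p) (hq : q ∈ (del p t).1) :
    q < p := lt_of_le_of_ne (hle q (mem_of_mem_erase hq)) (ne_of_mem_erase hq)

lemma ad2_del {N u p : ℕ} {t : Finset ℕ × ℕ} (ht : t ∈ Ad2 N u) (hp : p ∈ t.1)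
    (hle : ∀ q ∈ t.1, q ≤ p) : del p t ∈ Ad2 N u := by
  obtain ⟨h1, h2⟩ := mem_Ad2.mp ht
  obtain ⟨t1, t2, t3⟩ := mem_Adm.mp h1
  refine mem_Ad2.mpr ⟨mem_Adm.mpr ⟨(erase_subset _ _).trans t1, (card_erase_le).trans t2, t3⟩,
    fun q hq => ?_⟩
  have := h2 q (mem_of_mem_erase hq)
  rw [← insert_erase hp, filter_le_insert (lt_of_mem_del hle hq)] at this
  exact this

lemma can_del {N u p : ℕ} (h : Ok N u) {t : Finset ℕ × ℕ} (ht : t ∈ Can N u) (hp : p ∈ t.1)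
    (hle : ∀ q ∈ t.1, q ≤ p) : del p t ∈ Can N u := by
  obtain ⟨h1, h2⟩ := mem_Can.mp ht
  refine mem_Can.mpr ⟨ad2_del h1 hp hle, fun t' ht' hv => ?_⟩
  by_contra hc
  push Not at hc
  have e1 := lt_of_kap_lt (hc.trans (kap_lt fun q hq => lt_of_mem_del hle hq))
  have e2 : val (ins p t') = val t := by
    rw [val_ins (not_mem_of_lt e1), hv, ← val_ins (notMem_erase _ _), ins_del hp]
  have e3 := h2 _ (ad2_ins h ht' ((mem_Adm.mp (Can.adm ht)).1 hp) e1 (by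
    have := (mem_Ad2.mp h1).2 p hp
    rw [filter_le_top hle] at this
    rw [e2]; exact this)) e2
  rw [kap_ins (not_mem_of_lt e1), ← ins_del hp, kap_ins (notMem_erase _ _)] at e3
  omega

lemma can_ins {N u p : ℕ} (h : Ok N u) {t : Finset ℕ × ℕ} (ht : t ∈ Can N u)
    (hp : p ∈ GP N u (N ^ 5)) (hlt : ∀ q ∈ t.1, q < p) (hb : ¬ Bad u (N ^ 5) (val (ins p t)))
    (hc : ¬ Coll N u (N ^ 2 + 1) p (ins p t)) : ins p t ∈ Can N u := by
  obtain ⟨h1, h2⟩ := mem_Can.mp ht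
  refine mem_Can.mpr ⟨ad2_ins h h1 hp hlt hb, fun t' ht' hv => ?_⟩
  have e1 : p ∈ t'.1 := by
    by_contra e
    exact hc ⟨t', Adm_mono (Nat.le_succ _) (mem_Ad2.mp ht').1, hv, e⟩
  by_cases e2 : ∀ q ∈ t'.1, q ≤ p
  · have e3 : val (del p t') = val t := by
      rw [← ins_del e1, val_ins (notMem_erase _ _), val_ins (not_mem_of_lt hlt)] at hv
      have := (mem_GP.mp hp).1.two_le
      exact Nat.eq_of_mul_eq_mul_left (by omega) hv
    have := h2 _ (ad2_del ht' e1 e2) e3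
    rw [kap_ins (not_mem_of_lt hlt), ← ins_del e1, kap_ins (notMem_erase _ _)]
    omega
  · push Not at e2
    obtain ⟨q, hq, hpq⟩ := e2
    have e3 : kap (ins p t).1 < 2 ^ q := kap_lt fun x hx => by
      rcases mem_insert.mp hx with rfl | hx
      exacts [hpq, (hlt x hx).trans hpq]
    exact e3.le.trans (single_le_sum (f := fun p => 2 ^ p) (fun _ _ => Nat.zero_le _) hq)

lemma pair_inj {N u p p' : ℕ} {t t' : Finset ℕ × ℕ} (ht : t ∈ Can N u) (ht' : t' ∈ Can N u)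
    (hp : p ∈ GP N u (N ^ 5)) (hp' : p' ∈ GP N u (N ^ 5)) (hlt : ∀ q ∈ t.1, q < p)
    (hlt' : ∀ q ∈ t'.1, q < p') (hc : ¬ Coll N u (N ^ 2 + 1) p (ins p t))
    (hc' : ¬ Coll N u (N ^ 2 + 1) p' (ins p' t')) (hv : val (ins p t) = val (ins p' t')) :
    p = p' ∧ t = t' := by
  have e1 : p ∈ (ins p' t').1 := by
    by_contra e
    exact hc ⟨_, ins_adm (Can.adm ht') hp', hv.symm, e⟩
  have e2 : p' ∈ (ins p t).1 := by
    by_contra e
    exact hc' ⟨_, ins_adm (Can.adm ht) hp, hv, e⟩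
  have e3 : p = p' := by
    rcases mem_insert.mp e1 with e1 | e1
    · exact e1
    rcases mem_insert.mp e2 with e2 | e2
    · exact e2.symm
    have := hlt _ e2
    have := hlt' _ e1
    omega
  subst e3
  rw [val_ins (not_mem_of_lt hlt), val_ins (not_mem_of_lt hlt')] at hv
  have := (mem_GP.mp hp).1.two_le
  exact ⟨rfl, can_inj ht ht' (Nat.eq_of_mul_eq_mul_left (by omega) hv)⟩

lemma ins_inj {p p' : ℕ} {t t' : Finset ℕ × ℕ} (hlt : ∀ q ∈ t.1, q < p)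
    (hlt' : ∀ q ∈ t'.1, q < p') (he : ins p t = ins p' t') : p = p' ∧ t = t' := by
  have e1 : p ∈ (ins p' t').1 := he ▸ mem_insert_self _ _
  have e2 : p' ∈ (ins p t).1 := he ▸ mem_insert_self _ _
  have e3 : p = p' := by
    rcases mem_insert.mp e1 with e1 | e1
    · exact e1
    rcases mem_insert.mp e2 with e2 | e2
    · exact e2.symm
    have := hlt _ e2
    have := hlt' _ e1
    omega
  subst e3
  exact ⟨rfl, by rw [← del_ins (not_mem_of_lt hlt), he, del_ins (not_mem_of_lt hlt')]⟩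

lemma empty_can (N u : ℕ) : ((∅ : Finset ℕ), 1) ∈ Can N u :=
  mem_Can.mpr ⟨mem_Ad2.mpr ⟨mem_Adm.mpr ⟨empty_subset _, by simp, one_mem_Bl _ _⟩,
    fun p hp => by simp at hp⟩, fun _ _ _ => by simp [kap]⟩

/-- increments of the convex function -/
noncomputable def al (j : ℕ) : ℝ := gg (j + 1) - gg j

lemma al_le (j : ℕ) : al j ≤ log (j + 2) := by
  unfold al gg
  have h0 : (0 : ℝ) ≤ j := Nat.cast_nonneg j
  have h1 := log_le_sub_one_of_pos (x := ((j : ℝ) + 2) / (j + 1)) (by positivity)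
  rw [log_div (by positivity) (by positivity)] at h1
  have h2 : ((j : ℝ) + 1) * (log (j + 2) - log (j + 1)) ≤ (j + 1) * ((j + 2) / (j + 1) - 1) := by
    gcongr
  rw [mul_sub (j + 1 : ℝ) _ 1, mul_div_cancel₀ _ (by positivity)] at h2
  push_cast
  rw [show (j : ℝ) + 1 + 1 = j + 2 by ring]
  linarith

lemma log_step (x : ℝ) (hx : 0 < x) : 1 / (x + 1) ≤ log (x + 1) - log x := by
  have h1 := one_sub_inv_le_log_of_pos (x := (x + 1) / x) (by positivity)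
  rw [log_div (by positivity) (by positivity), inv_div] at h1
  refine le_trans (le_of_eq ?_) h1
  field_simp; ring

lemma le_al (j : ℕ) : log (j + 2) - 1 / (j + 2) ≤ al j := by
  unfold al gg
  have h0 : (0 : ℝ) ≤ j := Nat.cast_nonneg j
  have h1 := log_step ((j : ℝ) + 1) (by positivity)
  rw [show (j : ℝ) + 1 + 1 = j + 2 by ring] at h1
  have h2 : ((j : ℝ) + 1) * (1 / (j + 2)) ≤ (j + 1) * (log (j + 2) - log (j + 1)) := by gcongr
  have h3 : ((j : ℝ) + 1) * (1 / (j + 2)) = 1 - 1 / (j + 2) := by field_simp; ring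
  push_cast
  rw [show (j : ℝ) + 1 + 1 = j + 2 by ring]
  linarith

lemma al_mono (j : ℕ) : al j ≤ al (j + 1) := by
  have h1 := al_le j
  have h2 := le_al (j + 1)
  have h3 := log_step ((j : ℝ) + 2) (by positivity)
  push_cast at h2
  rw [show (j : ℝ) + 1 + 2 = j + 2 + 1 by ring] at h2
  linarith

lemma al_zero : al 0 = 2 * log 2 - 1 := by simp [al, gg]; norm_num

lemma al_ge (j : ℕ) : 1 / 4 ≤ al j := by
  refine le_trans ?_ (monotone_nat_of_le_succ al_mono (Nat.zero_le j))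
  rw [al_zero]; linarith [log_two_gt_d9]

lemma al_le' (j : ℕ) : al j ≤ j + 1 := by
  have := log_le_sub_one_of_pos (x := (j : ℝ) + 2) (by positivity)
  linarith [al_le j]

lemma al_add : 5 / 4 ≤ al 0 + al 1 := by
  have h1 : al 0 + al 1 = 3 * log 3 - 2 := by simp [al, gg]; norm_num
  have h2 : log 3 = log 2 + log (3 / 2) := by rw [← log_mul (by norm_num) (by norm_num)]; norm_num
  have h3 : 2 / 5 ≤ log (3 / 2) := (le_log_iff_exp_le (by norm_num)).mpr exp_two_fifth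
  linarith [log_two_gt_d9]

/-- effect of inserting a top prime -/
noncomputable def push (s : ℝ) (θ : ℕ → ℝ) : ℕ → ℝ := fun j => al j * s + θ (j + 1)

/-- iterated functionals -/
noncomputable def cc : ℕ → ℝ → (ℕ → ℝ) → ℝ
  | 0, s, θ => max s (θ 0)
  | k + 1, s, θ => cc k (max s (θ 0)) (push (max s (θ 0)) θ)

lemma cc_lip (k : ℕ) (hk : k ≤ 3) : ∀ (s s' : ℝ) (θ θ' : ℕ → ℝ) (δ : ℝ), 0 ≤ δ → s' ≤ s + δ →
    (∀ j ≤ k, θ' j ≤ θ j + δ) → cc k s' θ' ≤ cc k s θ + 5 ^ k * δ := by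
  induction k with
  | zero =>
    intro s s' θ θ' δ _ h1 h2
    simp only [cc, pow_zero, one_mul]
    exact max_le (by linarith [le_max_left s (θ 0)]) (by linarith [le_max_right s (θ 0), h2 0 le_rfl])
  | succ k ih =>
    intro s s' θ θ' δ h0 h1 h2
    have hm : max s' (θ' 0) ≤ max s (θ 0) + δ :=
      max_le (by linarith [le_max_left s (θ 0)]) (by linarith [le_max_right s (θ 0), h2 0 (by omega)])
    have := ih (by omega) _ _ (push (max s (θ 0)) θ) (push (max s' (θ' 0)) θ') (5 * δ) (by linarith)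
      (hm.trans (by linarith)) (fun j hj => by
        unfold push
        have a1 := al_ge j
        have a2 := al_le' j
        have a3 : (j : ℝ) ≤ 2 := by exact_mod_cast (by omega : j ≤ 2)
        have a4 := h2 (j + 1) (by omega)
        nlinarith)
    simp only [cc]
    rw [pow_succ, mul_assoc]; exact this

lemma cc_slope (k : ℕ) : ∀ (s s' : ℝ) (θ θ' : ℕ → ℝ) (δ : ℝ), 0 ≤ δ → s + δ ≤ s' →
    (∀ j, θ j + δ ≤ θ' j) → cc k s θ + δ ≤ cc k s' θ' := by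
  have hm : ∀ (s s' : ℝ) (θ θ' : ℕ → ℝ) (δ : ℝ), s + δ ≤ s' → (∀ j, θ j + δ ≤ θ' j) →
      max s (θ 0) + δ ≤ max s' (θ' 0) := fun s s' θ θ' δ h1 h2 => by
    rw [← max_add_add_right]; exact max_le_max h1 (h2 0)
  induction k with
  | zero => intro s s' θ θ' δ _ h1 h2; exact hm s s' θ θ' δ h1 h2
  | succ k ih =>
    intro s s' θ θ' δ h0 h1 h2
    have := hm s s' θ θ' δ h1 h2
    exact ih _ _ _ _ δ h0 this fun j => by
      unfold push
      have a1 := al_ge j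
      have a4 := h2 (j + 1)
      nlinarith

lemma push_lip {k : ℕ} (hk : k ≤ 2) {s s' : ℝ} (θ : ℕ → ℝ) {δ : ℝ} (h0 : 0 ≤ δ) (h : s' ≤ s + δ) :
    cc k s' (push s' θ) ≤ cc k s (push s θ) + 100 * δ := by
  have := cc_lip k (by omega) s s' (push s θ) (push s' θ) (4 * δ) (by linarith) (by linarith)
    (fun j hj => by
      unfold push
      have a1 := al_ge j
      have a2 := al_le' j
      have a3 : (j : ℝ) ≤ 2 := by exact_mod_cast (by omega : j ≤ 2)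
      nlinarith)
  have h5 : (5 : ℝ) ^ k ≤ 5 ^ 2 := pow_le_pow_right₀ (by norm_num) hk
  nlinarith

lemma push_slope (k : ℕ) {s s' : ℝ} (θ : ℕ → ℝ) (h : s ≤ s') :
    cc k s (push s θ) + (s' - s) / 4 ≤ cc k s' (push s' θ) :=
  cc_slope k _ _ _ _ _ (by linarith) (by linarith) fun j => by
    unfold push
    have a1 := al_ge j
    nlinarith

lemma le_cc (k : ℕ) : ∀ (s : ℝ) (θ : ℕ → ℝ), max s (θ 0) ≤ cc k s θ := by
  induction k with
  | zero => intro s θ; exact le_rfl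
  | succ k ih => intro s θ; exact (le_max_left _ _).trans (ih _ _)

lemma cc_zero (k : ℕ) : cc k 0 (fun _ => 0) = 0 := by
  induction k with
  | zero => simp [cc]
  | succ k ih =>
    simp only [cc, max_self]
    rw [show push 0 (fun _ => 0) = fun _ => 0 by funext j; simp [push], ih]

lemma cc_grow (k : ℕ) : ∀ (s : ℝ) (θ : ℕ → ℝ), 0 ≤ s → (∀ j, 0 ≤ θ j) → (∀ j, θ j ≤ θ (j + 1)) →
    5 / 4 * cc (k + 1) s θ ≤ cc (k + 2) s θ := by
  induction k with
  | zero =>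
    intro s θ h0 h1 h2
    simp only [cc]
    obtain ⟨m, hm⟩ : ∃ m, m = max s (θ 0) := ⟨_, rfl⟩
    rw [← hm]
    have m0 : 0 ≤ m := hm ▸ h0.trans (le_max_left _ _)
    refine le_trans ?_ (le_max_right _ _)
    have a0 := al_ge 0
    have a1 := al_add
    have a2 := al_mono 0
    have a3 := h1 2
    have a4 := h2 1
    rcases max_choice m (push m θ 0) with e | e
    · rw [e]; simp only [push]; nlinarith
    · have e' := le_max_left m (push m θ 0)
      rw [e] at e' ⊢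
      simp only [push] at e' ⊢
      nlinarith
  | succ k ih =>
    intro s θ h0 h1 h2
    have m0 : 0 ≤ max s (θ 0) := h0.trans (le_max_left _ _)
    exact ih _ _ m0 (fun j => by
      unfold push
      have := al_ge j
      have := h1 (j + 1)
      positivity) (fun j => by
      unfold push
      have := al_mono j
      have := h2 (j + 1)
      nlinarith)

lemma TT_le_succ (u i0 j : ℕ) (P : Finset ℕ) : TT u i0 j P ≤ TT u i0 (j + 1) P :=
  sum_le_sum fun k _ => by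
    have := monotone_nat_of_le_succ al_mono (Nat.le_add_left j (cn P (lv i0) k))
    unfold al at this
    rw [← add_assoc]
    linarith

/-- the functionals of a tuple -/
noncomputable def ck (N u k : ℕ) (t : Finset ℕ × ℕ) : ℝ :=
  cc k ((t.1.sup (lv (N ^ 5)) : ℕ) : ℝ) fun j => TT u (N ^ 5) j t.1

lemma lv_mono (i0 : ℕ) {p q : ℕ} (h : p ≤ q) : lv i0 p ≤ lv i0 q :=
  Nat.sub_le_sub_right (lev_mono h) _

lemma ck_ins {N u p : ℕ} (k : ℕ) {t : Finset ℕ × ℕ} (hp : p ∈ GP N u (N ^ 5))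
    (hlt : ∀ q ∈ t.1, q < p) : ck N u k (ins p t) =
      cc k (lv (N ^ 5) p) (push (lv (N ^ 5) p) fun j => TT u (N ^ 5) j t.1) := by
  unfold ck
  have h1 : ∀ q ∈ t.1, lv (N ^ 5) q ≤ lv (N ^ 5) p := fun q hq => lv_mono _ (hlt q hq).le
  congr 1
  · simp only [ins, sup_insert]
    rw [sup_eq_left.mpr (Finset.sup_le h1)]
  · funext j
    exact TT_insert j (not_mem_of_lt hlt) (lv_le hp) h1

lemma ck_empty (N u k b : ℕ) : ck N u k (∅, b) = 0 := by
  unfold ck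
  simp only [sup_empty, bot_eq_zero', Nat.cast_zero]
  rw [show (fun j => TT u (N ^ 5) j ∅) = fun _ => 0 by funext j; simp [TT, cn], cc_zero]

lemma ck_grow (N u k : ℕ) (t : Finset ℕ × ℕ) : 5 / 4 * ck N u (k + 1) t ≤ ck N u (k + 2) t :=
  cc_grow k _ _ (Nat.cast_nonneg _) (fun j => TT_nonneg _ _ _ _) fun j => TT_le_succ _ _ _ _

lemma ck_succ (N u k : ℕ) (t : Finset ℕ × ℕ) : ck N u (k + 1) t =
    cc k (ck N u 0 t) (push (ck N u 0 t) fun j => TT u (N ^ 5) j t.1) := rfl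

lemma ck_zero_le (N u k : ℕ) (t : Finset ℕ × ℕ) : ck N u 0 t ≤ ck N u k t :=
  le_cc k _ fun j => TT u (N ^ 5) j t.1

lemma TT_le_ck (N u : ℕ) (t : Finset ℕ × ℕ) : TT u (N ^ 5) 0 t.1 ≤ ck N u 0 t := le_max_right _ _

lemma lv_le_ck (N u : ℕ) {t : Finset ℕ × ℕ} {q : ℕ} (hq : q ∈ t.1) :
    (lv (N ^ 5) q : ℝ) ≤ ck N u 0 t :=
  le_trans (by exact_mod_cast le_sup (f := lv (N ^ 5)) hq) (le_max_left _ _)

lemma ck_nonneg (N u : ℕ) (t : Finset ℕ × ℕ) : 0 ≤ ck N u 0 t :=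
  (Nat.cast_nonneg _).trans (le_max_left _ _)

lemma ck_zero_le_of {N u : ℕ} {t : Finset ℕ × ℕ} {x : ℝ} {s : ℕ} (h1 : ∀ q ∈ t.1, lv (N ^ 5) q ≤ s)
    (h2 : (s : ℝ) ≤ x) (h3 : TT u (N ^ 5) 0 t.1 ≤ x) : ck N u 0 t ≤ x :=
  max_le (le_trans (by exact_mod_cast Finset.sup_le h1) h2) h3

end Vale.Agent.P031
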