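import Vale.Agent.P031.Mat

/-! Counting collisions of tuples. -/

namespace Vale.Agent.P031

open Finset Real

lemma split_dvd {κ : Type*} [DecidableEq κ] (s : Finset κ) (γ : κ → ℕ) (a : ℕ)
    (h : a ∣ ∏ j ∈ s, γ j) : ∃ d : κ → ℕ, (∀ j, d j ∣ γ j) ∧ ∏ j ∈ s, d j = a := by
  induction s using Finset.induction_on generalizing a with
  | empty => exact ⟨fun _ => 1, fun _ => one_dvd _, by simpa [eq_comm] using h⟩
  | insert b s hb ih =>
    rw [prod_insert hb] at h
    obtain ⟨a1, a2, h1, h2, rfl⟩ := exists_dvd_and_dvd_of_dvd_mul h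
    obtain ⟨d, d1, d2⟩ := ih a2 h2
    refine ⟨Function.update d b a1, fun j => ?_, ?_⟩
    · by_cases hj : j = b
      · subst hj; simpa using h1
      · simpa [hj] using d1 j
    · rw [prod_insert hb, Function.update_self, ← d2]
      congr 1
      exact prod_congr rfl fun j hj => Function.update_of_ne (ne_of_mem_of_not_mem hj hb) _ _

lemma split_mat {κ κ' : Type*} [DecidableEq κ] [Fintype κ'] [DecidableEq κ'] (s : Finset κ)
    (ρ : κ → ℕ) (γ : κ' → ℕ) (h : ∏ i ∈ s, ρ i = ∏ j, γ j) (h0 : ∏ j, γ j ≠ 0) :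
    ∃ n : κ × κ' → ℕ, (∀ i ∈ s, ∏ j, n (i, j) = ρ i) ∧ ∀ j, ∏ i ∈ s, n (i, j) = γ j := by
  induction s using Finset.induction_on generalizing γ with
  | empty =>
    refine ⟨fun _ => 1, by simp, fun j => ?_⟩
    rw [prod_empty] at h ⊢
    exact (Nat.eq_one_of_dvd_one (h ▸ dvd_prod_of_mem γ (mem_univ j))).symm
  | insert b s hb ih =>
    rw [prod_insert hb] at h
    obtain ⟨d, d1, d2⟩ := split_dvd univ γ (ρ b) ⟨_, h.symm⟩
    choose c hc using d1
    have e1 : ∏ j, γ j = ρ b * ∏ j, c j := by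
      rw [← d2, ← prod_mul_distrib]; exact prod_congr rfl fun j _ => hc j
    have e2 : ρ b ≠ 0 := left_ne_zero_of_mul (e1 ▸ h0)
    obtain ⟨n, n1, n2⟩ := ih c (Nat.eq_of_mul_eq_mul_left (Nat.pos_of_ne_zero e2) (h.trans e1))
      (right_ne_zero_of_mul (e1 ▸ h0))
    refine ⟨fun e => if e.1 = b then d e.2 else n e, fun i hi => ?_, fun j => ?_⟩
    · rcases mem_insert.mp hi with rfl | hi
      · simpa using d2
      · have : i ≠ b := fun e => hb (e ▸ hi)
        simpa [this] using n1 i hi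
    · rw [prod_insert hb, hc j, ← n2 j]
      simp only [if_true]
      congr 1
      exact prod_congr rfl fun i hi => if_neg (ne_of_mem_of_not_mem hi hb)

variable {ι : Type} [Fintype ι] [DecidableEq ι]

lemma mat_base {N u : ℕ} (h : Ok N u) (hι : Fintype.card ι ≤ 2 * N ^ 2) (L : ι ⊕ ι → ℕ)
    (hL : ∀ c, L c ≤ u) (W : Finset (ι × ι → ℕ)) (hW : ∀ n ∈ W, Good N (N ^ 5) L ∅ n) :
    ∑ n ∈ W, wt (fun q => -fl (N ^ 5) (fun k => log (cn univ (fun j => L (Sum.inr j)) k)) q) n ≤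
      exp (∑ k ∈ range u, (cn univ (fun i => L (Sum.inl i)) k : ℝ) *
        (if 0 < cn univ (fun j => L (Sum.inr j)) k then 1 else 0) + (N : ℝ) ^ 10) := by
  have hn := h.n
  obtain ⟨i0, hi0⟩ : ∃ i0, i0 = N ^ 5 := ⟨_, rfl⟩
  have hi0' : (i0 : ℝ) = (N : ℝ) ^ 5 := by rw [hi0]; push_cast; ring
  rw [← hi0] at hW ⊢
  obtain ⟨f, hf⟩ : ∃ f : ℕ → ℝ,
    f = fun q => -fl i0 (fun k => log (cn univ (fun j => L (Sum.inr j)) k)) q := ⟨_, rfl⟩
  rw [← hf]
  have hf0 : ∀ q, f q ≤ 0 := fun q => by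
    rw [hf]; simp only [fl]; split_ifs
    · simp
    · exact neg_nonpos.mpr (log_natCast_nonneg _)
  obtain ⟨s, hs⟩ : ∃ s, s = univ.sup fun j => L (Sum.inr j) := ⟨_, rfl⟩
  have hs1 : ∀ k, 0 < cn univ (fun j => L (Sum.inr j)) k ↔ k < s := fun k => by
    rw [hs, Finset.lt_sup_iff, cn, card_pos]
    simp [filter_nonempty_iff]
  have h1 : ∑ n ∈ W, wt f n ≤ ∏ e : ι × ι,
      exp (∑ q ∈ Pr (i0 + min (L (Sum.inl e.1)) (L (Sum.inr e.2))), exp (f q) / q + 9) := by
    calc ∑ n ∈ W, wt f n = ∑ n ∈ W, ∏ e, exp (Ad f (n e)) / n e := by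
          refine sum_congr rfl fun n hn => ?_
          unfold wt tot
          rw [Ad_prod _ _ _ fun e _ => ((hW n hn).1 e).1, exp_sum, prod_div_distrib, Nat.cast_prod]
      _ ≤ ∑ n ∈ Fintype.piFinset fun e => W.image fun n => n e, ∏ e, exp (Ad f (n e)) / n e := by
          apply sum_le_sum_of_subset_of_nonneg
          · intro n hn
            exact Fintype.mem_piFinset.mpr fun e => mem_image_of_mem _ hn
          · intro n _ _; positivity
      _ = ∏ e, ∑ m ∈ W.image fun n => n e, exp (Ad f m) / m :=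
          (prod_univ_sum (fun e => W.image fun n => n e) fun _ m => exp (Ad f m) / m).symm
      _ ≤ _ := by
          apply prod_le_prod (fun e _ => by positivity)
          intro e _
          apply EP1 _ (fun q hq => (mem_Pr.mp hq).1) f (fun q _ => by linarith [hf0 q])
          intro m hm
          obtain ⟨n, hn, rfl⟩ := mem_image.mp hm
          exact ((hW n hn).1 e).mem
  refine h1.trans ?_
  rw [← exp_sum, Fintype.sum_prod_type]
  apply exp_le_exp.mpr
  have h2 : ∀ i, ∑ j, ∑ q ∈ Pr (i0 + min (L (Sum.inl i)) (L (Sum.inr j))), exp (f q) / q ≤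
      Fintype.card ι * (i0 + 4) + ((min (L (Sum.inl i)) s : ℕ) + 13) := by
    intro i
    calc _ ≤ ∑ j, ∑ q ∈ Pr (i0 + u), ((if lev q ≤ i0 then (1 : ℝ) / q else 0) +
            if (i0 < lev q ∧ lev q ≤ i0 + L (Sum.inl i)) ∧ lev q ≤ i0 + L (Sum.inr j) then
              exp (f q) / q else 0) := by
          apply sum_le_sum
          intro j _
          refine le_trans (sum_le_sum fun q hq => ?_) (sum_le_sum_of_subset_of_nonneg
            (Pr_mono (by have := hL (Sum.inl i); omega)) fun q _ _ => ?_)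
          · have := (mem_Pr.mp hq).2
            by_cases hq0 : lev q ≤ i0
            · rw [if_pos hq0, if_neg (by omega), add_zero]
              gcongr
              exact exp_le_one_iff.mpr (hf0 q)
            · rw [if_neg hq0, if_pos (by omega), zero_add]
          · apply add_nonneg <;> split_ifs <;> positivity
      _ = ∑ _j : ι, ∑ q ∈ Pr (i0 + u), (if lev q ≤ i0 then (1 : ℝ) / q else 0) +
            ∑ q ∈ Pr (i0 + u), ∑ j, if (i0 < lev q ∧ lev q ≤ i0 + L (Sum.inl i)) ∧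
              lev q ≤ i0 + L (Sum.inr j) then exp (f q) / q else 0 := by
          simp only [sum_add_distrib]
          rw [sum_comm (s := univ) (t := Pr (i0 + u)) (f := fun j q => if
            (i0 < lev q ∧ lev q ≤ i0 + L (Sum.inl i)) ∧ lev q ≤ i0 + L (Sum.inr j) then
              exp (f q) / q else 0)]
      _ ≤ _ := by
          apply add_le_add
          · rw [sum_const, card_univ, nsmul_eq_mul]
            gcongr
            exact mass_low _ _
          · refine le_trans (sum_le_sum fun q _ => ?_) (mass_band i0 (min (L (Sum.inl i)) s) (i0 + u)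
              (by have := hL (Sum.inl i); omega))
            by_cases hq : i0 < lev q ∧ lev q ≤ i0 + L (Sum.inl i)
            · have e1 : (∑ j, if (i0 < lev q ∧ lev q ≤ i0 + L (Sum.inl i)) ∧
                  lev q ≤ i0 + L (Sum.inr j) then exp (f q) / q else 0) =
                  cn univ (fun j => L (Sum.inr j)) (lev q - i0 - 1) * (exp (f q) / q) := by
                rw [← sum_filter, sum_const, nsmul_eq_mul, cn]
                congr 3
                ext j
                simp only [mem_filter, mem_univ, true_and]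
                omega
              rw [e1]
              rcases Nat.eq_zero_or_pos (cn univ (fun j => L (Sum.inr j)) (lev q - i0 - 1))
                with e2 | e2
              · rw [e2, Nat.cast_zero, zero_mul]; split_ifs <;> positivity
              · have e3 := (hs1 _).mp e2
                rw [if_pos (by omega), hf]
                simp only [fl]
                rw [if_neg (by omega), exp_neg, exp_log (by exact_mod_cast e2), ← mul_div_assoc,
                  mul_inv_cancel₀ (by exact_mod_cast e2.ne')]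
            · rw [sum_eq_zero fun j _ => if_neg fun e => hq e.1]
              split_ifs <;> positivity
  have h3 : ∑ k ∈ range u, (cn univ (fun i => L (Sum.inl i)) k : ℝ) *
      (if 0 < cn univ (fun j => L (Sum.inr j)) k then 1 else 0) =
      ∑ i, ((min (L (Sum.inl i)) s : ℕ) : ℝ) := by
    rw [sum_cn univ _ u (fun i _ => hL _)]
    refine sum_congr rfl fun i _ => ?_
    simp only [hs1]
    rw [← sum_filter, sum_const, nsmul_eq_mul, mul_one]
    congr 1
    rw [show (range (L (Sum.inl i))).filter (fun k => k < s) = range (min (L (Sum.inl i)) s) by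
      ext k; simp, card_range]
  rw [h3]
  simp only [sum_add_distrib, sum_const, card_univ, nsmul_eq_mul]
  have h4 := sum_le_sum fun i (_ : i ∈ univ) => h2 i
  simp only [sum_add_distrib, sum_const, card_univ, nsmul_eq_mul] at h4
  have e1 : (Fintype.card ι : ℝ) ≤ 2 * (N : ℝ) ^ 2 := by exact_mod_cast hι
  have e0 : (0 : ℝ) ≤ Fintype.card ι := Nat.cast_nonneg _
  have p1 := h.pw 0 5 (by norm_num)
  have p2 := h.pw 9 10 (by norm_num)
  have p3 := h.pw 2 9 (by norm_num)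
  have e2 : (Fintype.card ι : ℝ) * (Fintype.card ι * (i0 + 13)) ≤
      2 * (N : ℝ) ^ 2 * (2 * (N : ℝ) ^ 2 * (2 * (N : ℝ) ^ 5)) := by
    gcongr; linarith
  nlinarith

lemma ent_ineq (a b : ℕ) : (a : ℝ) * log b + a * (if 0 < b then 1 else 0) - a - b ≤ a * log a - a := by
  have ha : (0 : ℝ) ≤ a * log a := mul_nonneg (Nat.cast_nonneg _) (log_natCast_nonneg a)
  rcases Nat.eq_zero_or_pos b with rfl | hb
  · simpa using ha
  rw [if_pos hb]
  rcases Nat.eq_zero_or_pos a with rfl | ha0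
  · simp
  have a0 : (0 : ℝ) < a := by exact_mod_cast ha0
  have b0 : (0 : ℝ) < b := by exact_mod_cast hb
  have := log_le_sub_one_of_pos (div_pos b0 a0)
  rw [log_div b0.ne' a0.ne'] at this
  have h2 : (a : ℝ) * (log b - log a) ≤ a * (b / a - 1) := by gcongr
  rw [mul_sub, mul_sub, mul_div_cancel₀ _ a0.ne'] at h2
  linarith

lemma mat_col {N u : ℕ} (h : Ok N u) (hι : Fintype.card ι ≤ 2 * N ^ 2) (L : ι ⊕ ι → ℕ)
    (hL : ∀ c, 1 ≤ L c → N ^ 5 + L c ≤ u) (c0 : ι ⊕ ι) (hc0 : 1 ≤ L c0) (y : ℝ) (hy : 0 ≤ y)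
    (W : Finset (ι × ι → ℕ))
    (hW : ∀ n ∈ W, Good N (N ^ 5) L (univ.filter fun c => 1 ≤ L c) n ∧ (tot n : ℝ) ≤ y ∧
      ∀ i, 1 ≤ L (Sum.inl i) → Nrm N (line n (Sum.inl i) + 1)) :
    (W.card : ℝ) ≤ y * exp (-((N : ℝ) ^ 5 + L c0) + Ph u (cn univ fun i => L (Sum.inl i)) +
      5 * (N : ℝ) ^ 56) := by
  have hn := h.n
  have hL' : ∀ c, L c ≤ u := fun c => by
    by_cases hc : 1 ≤ L c
    · have := hL c hc; omega
    · omega
  obtain ⟨τ, hτ⟩ : ∃ τ : ℕ → ℝ, τ = fun k => log (cn univ (fun j => L (Sum.inr j)) k) := ⟨_, rfl⟩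
  have τ1 : ∀ k, τ (k + 1) ≤ τ k := fun k => hτ ▸ log_nat_mono (cn_anti _ _ k)
  have τ2 : ∀ k, 0 ≤ τ k := fun k => hτ ▸ log_natCast_nonneg _
  have τ3 : ∀ k, τ k ≤ N := fun k => hτ ▸ log_le_N h ((cn_le _ _ _).trans (by simpa using hι))
  have hb := mat_base h hι L hL'
  rw [← hτ] at hb
  have hc := mat_count h hι L (fun q => -fl (N ^ 5) τ q) (fun q => by
    simp only [fl]; split_ifs
    · simp
    · exact neg_nonpos.mpr (τ2 _)) _ (exp_pos _).le hb (univ.filter fun c => 1 ≤ L c)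
    (fun c hc => hL c (mem_filter.mp hc).2) c0 (mem_filter.mpr ⟨mem_univ _, hc0⟩) y hy W
    (fun n hn => ⟨(hW n hn).1, (hW n hn).2.1⟩)
  have e1 : (Fintype.card ι : ℝ) ≤ 2 * (N : ℝ) ^ 2 := by exact_mod_cast hι
  have h1 : (W.card : ℝ) ≤ exp (∑ k ∈ range u, (cn univ (fun i => L (Sum.inl i)) k : ℝ) * τ k +
      4 * (N : ℝ) ^ 56) * ∑ n ∈ W, exp (Ad (fun q => -fl (N ^ 5) τ q) (tot n)) := by
    rw [mul_sum, card_eq_sum_ones]; push_cast
    apply sum_le_sum
    intro n hn'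
    obtain ⟨g, -, g3⟩ := hW n hn'
    rw [← exp_add]
    apply one_le_exp
    have a1 : Ad (fun q => -fl (N ^ 5) τ q) (tot n) = -∑ i, Ad (fl (N ^ 5) τ) (line n (Sum.inl i)) := by
      have := Ad_smul (-1) (fl (N ^ 5) τ) (tot n)
      simp only [neg_mul, one_mul] at this
      rw [this, ← Ad_prod _ _ _ fun i _ => g.line_ne _, tot, Fintype.prod_prod_type]; rfl
    have a2 : ∑ i, Ad (fl (N ^ 5) τ) (line n (Sum.inl i)) ≤
        ∑ i, (∑ k ∈ range (L (Sum.inl i)), τ k + 2 * (N : ℝ) ^ 53 * N) := by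
      apply sum_le_sum
      intro i _
      by_cases hi : 1 ≤ L (Sum.inl i)
      · obtain ⟨b1, b2, -⟩ := g.2.1 _ (mem_filter.mpr ⟨mem_univ _, hi⟩)
        have := (abs_le.mp (row_bound (i0 := N ^ 5) b1 (g3 i hi) (by omega) τ τ1 τ2)).2
        rw [Nat.add_sub_cancel, lv, b2, Nat.add_sub_cancel_left] at this
        have : 2 * (N : ℝ) ^ 53 * τ 0 ≤ 2 * (N : ℝ) ^ 53 * N := by gcongr; exact τ3 0
        linarith
      · have hs : Sm (N ^ 5) (line n (Sum.inl i)) :=
          Sm.prod univ (fun j => n (i, j)) fun j _ => (g.1 (i, j)).mono (by simp only; omega)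
        rw [Ad_fl_sm τ hs]
        have : 0 ≤ ∑ k ∈ range (L (Sum.inl i)), τ k := sum_nonneg fun k _ => τ2 k
        positivity
    rw [sum_add_distrib, ← sum_cn univ _ u (fun i _ => hL' _)] at a2
    simp only [sum_const, card_univ, nsmul_eq_mul] at a2
    have a3 : (Fintype.card ι : ℝ) * (2 * (N : ℝ) ^ 53 * N) ≤
        2 * (N : ℝ) ^ 2 * (2 * (N : ℝ) ^ 53 * N) := by gcongr
    rw [a1]; nlinarith
  have h2 : ∏ c ∈ univ.filter fun c => 1 ≤ L c, exp (-(L c : ℝ)) =
      exp (-(∑ k ∈ range u, (cn univ (fun i => L (Sum.inl i)) k : ℝ)) -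
        ∑ k ∈ range u, (cn univ (fun j => L (Sum.inr j)) k : ℝ)) := by
    have a1 := sum_cn univ (fun i => L (Sum.inl i)) u (fun i _ => hL' _) (fun _ => 1)
    have a2 := sum_cn univ (fun i => L (Sum.inr i)) u (fun i _ => hL' _) (fun _ => 1)
    simp only [mul_one, sum_const, card_range, nsmul_eq_mul] at a1 a2
    rw [← exp_sum, a1, a2, sum_filter_of_ne, Fintype.sum_sum_type]
    · simp only [sum_neg_distrib]; rfl
    · intro c _ hc
      by_contra e
      apply hc
      rw [show L c = 0 by omega]; simp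
  rw [h2] at hc
  refine h1.trans ((mul_le_mul_of_nonneg_left hc (exp_pos _).le).trans ?_)
  rw [mul_assoc y, mul_assoc y, mul_left_comm, ← exp_add, ← exp_add, ← exp_add]
  refine mul_le_mul_of_nonneg_left (exp_le_exp.mpr ?_) hy
  have a1 := sum_le_sum fun k (_ : k ∈ range u) =>
    ent_ineq (cn univ (fun i => L (Sum.inl i)) k) (cn univ (fun j => L (Sum.inr j)) k)
  simp only [sum_sub_distrib, sum_add_distrib] at a1
  unfold Ph
  rw [sum_sub_distrib, hτ]
  have := h.pw 10 56 (by norm_num)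
  have := h.pw 4 10 (by norm_num)
  have : (0 : ℝ) ≤ (N : ℝ) ^ 4 := by positivity
  linarith

lemma col_disj {N u M : ℕ} (h : Ok N u) (hM : M + 1 ≤ 2 * N ^ 2) (l0 : ℕ) (θ y : ℝ) (hy : 0 ≤ y)
    (W : Finset (Finset ℕ × ℕ))
    (hW : ∀ t ∈ W, t ∈ Adm N u (N ^ 5) M ∧ (val t : ℝ) ≤ y ∧ (∃ p ∈ t.1, lev p = l0) ∧
      Ph u (cn t.1 (lv (N ^ 5))) ≤ θ ∧ ∃ t' ∈ Adm N u (N ^ 5) M, val t' = val t ∧ Disjoint t.1 t'.1) :
    (W.card : ℝ) ≤ y * exp (-l0 + θ + 6 * (N : ℝ) ^ 56) := by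
  classical
  have hn := h.n
  have hι : Fintype.card (Option (Fin M)) ≤ 2 * N ^ 2 := by simpa using hM
  have h1 := un_card W (Fintype.piFinset fun _ : Option (Fin M) ⊕ Option (Fin M) => range (u + 1))
    (fun L t => ((∀ c, 1 ≤ L c → N ^ 5 + L c ≤ u) ∧ (∃ c0, 1 ≤ L c0 ∧ N ^ 5 + L c0 = l0) ∧
      Ph u (cn univ fun i => L (Sum.inl i)) ≤ θ) ∧ ∃ n,
        (Good N (N ^ 5) L (univ.filter fun c => 1 ≤ L c) n ∧ (tot n : ℝ) ≤ y ∧
          ∀ i, 1 ≤ L (Sum.inl i) → Nrm N (line n (Sum.inl i) + 1)) ∧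
        ((univ.filter fun i => 1 ≤ L (Sum.inl i)).image (fun i => line n (Sum.inl i) + 1),
          line n (Sum.inl none)) = t) (fun t ht => by
      obtain ⟨ht1, hty, ⟨p0, hp0, hl0⟩, hθ, t', ht2, hv, hd⟩ := hW t ht
      obtain ⟨t1, t2, t3⟩ := mem_Adm.mp ht1
      obtain ⟨s1, s2, s3⟩ := mem_Adm.mp ht2
      obtain ⟨f, f1, f2, f3, f4⟩ := enum M t.1 t2
      obtain ⟨g, g1, -, -, g4⟩ := enum M t'.1 s2
      let ρ : Option (Fin M) → ℕ := fun i => i.elim t.2 fun i => f i - 1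
      let γ : Option (Fin M) → ℕ := fun i => i.elim t'.2 fun i => g i - 1
      have hρ : ∏ i, ρ i = val t := by rw [Fintype.prod_option, val, f4]; rfl
      have hγ : ∏ i, γ i = val t' := by rw [Fintype.prod_option, val, g4]; rfl
      obtain ⟨n, n1, n2⟩ := split_mat univ ρ γ (by rw [hρ, hγ, hv]) (hγ ▸ val_ne_zero ht2)
      let L : Option (Fin M) ⊕ Option (Fin M) → ℕ := Sum.elim
        (fun i => i.elim 0 fun i => lv (N ^ 5) (f i)) (fun i => i.elim 0 fun i => lv (N ^ 5) (g i))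
      have hl1 : ∀ i, line n (Sum.inl i) = ρ i := fun i => n1 i (mem_univ _)
      have hl2 : ∀ i, line n (Sum.inr i) = γ i := n2
      have key : ∀ c, Sm (N ^ 5 + L c) (line n c) ∧ (1 ≤ L c → line n c + 1 ∈ GP N u (N ^ 5) ∧
          lv (N ^ 5) (line n c + 1) = L c ∧
          line n c + 1 ∈ (c.elim (fun _ => t.1) fun _ => t'.1 : Finset ℕ)) := by
        have aux : ∀ (P : Finset ℕ) (p : ℕ), P ⊆ GP N u (N ^ 5) → p ∈ P ∨ p = 2 →
            Sm (N ^ 5 + lv (N ^ 5) p) (p - 1) ∧ (1 ≤ lv (N ^ 5) p → p - 1 + 1 ∈ GP N u (N ^ 5) ∧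
              lv (N ^ 5) (p - 1 + 1) = lv (N ^ 5) p ∧ p - 1 + 1 ∈ P) := by
          intro P p hP hp
          rcases hp with hp | rfl
          · have p1 := (mem_GP.mp (hP hp)).1
            rw [Nat.sub_add_cancel p1.one_le]
            exact ⟨(Sm.pred p1).mono (by simp only [lv]; omega), fun _ => ⟨hP hp, rfl, hp⟩⟩
          · exact ⟨Sm.one _, fun e => by rw [lv_two] at e; omega⟩
        rintro ((_ | i) | (_ | i))
        · rw [hl1]; exact ⟨Bl_sm t3, fun e => absurd e (by simp [L])⟩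
        · rw [hl1]; exact aux t.1 (f i) t1 (f1 i)
        · rw [hl2]; exact ⟨Bl_sm s3, fun e => absurd e (by simp [L])⟩
        · rw [hl2]; exact aux t'.1 (g i) s1 (g1 i)
      have hlev : ∀ c, 1 ≤ L c → lev (line n c + 1) = N ^ 5 + L c := fun c hc => by
        obtain ⟨a1, a2, -⟩ := (key c).2 hc
        have := (mem_GP.mp a1).2.2.1
        simp only [lv] at a2; omega
      have hLu : ∀ c, 1 ≤ L c → N ^ 5 + L c ≤ u := fun c hc =>
        hlev c hc ▸ (mem_GP.mp ((key c).2 hc).1).2.1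
      refine ⟨L, Fintype.mem_piFinset.mpr fun c => mem_range.mpr ?_, ⟨hLu, ?_, ?_⟩, n,
        ⟨⟨fun e => ?_, fun c hc => ?_, fun i j hi hj e => ?_⟩, ?_, fun i hi => ?_⟩, ?_⟩
      · by_cases hc : 1 ≤ L c
        · have := hLu c hc; omega
        · omega
      · obtain ⟨j, rfl⟩ := f2 p0 hp0
        have := (mem_GP.mp (t1 hp0)).2.2.1
        refine ⟨Sum.inl (some j), ?_, ?_⟩ <;> simp only [L, lv, Sum.elim_inl, Option.elim] <;> omega
      · rw [cn_enum (N ^ 5) f3] at hθ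
        refine le_trans (le_of_eq ?_) hθ
        congr 1
        funext k
        unfold cn
        rw [card_filter, card_filter, Fintype.sum_option]
        simp only [L, Sum.elim_inl, Option.elim, Nat.not_lt_zero, if_false, zero_add]
        rfl
      · have a1 := (key (Sum.inl e.1)).1.of_dvd (dvd_prod_of_mem (fun j => n (e.1, j)) (mem_univ e.2))
        have a2 := (key (Sum.inr e.2)).1.of_dvd (dvd_prod_of_mem (fun i => n (i, e.2)) (mem_univ e.1))
        rcases le_total (L (Sum.inl e.1)) (L (Sum.inr e.2)) with e' | e'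
        · rw [min_eq_left e']; exact a1
        · rw [min_eq_right e']; exact a2
      · have hc' := (mem_filter.mp hc).2
        obtain ⟨b1, -, -, b4⟩ := mem_GP.mp ((key c).2 hc').1
        exact ⟨b1, hlev c hc', by simpa using b4.1⟩
      · have a1 := ((key _).2 (mem_filter.mp hi).2).2.2
        have a2 := ((key _).2 (mem_filter.mp hj).2).2.2
        rw [e] at a1
        exact disjoint_left.mp hd a1 a2
      · have : tot n = val t := by
          rw [← hρ, tot, Fintype.prod_prod_type]; exact prod_congr rfl n1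
        rw [this]; exact hty
      · exact (mem_GP.mp ((key _).2 hi).1).2.2.2
      · refine Prod.ext ?_ (hl1 none)
        ext p
        simp only [mem_image, mem_filter, mem_univ, true_and]
        constructor
        · rintro ⟨i, hi, rfl⟩
          exact ((key _).2 hi).2.2
        · intro hp
          obtain ⟨j, rfl⟩ := f2 p hp
          obtain ⟨b1, -, b3, -⟩ := mem_GP.mp (t1 hp)
          refine ⟨some j, ?_, ?_⟩
          · simp only [L, lv, Sum.elim_inl, Option.elim]; omega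
          · rw [hl1]; exact Nat.sub_add_cancel b1.one_le)
    (fun _ => y * exp (-l0 + θ + 5 * (N : ℝ) ^ 56)) (fun L _ W' hW' => by
      rcases W'.eq_empty_or_nonempty with rfl | ⟨t0, ht0⟩
      · simp only [card_empty, Nat.cast_zero]; positivity
      obtain ⟨a1, ⟨c0, a2, a3⟩, a4⟩ := (hW' t0 ht0).2.1
      have := cover_bound W' (fun n => ((univ.filter fun i => 1 ≤ L (Sum.inl i)).image
        (fun i => line n (Sum.inl i) + 1), line n (Sum.inl none))) (fun _ => 1) (fun _ => 1) _ _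
        (fun _ _ => zero_le_one)
        (fun I hI => by simpa using mat_col h hι L a1 c0 a2 y hy I hI) (fun t ht => by
          obtain ⟨n, b1, b2⟩ := (hW' t ht).2.2
          exact ⟨n, b1, b2, le_rfl⟩)
      simp only [sum_const, nsmul_eq_mul, mul_one] at this
      refine this.trans (mul_le_mul_of_nonneg_left (exp_le_exp.mpr ?_) hy)
      rw [← a3]; push_cast; linarith)
  rw [sum_const, nsmul_eq_mul] at h1
  have h2 := card_profiles h (Option (Fin M) ⊕ Option (Fin M))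
  calc _ ≤ exp (101 * N * Fintype.card (Option (Fin M) ⊕ Option (Fin M))) *
        (y * exp (-l0 + θ + 5 * (N : ℝ) ^ 56)) := h1.trans (by gcongr)
    _ ≤ _ := by
      rw [mul_left_comm, ← exp_add]
      refine mul_le_mul_of_nonneg_left (exp_le_exp.mpr ?_) hy
      have := h.pw 3 56 (by norm_num)
      have e1 : (Fintype.card (Option (Fin M)) : ℝ) ≤ 2 * (N : ℝ) ^ 2 := by exact_mod_cast hι
      rw [Fintype.card_sum]; push_cast
      nlinarith

/-- collisions: another admissible tuple with the same value, missing the prime `p` -/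
def Coll (N u M p : ℕ) (t : Finset ℕ × ℕ) : Prop :=
  ∃ t' ∈ Adm N u (N ^ 5) M, val t' = val t ∧ p ∉ t'.1

lemma col_count {N u M : ℕ} (h : Ok N u) (hM : M + 1 ≤ 2 * N ^ 2) (l0 : ℕ) (θ y : ℝ) (hy : 0 ≤ y)
    (W : Finset (Finset ℕ × ℕ))
    (hW : ∀ t ∈ W, t ∈ Adm N u (N ^ 5) M ∧ (val t : ℝ) ≤ y ∧ ∃ p ∈ t.1, lev p = l0 ∧
      (∀ q ∈ t.1, q ≤ p) ∧ TT u (N ^ 5) 0 (t.1.erase p) - lv (N ^ 5) p ≤ θ ∧ Coll N u M p t) :
    (W.card : ℝ) ≤ y * exp (-l0 + θ + 7 * (N : ℝ) ^ 56) := by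
  classical
  have hn := h.n
  refine decomp_card W (fun (C : Finset ℕ) (t : Finset ℕ × ℕ) => (C ∪ t.1, t.2))
    (fun C => C ∈ (GP N u (N ^ 5)).powerset.filter fun P => P.card ≤ M)
    (fun C t => t ∈ Adm N u (N ^ 5) M ∧ (val t : ℝ) ≤ y / pv C ∧ (∃ p ∈ t.1, lev p = l0) ∧
      Ph u (cn t.1 (lv (N ^ 5))) ≤ θ ∧ ∃ t' ∈ Adm N u (N ^ 5) M, val t' = val t ∧ Disjoint t.1 t'.1)
    (fun C => y / pv C * exp (-l0 + θ + 6 * (N : ℝ) ^ 56)) _ (fun t ht => ?_)
    (fun C _ S hS => col_disj h hM l0 θ _ (by positivity) S hS) fun S hS => ?_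
  · obtain ⟨ht1, hty, p, hp, hl0, hmax, hθ, t', ht2, hv, hp'⟩ := hW t ht
    obtain ⟨t1, t2, t3⟩ := mem_Adm.mp ht1
    obtain ⟨s1, s2, s3⟩ := mem_Adm.mp ht2
    have hC0 : pv (t.1 ∩ t'.1) ≠ 0 :=
      pv_ne_zero fun q hq => (mem_GP.mp (t1 (mem_inter.mp hq).1)).1
    have e1 : val t = val (t.1 \ t'.1, t.2) * pv (t.1 ∩ t'.1) := by
      simp only [val, pv]
      rw [mul_assoc, ← prod_union (disjoint_sdiff_inter _ _), sdiff_union_inter]
    have e2 : val t' = val (t'.1 \ t.1, t'.2) * pv (t.1 ∩ t'.1) := by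
      simp only [val, pv]
      rw [inter_comm, mul_assoc, ← prod_union (disjoint_sdiff_inter _ _), sdiff_union_inter]
    have hp1 : p ∈ t.1 \ t'.1 := mem_sdiff.mpr ⟨hp, hp'⟩
    refine ⟨t.1 ∩ t'.1, (t.1 \ t'.1, t.2), mem_filter.mpr ⟨mem_powerset.mpr
      (inter_subset_left.trans t1), (card_le_card inter_subset_left).trans t2⟩,
      ⟨mem_Adm.mpr ⟨sdiff_subset.trans t1, (card_le_card sdiff_subset).trans t2, t3⟩, ?_,
      ⟨p, hp1, hl0⟩, ?_, (t'.1 \ t.1, t'.2),
      mem_Adm.mpr ⟨sdiff_subset.trans s1, (card_le_card sdiff_subset).trans s2, s3⟩, ?_,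
      disjoint_sdiff_sdiff⟩, ?_⟩
    · rw [le_div_iff₀ (by exact_mod_cast Nat.pos_of_ne_zero hC0), ← Nat.cast_mul, ← e1]; exact hty
    · simp only
      rw [← insert_erase hp1, Ph_insert (notMem_erase _ _) (lv_le (t1 hp)) fun q hq => by
        have := lev_mono (hmax q (sdiff_subset (mem_of_mem_erase hq)))
        simp only [lv]; omega]
      have := TT_mono (u := u) (i0 := N ^ 5) (erase_subset_erase p (sdiff_subset (s := t.1) (t := t'.1)))
      linarith
    · exact Nat.eq_of_mul_eq_mul_right (Nat.pos_of_ne_zero hC0) (by rw [← e1, ← e2, hv])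
    · refine Prod.ext ?_ rfl
      simp only
      rw [union_comm, sdiff_union_inter]
  · have h1 := sum_pv_le h (GP N u (N ^ 5)) (GP_subset _ _ _) M
    calc _ = y * exp (-l0 + θ + 6 * (N : ℝ) ^ 56) * ∑ C ∈ S, (1 : ℝ) / pv C := by
          rw [mul_sum]; exact sum_congr rfl fun C _ => by ring
      _ ≤ y * exp (-l0 + θ + 6 * (N : ℝ) ^ 56) * (exp 2 * exp (103 * N * M)) := by
          gcongr
          refine (sum_le_sum_of_subset_of_nonneg hS fun _ _ _ => by positivity).trans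
            (h1.trans ?_)
          gcongr; linarith [seven_le_exp_two]
      _ ≤ _ := by
          rw [mul_assoc, ← exp_add, ← exp_add]
          refine mul_le_mul_of_nonneg_left (exp_le_exp.mpr ?_) hy
          have := h.pw 3 56 (by norm_num)
          have := h.pw 0 3 (by norm_num)
          have e1 : (M : ℝ) ≤ 2 * (N : ℝ) ^ 2 := by exact_mod_cast (by omega : M ≤ 2 * N ^ 2)
          nlinarith

lemma log_val_le {N u i0 M l0 : ℕ} {t : Finset ℕ × ℕ} (ht : t ∈ Adm N u i0 M)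
    (hl : ∀ q ∈ t.1, lev q ≤ l0) : log (val t) ≤ (N : ℝ) ^ 6 * exp i0 + M * exp l0 := by
  obtain ⟨t1, t2, t3⟩ := mem_Adm.mp ht
  have hp : ∀ p ∈ t.1, p.Prime := fun p hp => (mem_GP.mp (t1 hp)).1
  rw [val, Nat.cast_mul, log_mul (by exact_mod_cast (Bl_sm t3).1) (by exact_mod_cast pv_ne_zero hp),
    pv, Nat.cast_prod, log_prod fun p hp' => by
      have := (hp p hp').two_le
      exact_mod_cast (by omega : p - 1 ≠ 0)]
  apply add_le_add (mem_Bl.mp t3).1
  calc _ ≤ t.1.card • exp (l0 : ℝ) := sum_le_card_nsmul _ _ _ fun q hq =>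
        lev_le_iff.mp ((lev_mono (Nat.sub_le _ _)).trans (hl q hq))
    _ ≤ _ := by rw [nsmul_eq_mul]; gcongr

lemma col_weight {N u M : ℕ} (h : Ok N u) (hM : M + 1 ≤ 2 * N ^ 2) (θ : ℝ)
    (W : Finset (Finset ℕ × ℕ))
    (hW : ∀ t ∈ W, t ∈ Adm N u (N ^ 5) M ∧ ∃ p ∈ t.1,
      (∀ q ∈ t.1, q ≤ p) ∧ TT u (N ^ 5) 0 (t.1.erase p) - lv (N ^ 5) p ≤ θ ∧ Coll N u M p t) :
    ∑ t ∈ W, (1 : ℝ) / val t ≤ exp (θ + 8 * (N : ℝ) ^ 56) := by
  have hn := h.n
  have h1 := un_bound W (Ioc (N ^ 5) u) (fun l0 t => ∃ p ∈ t.1, lev p = l0 ∧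
      (∀ q ∈ t.1, q ≤ p) ∧ TT u (N ^ 5) 0 (t.1.erase p) - lv (N ^ 5) p ≤ θ ∧ Coll N u M p t)
    (fun t => (1 : ℝ) / val t) (fun _ _ => by positivity) (fun t ht => by
      obtain ⟨a1, p, a2, a3⟩ := hW t ht
      obtain ⟨-, b2, b3, -⟩ := mem_GP.mp ((mem_Adm.mp a1).1 a2)
      exact ⟨lev p, mem_Ioc.mpr ⟨b3, b2⟩, p, a2, rfl, a3⟩)
    (fun _ => exp (θ + 7 * (N : ℝ) ^ 56 + 10 * N)) (fun l0 hl0 W' hW' => by
      have e0 : ((N ^ 5 : ℕ) : ℝ) ≤ l0 := by exact_mod_cast (mem_Ioc.mp hl0).1.le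
      have e1 : (M : ℝ) ≤ 2 * (N : ℝ) ^ 2 := by exact_mod_cast (by omega : M ≤ 2 * N ^ 2)
      have e2 : (1 : ℝ) ≤ exp l0 := one_le_exp (Nat.cast_nonneg _)
      have p26 := h.pw 2 6 (by norm_num)
      have p02 := h.pw 0 2 (by norm_num)
      refine (dyadic W' (fun t => (val t : ℝ)) (exp (-l0 + θ + 7 * (N : ℝ) ^ 56))
        (2 * (N : ℝ) ^ 6 * exp l0) (exp_pos _).le (by positivity) (fun t ht => by
          exact_mod_cast Nat.pos_of_ne_zero (val_ne_zero (hW t (hW' t ht).1).1))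
        (fun t ht => ?_) fun y hy => ?_).trans ?_
      · obtain ⟨p, a1, a2, a3, -⟩ := (hW' t ht).2
        refine (log_val_le (l0 := l0) (hW t (hW' t ht).1).1 fun q hq => a2 ▸ lev_mono (a3 q hq)).trans ?_
        have : (N : ℝ) ^ 6 * exp ((N ^ 5 : ℕ) : ℝ) ≤ (N : ℝ) ^ 6 * exp l0 := by gcongr
        nlinarith
      · rw [mul_comm]
        apply col_count h hM l0 θ y hy.le
        intro t ht
        rw [mem_filter] at ht
        exact ⟨(hW t (hW' t ht.1).1).1, ht.2, (hW' t ht.1).2⟩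
      · have a1 := pow_le_exp N (by linarith) 6
        have a2 : (9 : ℝ) ≤ exp (4 * N) := by linarith [add_one_le_exp (4 * (N : ℝ))]
        calc _ ≤ 3 * exp (-l0 + θ + 7 * (N : ℝ) ^ 56) * (3 * (N : ℝ) ^ 6 * exp l0) := by
              gcongr; nlinarith
          _ = 9 * (N : ℝ) ^ 6 * (exp (-l0 + θ + 7 * (N : ℝ) ^ 56) * exp l0) := by ring
          _ ≤ exp (4 * N) * exp ((6 : ℕ) * N) * (exp (-l0 + θ + 7 * (N : ℝ) ^ 56) * exp l0) := by
              gcongr
          _ = _ := by rw [← exp_add, ← exp_add, ← exp_add]; push_cast; ring_nf)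
  rw [sum_const, Nat.card_Ioc, nsmul_eq_mul] at h1
  have h2 : ((u - N ^ 5 : ℕ) : ℝ) ≤ exp (101 * N) := by
    have : ((u - N ^ 5 : ℕ) : ℝ) ≤ u := by exact_mod_cast Nat.sub_le u _
    linarith [h.u1]
  calc _ ≤ exp (101 * N) * exp (θ + 7 * (N : ℝ) ^ 56 + 10 * N) := h1.trans (by gcongr)
    _ ≤ _ := by
      rw [← exp_add]; apply exp_le_exp.mpr
      have := h.pw 1 56 (by norm_num)
      linarith

end Vale.Agent.P031
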