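import Vale.Agent.P031.Normal

/-! Admissible tuples and the decomposition of totient values. -/

namespace Vale.Agent.P031

open Finset Real

lemma or_bound {α : Type*} (V : Finset α) (p q : α → Prop) (g : α → ℝ) (hg : ∀ v ∈ V, 0 ≤ g v)
    (h : ∀ v ∈ V, p v ∨ q v) {A B : ℝ}
    (hA : ∀ W : Finset α, (∀ v ∈ W, v ∈ V ∧ p v) → ∑ v ∈ W, g v ≤ A)
    (hB : ∀ W : Finset α, (∀ v ∈ W, v ∈ V ∧ q v) → ∑ v ∈ W, g v ≤ B) : ∑ v ∈ V, g v ≤ A + B := by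
  classical
  exact (sum_or_le V p q g hg h).trans
    (add_le_add (hA _ fun v hv => mem_filter.mp hv) (hB _ fun v hv => mem_filter.mp hv))

lemma un_bound {α ι : Type*} (V : Finset α) (I : Finset ι) (R : ι → α → Prop) (g : α → ℝ)
    (hg : ∀ v ∈ V, 0 ≤ g v) (h : ∀ v ∈ V, ∃ i ∈ I, R i v) (B : ι → ℝ)
    (hB : ∀ i ∈ I, ∀ W : Finset α, (∀ v ∈ W, v ∈ V ∧ R i v) → ∑ v ∈ W, g v ≤ B i) :
    ∑ v ∈ V, g v ≤ ∑ i ∈ I, B i := by
  classical
  exact (union_bound V I R g hg h).trans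
    (sum_le_sum fun i hi => hB i hi _ fun v hv => mem_filter.mp hv)

lemma or_card {α : Type*} (V : Finset α) (p q : α → Prop)
    (h : ∀ v ∈ V, p v ∨ q v) {A B : ℝ}
    (hA : ∀ W : Finset α, (∀ v ∈ W, v ∈ V ∧ p v) → (W.card : ℝ) ≤ A)
    (hB : ∀ W : Finset α, (∀ v ∈ W, v ∈ V ∧ q v) → (W.card : ℝ) ≤ B) : (V.card : ℝ) ≤ A + B := by
  classical
  exact (card_or_le V p q h).trans
    (add_le_add (hA _ fun v hv => mem_filter.mp hv) (hB _ fun v hv => mem_filter.mp hv))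

lemma un_card {α ι : Type*} (V : Finset α) (I : Finset ι) (R : ι → α → Prop)
    (h : ∀ v ∈ V, ∃ i ∈ I, R i v) (B : ι → ℝ)
    (hB : ∀ i ∈ I, ∀ W : Finset α, (∀ v ∈ W, v ∈ V ∧ R i v) → (W.card : ℝ) ≤ B i) :
    (V.card : ℝ) ≤ ∑ i ∈ I, B i := by
  classical
  exact (union_card V I R h).trans
    (sum_le_sum fun i hi => hB i hi _ fun v hv => mem_filter.mp hv)

lemma cover_bound {α ι : Type*} (V : Finset α) (f : ι → α) (g : α → ℝ) (w : ι → ℝ) (Pp : ι → Prop)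
    (B : ℝ) (hw : ∀ i, Pp i → 0 ≤ w i) (hB : ∀ I : Finset ι, (∀ i ∈ I, Pp i) → ∑ i ∈ I, w i ≤ B)
    (h : ∀ v ∈ V, ∃ i, Pp i ∧ f i = v ∧ g v ≤ w i) : ∑ v ∈ V, g v ≤ B := by
  classical
  choose c hc using h
  have hI : ∀ i ∈ V.attach.image (fun v => c v.1 v.2), Pp i := by
    intro i hi
    obtain ⟨v, _, rfl⟩ := mem_image.mp hi
    exact (hc v.1 v.2).1
  refine (sum_le_of_cover V (V.attach.image fun v => c v.1 v.2) f g w (fun i hi => hw i (hI i hi))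
    fun v hv => ⟨c v hv, mem_image.mpr ⟨⟨v, hv⟩, mem_attach _ _, rfl⟩, (hc v hv).2⟩).trans (hB _ hI)

lemma sum_prod_card_le {ι : Type*} (Q : Finset ι) (w : ι → ℝ) (hw : ∀ q ∈ Q, 0 ≤ w q) (k : ℕ) :
    ∑ D ∈ Q.powerset with D.card ≤ k, ∏ q ∈ D, w q ≤ 3 * (∑ q ∈ Q, w q + 1) ^ k := by
  classical
  obtain ⟨W, hW⟩ : ∃ W, W = ∑ q ∈ Q, w q + 1 := ⟨_, rfl⟩
  have h0 : 0 ≤ ∑ q ∈ Q, w q := sum_nonneg hw
  have hw1 : 1 ≤ W := by linarith
  have hw0 : 0 < W := by linarith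
  rw [← hW]
  calc _ ≤ ∑ D ∈ Q.powerset with D.card ≤ k, W ^ k * ∏ q ∈ D, (w q / W) := by
        apply sum_le_sum
        intro D hD
        have hD' := (mem_filter.mp hD).2
        have hDQ := mem_powerset.mp (mem_filter.mp hD).1
        have : 0 ≤ ∏ q ∈ D, w q := prod_nonneg fun q hq => hw q (hDQ hq)
        rw [prod_div_distrib, prod_const, ← mul_div_assoc, le_div_iff₀ (by positivity), mul_comm]
        gcongr
    _ ≤ ∑ D ∈ Q.powerset, W ^ k * ∏ q ∈ D, (w q / W) :=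
        sum_le_sum_of_subset_of_nonneg (filter_subset _ _) (fun D hD _ =>
          mul_nonneg (by positivity) (prod_nonneg fun q hq =>
            div_nonneg (hw q (mem_powerset.mp hD hq)) hw0.le))
    _ = W ^ k * ∏ q ∈ Q, (1 + w q / W) := by rw [prod_one_add, mul_sum]
    _ ≤ W ^ k * ∏ q ∈ Q, exp (w q / W) := by
        gcongr with q hq
        · intro q hq; have := hw q hq; positivity
        · linarith [add_one_le_exp (w q / W)]
    _ ≤ W ^ k * exp 1 := by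
        rw [← exp_sum, ← sum_div]
        gcongr
        rw [div_le_one hw0]; linarith
    _ ≤ W ^ k * 3 := by gcongr; linarith [exp_one_lt_d9]
    _ = _ := by ring

/-- smooth numbers with too many prime factors -/
def Bad (u i0 d : ℕ) : Prop := ∃ s, i0 < s ∧ s ≤ u ∧ Sm s d ∧ 14 * (s : ℝ) ≤ Om s d

/-- exceptional factors -/
def Dx (N u i0 d : ℕ) : Prop :=
  (∃ p : ℕ, p.Prime ∧ i0 < lev p ∧ d = p * p) ∨ (∃ p : ℕ, p.Prime ∧ i0 < lev p ∧ d = p * (p - 1)) ∨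
    (∃ p : ℕ, p.Prime ∧ i0 < lev p ∧ lev p ≤ u ∧ ¬ Nrm N p ∧ d = p - 1) ∨ Bad u i0 d ∨
      (Sm i0 d ∧ (N : ℝ) ^ 6 * exp i0 < log d)

lemma bad_sum {N u : ℕ} (h : Ok N u) (i0 : ℕ) (S : Finset ℕ) (hS : ∀ d ∈ S, Bad u i0 d) :
    ∑ d ∈ S, (1 : ℝ) / d ≤ exp (102 * N - 2 * i0) := by
  classical
  have hn := h.n
  have h1 : ∑ d ∈ S, (1 : ℝ) / d ≤ ∑ _s ∈ Ioc i0 u, exp (N - 2 * i0) := by
    refine (union_bound S (Ioc i0 u) (fun s d => Sm s d ∧ 14 * (s : ℝ) ≤ Om s d) _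
      (fun _ _ => by positivity) fun d hd => ?_).trans (sum_le_sum fun s hs => ?_)
    · obtain ⟨s, h1, h2, h3⟩ := hS d hd
      exact ⟨s, mem_Ioc.mpr ⟨h1, h2⟩, h3⟩
    · have : (i0 : ℝ) ≤ s := by exact_mod_cast (mem_Ioc.mp hs).1.le
      have : (0 : ℝ) ≤ i0 := Nat.cast_nonneg _
      refine (chernoff (1 / 4) (13 / 4 * s) (by norm_num [abs_of_pos]) (le_refl s) _
        fun m hm => ?_).trans (exp_le_exp.mpr (by linarith))
      rw [mem_filter] at hm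
      exact ⟨hm.2.1, by linarith [hm.2.2]⟩
  rw [sum_const, Nat.card_Ioc, nsmul_eq_mul] at h1
  have h2 : ((u - i0 : ℕ) : ℝ) ≤ exp (101 * N) := by
    have : ((u - i0 : ℕ) : ℝ) ≤ u := by exact_mod_cast Nat.sub_le u i0
    linarith [h.u1]
  calc _ ≤ exp (101 * N) * exp (N - 2 * i0) := h1.trans (by gcongr)
    _ = _ := by rw [← exp_add]; ring_nf

lemma sq_tail (i0 : ℕ) (I : Finset ℕ) (hI : ∀ p ∈ I, p.Prime ∧ i0 < lev p) :
    ∑ p ∈ I, 2 * ((p : ℝ) ^ 2)⁻¹ ≤ 4 * exp (-i0) := by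
  rw [← mul_sum]
  have h1 := sum_inv_sq_le I (Y i0) (fun p hp => by
    by_contra hc
    have := lev_le_iff_Y.mpr (not_lt.mp hc)
    have := (hI p hp).2
    omega)
  have h2 : exp i0 ≤ (Y i0 : ℝ) + 1 := by
    have : exp (exp i0) < (Y i0 : ℝ) + 1 := Nat.lt_floor_add_one _
    linarith [add_one_le_exp (exp (i0 : ℝ))]
  have h3 : 2 / ((Y i0 : ℝ) + 1) ≤ 2 * exp (-i0) := by
    rw [exp_neg, ← div_eq_mul_inv]; gcongr
  linarith

lemma dx_sum {N u : ℕ} (h : Ok N u) {i0 : ℕ} (hi2 : 2 ≤ i0) (hi : (i0 : ℝ) ≤ (N : ℝ) ^ 5)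
    (S : Finset ℕ) (hS : ∀ d ∈ S, Dx N u i0 d) :
    ∑ d ∈ S, (1 : ℝ) / d ≤ exp (1400 * N - i0 / 16) := by
  classical
  have hn := h.n
  have hi0 : (0 : ℝ) ≤ i0 := Nat.cast_nonneg _
  obtain ⟨B, hB⟩ : ∃ B, B = exp (1300 * N - i0 / 16) := ⟨_, rfl⟩
  have hB1 : 4 * exp (-i0) ≤ B := by
    have : (4 : ℝ) ≤ exp (1300 * N) := by linarith [add_one_le_exp (1300 * (N : ℝ))]
    calc _ ≤ exp (1300 * N) * exp (-(i0 / 16)) := by gcongr; linarith
      _ = B := by rw [hB, ← exp_add]; ring_nf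
  have g0 : ∀ V : Finset ℕ, ∀ d ∈ V, (0 : ℝ) ≤ 1 / d := fun _ _ _ => by positivity
  have a1 : ∀ V : Finset ℕ, (∀ d ∈ V, ∃ p : ℕ, p.Prime ∧ i0 < lev p ∧ d = p * p) →
      ∑ d ∈ V, (1 : ℝ) / d ≤ B := fun V hV => by
    refine (cover_bound V (fun p => p * p) _ (fun p : ℕ => 2 * ((p : ℝ) ^ 2)⁻¹)
      (fun p => p.Prime ∧ i0 < lev p) _ (fun _ _ => by positivity) (sq_tail i0) fun d hd => ?_).trans hB1
    obtain ⟨p, p1, p2, rfl⟩ := hV d hd
    refine ⟨p, ⟨p1, p2⟩, rfl, ?_⟩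
    push_cast
    rw [one_div, ← sq]
    have : (0 : ℝ) ≤ ((p : ℝ) ^ 2)⁻¹ := by positivity
    linarith
  have a2 : ∀ V : Finset ℕ, (∀ d ∈ V, ∃ p : ℕ, p.Prime ∧ i0 < lev p ∧ d = p * (p - 1)) →
      ∑ d ∈ V, (1 : ℝ) / d ≤ B := fun V hV => by
    refine (cover_bound V (fun p => p * (p - 1)) _ (fun p : ℕ => 2 * ((p : ℝ) ^ 2)⁻¹)
      (fun p => p.Prime ∧ i0 < lev p) _ (fun _ _ => by positivity) (sq_tail i0) fun d hd => ?_).trans hB1
    obtain ⟨p, p1, p2, rfl⟩ := hV d hd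
    refine ⟨p, ⟨p1, p2⟩, rfl, ?_⟩
    have e2 : (2 : ℝ) ≤ p := by exact_mod_cast p1.two_le
    rw [Nat.cast_mul, cast_pred p1, ← div_eq_mul_inv, div_le_div_iff₀ (by nlinarith) (by positivity)]
    nlinarith
  have a3 : ∀ V : Finset ℕ,
      (∀ d ∈ V, ∃ p : ℕ, p.Prime ∧ i0 < lev p ∧ lev p ≤ u ∧ ¬ Nrm N p ∧ d = p - 1) →
      ∑ d ∈ V, (1 : ℝ) / d ≤ B := fun V hV => by
    rw [hB]
    refine cover_bound V (fun p => p - 1) _ (fun p : ℕ => 1 / ((p : ℝ) - 1))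
      (fun p => p.Prime ∧ i0 < lev p ∧ lev p ≤ u ∧ ¬ Nrm N p) _ (fun p hp => ?_)
      (abn_weight h hi2 hi) fun d hd => ?_
    · rw [← cast_pred hp.1]; positivity
    · obtain ⟨p, p1, p2, p3, p4, rfl⟩ := hV d hd
      exact ⟨p, ⟨p1, p2, p3, p4⟩, rfl, by rw [cast_pred p1]⟩
  have a4 : ∀ V : Finset ℕ, (∀ d ∈ V, Bad u i0 d) → ∑ d ∈ V, (1 : ℝ) / d ≤ B := fun V hV =>
    (bad_sum h i0 V hV).trans (by rw [hB]; apply exp_le_exp.mpr; linarith)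
  have a5 : ∀ V : Finset ℕ, (∀ d ∈ V, Sm i0 d ∧ (N : ℝ) ^ 6 * exp i0 < log d) →
      ∑ d ∈ V, (1 : ℝ) / d ≤ B := fun V hV => by
    refine (smooth_tail (s := i0) (exp i0) ((N : ℝ) ^ 6 * exp i0) (exp_pos _) V fun d hd =>
      ⟨(hV d hd).1, fun q h1 h2 => lev_le_iff.mp ((hV d hd).1.2 q h1 h2), (hV d hd).2.le⟩).trans ?_
    rw [hB]; apply exp_le_exp.mpr
    have e1 : -((N : ℝ) ^ 6 * exp i0) / (4 * exp i0) = -((N : ℝ) ^ 6 / 4) := by field_simp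
    have := h.pw 5 6 (by norm_num)
    rw [e1]; linarith
  have b1 := sum_or_le S _ _ _ (g0 S) hS
  have b2 := sum_or_le _ _ _ _ (g0 _) (fun d hd => (mem_filter.mp hd).2 :
    ∀ d ∈ S.filter fun d => (∃ p : ℕ, p.Prime ∧ i0 < lev p ∧ d = p * (p - 1)) ∨
    (∃ p : ℕ, p.Prime ∧ i0 < lev p ∧ lev p ≤ u ∧ ¬ Nrm N p ∧ d = p - 1) ∨ Bad u i0 d ∨
      (Sm i0 d ∧ (N : ℝ) ^ 6 * exp i0 < log d), _)
  have b3 : ∀ V : Finset ℕ, (∀ d ∈ V, (∃ p : ℕ, p.Prime ∧ i0 < lev p ∧ lev p ≤ u ∧ ¬ Nrm N p ∧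
      d = p - 1) ∨ Bad u i0 d ∨ (Sm i0 d ∧ (N : ℝ) ^ 6 * exp i0 < log d)) →
      ∑ d ∈ V, (1 : ℝ) / d ≤ B + (B + B) := fun V hV => by
    refine (sum_or_le V _ _ _ (g0 V) hV).trans (add_le_add (a3 _ fun d hd => (mem_filter.mp hd).2) ?_)
    refine (sum_or_le _ _ _ _ (g0 _) (fun d hd => (mem_filter.mp hd).2)).trans ?_
    exact add_le_add (a4 _ fun d hd => (mem_filter.mp hd).2) (a5 _ fun d hd => (mem_filter.mp hd).2)
  have b4 := b1.trans (add_le_add (a1 _ fun d hd => (mem_filter.mp hd).2)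
    (b2.trans (add_le_add (a2 _ fun d hd => (mem_filter.mp hd).2)
      (b3 _ fun d hd => (mem_filter.mp hd).2))))
  have e1 : (5 : ℝ) ≤ exp (100 * N) := by linarith [add_one_le_exp (100 * (N : ℝ))]
  have hB0 : 0 < B := hB ▸ exp_pos _
  calc _ ≤ 5 * B := by linarith
    _ ≤ exp (100 * N) * B := by gcongr
    _ = _ := by rw [hB, ← exp_add]; ring_nf

/-- product of shifted primes -/
def pv (P : Finset ℕ) : ℕ := ∏ p ∈ P, (p - 1)

/-- value of a tuple -/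
def val (t : Finset ℕ × ℕ) : ℕ := t.2 * pv t.1

open Classical in
/-- totients of smooth numbers, not too large -/
noncomputable def Bl (N i0 : ℕ) : Finset ℕ :=
  (Icc 1 ⌊exp ((N : ℝ) ^ 6 * exp i0)⌋₊).filter fun b => ∃ m, Sm i0 m ∧ m.totient = b

open Classical in
/-- good primes -/
noncomputable def GP (N u i0 : ℕ) : Finset ℕ := (Pr u).filter fun p => i0 < lev p ∧ Nrm N p

/-- admissible tuples -/
noncomputable def Adm (N u i0 M : ℕ) : Finset (Finset ℕ × ℕ) :=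
  ((GP N u i0).powerset.filter fun P => P.card ≤ M) ×ˢ Bl N i0

lemma mem_GP {N u i0 p : ℕ} : p ∈ GP N u i0 ↔ p.Prime ∧ lev p ≤ u ∧ i0 < lev p ∧ Nrm N p := by
  simp [GP, mem_Pr, and_assoc]

lemma GP_subset (N u i0 : ℕ) : GP N u i0 ⊆ Pr u := fun _ hp =>
  mem_Pr.mpr ⟨(mem_GP.mp hp).1, (mem_GP.mp hp).2.1⟩

lemma mem_Adm {N u i0 M : ℕ} {t : Finset ℕ × ℕ} :
    t ∈ Adm N u i0 M ↔ t.1 ⊆ GP N u i0 ∧ t.1.card ≤ M ∧ t.2 ∈ Bl N i0 := by
  simp [Adm, mem_product, and_assoc]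

lemma mem_Bl {N i0 b : ℕ} :
    b ∈ Bl N i0 ↔ log b ≤ (N : ℝ) ^ 6 * exp i0 ∧ ∃ m, Sm i0 m ∧ m.totient = b := by
  simp only [Bl, mem_filter, mem_Icc]
  refine and_congr_left fun ⟨m, hm, hb⟩ => ?_
  have h0 : 0 < b := hb ▸ Nat.totient_pos.mpr (Nat.pos_of_ne_zero hm.1)
  rw [Nat.le_floor_iff (exp_pos _).le, log_le_iff_le_exp (by exact_mod_cast h0)]
  exact ⟨fun h => h.2, fun h => ⟨h0, h⟩⟩

lemma pv_ne_zero {P : Finset ℕ} (h : ∀ p ∈ P, p.Prime) : pv P ≠ 0 :=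
  prod_ne_zero_iff.mpr fun p hp => by have := (h p hp).two_le; omega

lemma pv_insert {P : Finset ℕ} {p : ℕ} (h : p ∉ P) : pv (insert p P) = (p - 1) * pv P :=
  prod_insert h

lemma Sm.totient {s m : ℕ} (h : Sm s m) : Sm s m.totient := by
  have h1 := Nat.totient_mul_prod_primeFactors m
  have h2 : Sm s (m * ∏ p ∈ m.primeFactors, (p - 1)) :=
    h.mul (Sm.prod _ _ fun p hp => (Sm.pred (Nat.prime_of_mem_primeFactors hp)).mono
      (h.2 p (Nat.prime_of_mem_primeFactors hp) (Nat.dvd_of_mem_primeFactors hp)))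
  exact h2.of_dvd ⟨_, h1.symm⟩

lemma Bl_sm {N i0 b : ℕ} (h : b ∈ Bl N i0) : Sm i0 b := by
  obtain ⟨_, m, hm, rfl⟩ := mem_Bl.mp h
  exact hm.totient

lemma one_mem_Bl (N i0 : ℕ) : 1 ∈ Bl N i0 :=
  mem_Bl.mpr ⟨by simp; positivity, 1, Sm.one _, rfl⟩

lemma tot_prod (P : Finset ℕ) (hP : ∀ p ∈ P, p.Prime) (m : ℕ) (hm : ∀ p ∈ P, ¬ p ∣ m) :
    (m * ∏ p ∈ P, p).totient = m.totient * pv P := by
  induction P using Finset.induction_on with
  | empty => simp [pv]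
  | insert a P ha ih =>
    have hpa := hP a (mem_insert_self _ _)
    rw [prod_insert ha, pv_insert ha, mul_left_comm, Nat.totient_mul_of_prime_of_not_dvd hpa,
      ih (fun p hp => hP p (mem_insert_of_mem hp)) (fun p hp => hm p (mem_insert_of_mem hp))]
    · ring
    · intro hd
      rcases (Nat.Prime.dvd_mul hpa).mp hd with h | h
      · exact hm a (mem_insert_self _ _) h
      · obtain ⟨p, hp, h'⟩ := (Prime.dvd_finset_prod_iff hpa.prime _).mp h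
        rw [(Nat.prime_dvd_prime_iff_eq hpa (hP p (mem_insert_of_mem hp))).mp h'] at ha
        exact ha hp

/-- being a totient value -/
def IsTot (v : ℕ) : Prop := ∃ n, 1 ≤ n ∧ Nat.totient n = v

lemma isTot_val {N i0 : ℕ} {t : Finset ℕ × ℕ} (h1 : ∀ p ∈ t.1, p.Prime ∧ i0 < lev p)
    (h2 : t.2 ∈ Bl N i0) : IsTot (val t) := by
  obtain ⟨_, m, hm, hb⟩ := mem_Bl.mp h2
  refine ⟨m * ∏ p ∈ t.1, p, ?_, ?_⟩
  · exact Nat.pos_of_ne_zero (mul_ne_zero hm.1 (prod_ne_zero_iff.mpr fun p hp => (h1 p hp).1.ne_zero))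
  · rw [tot_prod _ (fun p hp => (h1 p hp).1) m, hb]; rfl
    intro p hp hd
    have := hm.2 p (h1 p hp).1 hd
    have := (h1 p hp).2
    omega

lemma val_ne_zero {N u i0 M : ℕ} {t : Finset ℕ × ℕ} (h : t ∈ Adm N u i0 M) : val t ≠ 0 :=
  mul_ne_zero (Bl_sm (mem_Adm.mp h).2.2).1 (pv_ne_zero fun _ hp => (mem_GP.mp ((mem_Adm.mp h).1 hp)).1)

lemma sum_pred_le {u : ℕ} (Q : Finset ℕ) (hQ : Q ⊆ Pr u) :
    ∑ p ∈ Q, (1 : ℝ) / ((p - 1 : ℕ) : ℝ) ≤ 2 * (u + 4) := by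
  calc _ ≤ ∑ p ∈ Q, 2 * ((1 : ℝ) / p) := by
        apply sum_le_sum
        intro p hp
        have p1 := (mem_Pr.mp (hQ hp)).1
        have e2 : (2 : ℝ) ≤ p := by exact_mod_cast p1.two_le
        rw [cast_pred p1, mul_one_div, div_le_div_iff₀ (by linarith) (by linarith)]; linarith
    _ ≤ 2 * mass u := by
        rw [← mul_sum]
        gcongr
        exact sum_le_sum_of_subset_of_nonneg hQ (fun _ _ _ => by positivity)
    _ ≤ _ := by linarith [mass_le u]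

lemma sum_pv_le {N u : ℕ} (h : Ok N u) (Q : Finset ℕ) (hQ : Q ⊆ Pr u) (M : ℕ) :
    ∑ P ∈ Q.powerset with P.card ≤ M, (1 : ℝ) / pv P ≤ 3 * exp (103 * N * M) := by
  have h1 := sum_prod_card_le Q (fun p => (1 : ℝ) / ((p - 1 : ℕ) : ℝ)) (fun _ _ => by positivity) M
  have h2 := sum_pred_le Q hQ
  have h3 : ∑ p ∈ Q, (1 : ℝ) / ((p - 1 : ℕ) : ℝ) + 1 ≤ exp (103 * N) := by
    have := h.u1
    have e : (3 : ℝ) ≤ exp (2 * N) := by linarith [add_one_le_exp (2 * (N : ℝ)), h.n]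
    have : (0 : ℝ) ≤ u := Nat.cast_nonneg _
    rw [show (103 : ℝ) * N = 2 * N + 101 * N by ring, exp_add]
    nlinarith
  calc _ = ∑ P ∈ Q.powerset with P.card ≤ M, ∏ p ∈ P, (1 : ℝ) / ((p - 1 : ℕ) : ℝ) := by
        refine sum_congr rfl fun P _ => ?_
        simp [pv, prod_inv_distrib]
    _ ≤ 3 * exp (103 * N) ^ M := h1.trans (by gcongr)
    _ = _ := by rw [← exp_nat_mul]; ring_nf

lemma adm_sum {N u : ℕ} (h : Ok N u) (i0 M : ℕ) :
    ∑ t ∈ Adm N u i0 M, (1 : ℝ) / val t ≤ exp (i0 + 19 + 103 * N * M) := by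
  have h1 := sum_pv_le h (GP N u i0) (GP_subset N u i0) M
  have h2 := smooth_sum (Bl N i0) (fun b hb => Bl_sm hb)
  rw [Adm, sum_product]
  calc _ = (∑ P ∈ (GP N u i0).powerset with P.card ≤ M, (1 : ℝ) / pv P) *
        ∑ b ∈ Bl N i0, (1 : ℝ) / b := by
        rw [sum_mul_sum]
        refine sum_congr rfl fun P _ => sum_congr rfl fun b _ => ?_
        simp only [val]; push_cast; ring
    _ ≤ (exp 2 * exp (103 * N * M)) * exp (i0 + 17) := by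
        gcongr
        exact h1.trans (by gcongr; linarith [seven_le_exp_two])
    _ = _ := by rw [← exp_add, ← exp_add]; ring_nf

/-- no initial segment has a bad value -/
def NB (u i0 : ℕ) (t : Finset ℕ × ℕ) : Prop :=
  ∀ p ∈ t.1, ¬ Bad u i0 (val (t.1.filter (· ≤ p), t.2))

lemma filter_le_insert {s : Finset ℕ} {a q : ℕ} (h : q < a) :
    (insert a s).filter (· ≤ q) = s.filter (· ≤ q) := by
  rw [filter_insert, if_neg (by omega)]

lemma filter_le_top {s : Finset ℕ} {a : ℕ} (h : ∀ x ∈ s, x ≤ a) : s.filter (· ≤ a) = s :=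
  filter_true_of_mem h

lemma card_bad {N u : ℕ} (h : Ok N u) (i0 : ℕ) (P : Finset ℕ) (hP : P ⊆ GP N u i0) (b : ℕ)
    (hb : Sm i0 b) (hno : NB u i0 (P, b)) : P.card < N ^ 2 := by
  by_contra hc
  push Not at hc
  have key : ∀ P' : Finset ℕ, P' ⊆ GP N u i0 → NB u i0 (P', b) → P'.Nonempty →
      (28 / 27 : ℝ) ^ P'.card ≤ 2 * ∑ p ∈ P', (lev p : ℝ) ∧ ∑ p ∈ P', (lev p : ℝ) ≤ 28 * u := by
    intro P'
    induction P' using Finset.induction_on_max with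
    | empty => intro _ _ h; simp at h
    | insert a s ha ih =>
      intro hs hno _
      have hna : a ∉ s := fun h => lt_irrefl _ (ha a h)
      obtain ⟨a1, a2, a3, a4⟩ := mem_GP.mp (hs (mem_insert_self _ _))
      have hle' : ∀ p ∈ insert a s, p ≤ a := fun p hp => by
        rcases mem_insert.mp hp with rfl | hp
        exacts [le_rfl, (ha p hp).le]
      have hle : ∀ p ∈ insert a s, lev p ≤ lev a := fun p hp => lev_mono (hle' p hp)
      have hpr : ∀ p ∈ insert a s, p.Prime := fun p hp => (mem_GP.mp (hs hp)).1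
      have e1 : ¬ 14 * (lev a : ℝ) ≤ Om (lev a) (pv (insert a s)) := fun e => by
        apply hno a (mem_insert_self _ _)
        simp only [filter_le_top hle', val]
        refine ⟨lev a, a3, a2, (hb.mono a3.le).mul
          (Sm.prod _ _ fun p hp => (Sm.pred (hpr p hp)).mono (hle p hp)), ?_⟩
        rw [Om_mul _ hb.1 (pv_ne_zero hpr)]
        linarith [Om_nonneg (lev a) b]
      have e2 : ∑ p ∈ insert a s, (lev p : ℝ) / 2 ≤ Om (lev a) (pv (insert a s)) := by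
        unfold Om pv
        rw [Ad_prod _ _ _ fun p hp => by have := (hpr p hp).two_le; omega]
        apply sum_le_sum
        intro p hp
        exact (mem_GP.mp (hs hp)).2.2.2.2.2.trans (Om_mono (hle p hp) _)
      rw [← sum_div, sum_insert hna] at e2
      rw [sum_insert hna, card_insert_of_notMem hna, pow_succ]
      have a2' : (lev a : ℝ) ≤ u := by exact_mod_cast a2
      have a3' : (1 : ℝ) ≤ lev a := by exact_mod_cast (by omega : 1 ≤ lev a)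
      refine ⟨?_, by linarith⟩
      rcases s.eq_empty_or_nonempty with rfl | hne
      · simp; linarith
      · have := (ih ((subset_insert _ _).trans hs) (fun q hq => by
          have := hno q (mem_insert_of_mem hq)
          simp only [filter_le_insert (ha q hq)] at this
          exact this) hne).1
        linarith
  have hn := h.n
  have hne : P.Nonempty := card_pos.mp (lt_of_lt_of_le (by have := h.hN; positivity) hc)
  obtain ⟨k1, k2⟩ := key P hP hno hne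
  have e1 : exp (1 / 28) ≤ (28 / 27 : ℝ) := by
    have := add_one_le_exp (-(1 / 28) : ℝ)
    rw [exp_neg, le_inv_comm₀ (by norm_num) (exp_pos _)] at this
    norm_num at this ⊢
    exact this
  have e2 : exp ((N : ℝ) ^ 2 / 28) ≤ (28 / 27 : ℝ) ^ P.card := by
    calc exp ((N : ℝ) ^ 2 / 28) = exp (1 / 28) ^ (N ^ 2) := by
          rw [← exp_nat_mul]; push_cast; ring_nf
      _ ≤ (28 / 27 : ℝ) ^ (N ^ 2) := by gcongr
      _ ≤ _ := pow_le_pow_right₀ (by norm_num) hc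
  have e3 : 56 * (u : ℝ) < exp ((N : ℝ) ^ 2 / 28) := by
    have := h.u1
    have e4 : (56 : ℝ) ≤ exp N := by linarith [add_one_le_exp (N : ℝ)]
    have := h.pw 1 2 (by norm_num)
    calc 56 * (u : ℝ) < 56 * (u + 4) := by linarith
      _ ≤ exp N * exp (101 * N) := by gcongr
      _ ≤ _ := by rw [← exp_add]; apply exp_le_exp.mpr; linarith
  linarith

lemma dec {N u : ℕ} (h : Ok N u) (i0 n : ℕ) (hn : Sm u n) :
    (∃ t ∈ Adm N u i0 (N ^ 2), val t = n.totient ∧ NB u i0 t ∧ ∀ p ∈ t.1, p ∣ n) ∨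
      ∃ a d, IsTot a ∧ Dx N u i0 d ∧ n.totient = a * d := by
  classical
  by_cases h1 : ∃ p : ℕ, p.Prime ∧ i0 < lev p ∧ p * p ∣ n
  · right
    obtain ⟨p, p1, p2, a, rfl⟩ := h1
    have ha : 1 ≤ a := Nat.pos_of_ne_zero (right_ne_zero_of_mul hn.1)
    by_cases hpa : p ∣ a
    · refine ⟨_, p * p, ⟨a, ha, rfl⟩, Or.inl ⟨p, p1, p2, rfl⟩, ?_⟩
      rw [mul_assoc, Nat.totient_mul_of_prime_of_dvd p1 (hpa.mul_left _),
        Nat.totient_mul_of_prime_of_dvd p1 hpa]; ring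
    · refine ⟨_, p * (p - 1), ⟨a, ha, rfl⟩, Or.inr (Or.inl ⟨p, p1, p2, rfl⟩), ?_⟩
      rw [mul_assoc, Nat.totient_mul_of_prime_of_dvd p1 (dvd_mul_right _ _),
        Nat.totient_mul_of_prime_of_not_dvd p1 hpa]; ring
  push Not at h1
  obtain ⟨P, hP⟩ : ∃ P, P = n.primeFactors.filter fun p => i0 < lev p := ⟨_, rfl⟩
  have hP1 : ∀ p, p ∈ P ↔ p.Prime ∧ p ∣ n ∧ i0 < lev p := fun p => by
    simp [hP, hn.1, and_assoc]
  have hPp : ∀ p ∈ P, p.Prime := fun p hp => ((hP1 p).mp hp).1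
  obtain ⟨m, hm⟩ : ∏ p ∈ P, p ∣ n :=
    (prod_dvd_prod_of_subset _ _ _ (hP ▸ filter_subset _ _)).trans (Nat.prod_primeFactors_dvd n)
  have hmP : ∀ p ∈ P, ¬ p ∣ m := fun p hp hd =>
    h1 p (hPp p hp) ((hP1 p).mp hp).2.2 (hm ▸ mul_dvd_mul (dvd_prod_of_mem _ hp) hd)
  have hmn : m ∣ n := ⟨_, by rw [hm, mul_comm]⟩
  have hms : Sm i0 m := ⟨(hn.of_dvd hmn).1, fun q q1 q2 => by
    by_contra hc
    exact hmP q ((hP1 q).mpr ⟨q1, q2.trans hmn, not_le.mp hc⟩) q2⟩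
  have htot : n.totient = m.totient * pv P := by
    rw [hm, mul_comm, tot_prod P hPp m hmP]
  have hsub : ∀ Q ⊆ P, Dx N u i0 (pv Q) → ∃ a d, IsTot a ∧ Dx N u i0 d ∧ n.totient = a * d := by
    intro Q hQ hD
    refine ⟨m.totient * pv (P \ Q), pv Q, ⟨m * ∏ p ∈ P \ Q, p, ?_, ?_⟩, hD, ?_⟩
    · exact Nat.pos_of_ne_zero (mul_ne_zero hms.1
        (prod_ne_zero_iff.mpr fun p hp => (hPp p (sdiff_subset hp)).ne_zero))
    · exact tot_prod _ (fun p hp => hPp p (sdiff_subset hp)) m fun p hp => hmP p (sdiff_subset hp)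
    · rw [htot, mul_assoc, pv, pv, pv, prod_sdiff hQ]
  by_cases h2 : ∃ p ∈ P, ¬ Nrm N p
  · right
    obtain ⟨p, hp, p2⟩ := h2
    obtain ⟨a1, a2, a3⟩ := (hP1 p).mp hp
    exact hsub {p} (by simpa using hp)
      (Or.inr (Or.inr (Or.inl ⟨p, a1, a3, hn.2 p a1 a2, p2, by simp [pv]⟩)))
  push Not at h2
  have hPG : P ⊆ GP N u i0 := fun p hp => by
    obtain ⟨a1, a2, a3⟩ := (hP1 p).mp hp
    exact mem_GP.mpr ⟨a1, hn.2 p a1 a2, a3, h2 p hp⟩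
  by_cases h3 : NB u i0 (P, m.totient)
  swap
  · right
    unfold NB at h3
    push Not at h3
    obtain ⟨p, -, hB⟩ := h3
    refine ⟨pv (P \ P.filter (· ≤ p)), _, ⟨1 * ∏ q ∈ P \ P.filter (· ≤ p), q, ?_, ?_⟩,
      Or.inr (Or.inr (Or.inr (Or.inl hB))), ?_⟩
    · exact Nat.pos_of_ne_zero (mul_ne_zero one_ne_zero
        (prod_ne_zero_iff.mpr fun p hp => (hPp p (sdiff_subset hp)).ne_zero))
    · rw [tot_prod _ (fun p hp => hPp p (sdiff_subset hp)) 1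
        fun p hp hd => (hPp p (sdiff_subset hp)).ne_one (Nat.dvd_one.mp hd)]; simp
    · rw [htot, val, mul_left_comm, pv, pv, pv, prod_sdiff (filter_subset _ _)]
  by_cases h4 : log m.totient ≤ (N : ℝ) ^ 6 * exp i0
  · left
    exact ⟨(P, m.totient), mem_Adm.mpr ⟨hPG, (card_bad h i0 P hPG _ hms.totient h3).le,
      mem_Bl.mpr ⟨h4, m, hms, rfl⟩⟩, htot.symm, h3, fun p hp => ((hP1 p).mp hp).2.1⟩
  · right
    refine ⟨pv P, m.totient, ⟨1 * ∏ p ∈ P, p, ?_, ?_⟩,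
      Or.inr (Or.inr (Or.inr (Or.inr ⟨hms.totient, not_le.mp h4⟩))), by rw [htot, mul_comm]⟩
    · exact Nat.pos_of_ne_zero (mul_ne_zero one_ne_zero
        (prod_ne_zero_iff.mpr fun p hp => (hPp p hp).ne_zero))
    · rw [tot_prod _ hPp 1 fun p hp hd => (hPp p hp).ne_one (Nat.dvd_one.mp hd)]; simp

lemma sm_of_totient {u n : ℕ} (hn : 1 ≤ n) (h : n.totient < Y u) : Sm u n := by
  refine ⟨by omega, fun q q1 q2 => lev_le_iff_Y.mpr ?_⟩
  have := Nat.le_of_dvd (Nat.totient_pos.mpr hn) (Nat.totient_dvd_of_dvd q2)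
  rw [Nat.totient_prime q1] at this
  omega

lemma IsTot.pos {v : ℕ} (h : IsTot v) : 0 < v := by
  obtain ⟨n, h1, rfl⟩ := h
  exact Nat.totient_pos.mpr h1

open Classical in
/-- totient values in range -/
noncomputable def Tot (u : ℕ) : Finset ℕ := (range (Y u)).filter IsTot

open Classical in
/-- exceptional factors in range -/
noncomputable def DS (N u i0 : ℕ) : Finset ℕ := (range (Y u)).filter (Dx N u i0)

lemma mem_Tot {u v : ℕ} : v ∈ Tot u ↔ v < Y u ∧ IsTot v := by simp [Tot]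

lemma mem_DS {N u i0 d : ℕ} : d ∈ DS N u i0 ↔ d < Y u ∧ Dx N u i0 d := by simp [DS]

lemma tot_dx_sum {N u i0 : ℕ} (W : Finset ℕ)
    (hW : ∀ v ∈ W, v < Y u ∧ 0 < v ∧ ∃ a d, IsTot a ∧ Dx N u i0 d ∧ v = a * d) :
    ∑ v ∈ W, (1 : ℝ) / v ≤ (∑ v ∈ Tot u, (1 : ℝ) / v) * ∑ d ∈ DS N u i0, (1 : ℝ) / d := by
  rw [sum_mul_sum, ← sum_product']
  refine sum_le_of_cover W (Tot u ×ˢ DS N u i0) (fun x => x.1 * x.2) (fun v => (1 : ℝ) / v)
    _ (fun _ _ => by positivity) fun v hv => ?_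
  obtain ⟨v1, v2, a, d, a1, a2, rfl⟩ := hW v hv
  have e1 : a ≤ a * d := Nat.le_mul_of_pos_right _ (Nat.pos_of_mul_pos_left v2)
  have e2 : d ≤ a * d := Nat.le_mul_of_pos_left _ a1.pos
  refine ⟨(a, d), mem_product.mpr ⟨mem_Tot.mpr ⟨by omega, a1⟩, mem_DS.mpr ⟨by omega, a2⟩⟩,
    rfl, ?_⟩
  push_cast; rw [one_div_mul_one_div]

lemma tot_sum {N u : ℕ} (h : Ok N u) : ∑ v ∈ Tot u, (1 : ℝ) / v ≤ exp ((N : ℝ) ^ 4) := by
  classical
  have hn := h.n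
  have hi2 : 2 ≤ N ^ 2 := by have := h.hN; nlinarith
  have hi : ((N ^ 2 : ℕ) : ℝ) ≤ (N : ℝ) ^ 5 := by
    push_cast; linarith [h.pw 2 5 (by norm_num), sq_nonneg (N : ℝ)]
  have h1 := or_bound (Tot u) (fun v => ∃ t ∈ Adm N u (N ^ 2) (N ^ 2), val t = v)
    (fun v => ∃ a d, IsTot a ∧ Dx N u (N ^ 2) d ∧ v = a * d) (fun v => (1 : ℝ) / v)
    (fun _ _ => by positivity) (fun v hv => by
      obtain ⟨v1, n, n1, rfl⟩ := mem_Tot.mp hv
      rcases dec h (N ^ 2) n (sm_of_totient n1 v1) with ⟨t, t1, t2, _⟩ | h'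
      exacts [Or.inl ⟨t, t1, t2⟩, Or.inr h'])
    (fun W hW => (sum_le_of_cover W (Adm N u (N ^ 2) (N ^ 2)) val (fun v => (1 : ℝ) / v)
      (fun t => (1 : ℝ) / val t) (fun _ _ => by positivity) (fun v hv => by
        obtain ⟨t, t1, rfl⟩ := (hW v hv).2
        exact ⟨t, t1, rfl, le_rfl⟩)).trans (adm_sum h _ _))
    (fun W hW => tot_dx_sum W (fun v hv => ⟨(mem_Tot.mp (hW v hv).1).1, (mem_Tot.mp (hW v hv).1).2.pos,
      (hW v hv).2⟩))
  have h4 := dx_sum h hi2 hi (DS N u (N ^ 2)) (fun d hd => (mem_DS.mp hd).2)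
  have p12 := h.pw 1 2 (by norm_num)
  have p23 := h.pw 2 3 (by norm_num)
  have p34 := h.pw 3 4 (by norm_num)
  have h5 : exp (1400 * N - ((N ^ 2 : ℕ) : ℝ) / 16) ≤ 1 / 2 := by
    calc _ ≤ exp (-1) := by apply exp_le_exp.mpr; push_cast; linarith
      _ ≤ 1 / 2 := by
        rw [exp_neg, one_div]; apply inv_anti₀ (by norm_num); linarith [exp_one_gt_d9]
  have h6 : 2 * exp (((N ^ 2 : ℕ) : ℝ) + 19 + 103 * N * ((N ^ 2 : ℕ) : ℝ)) ≤ exp ((N : ℝ) ^ 4) := by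
    calc _ ≤ exp 1 * exp (((N ^ 2 : ℕ) : ℝ) + 19 + 103 * N * ((N ^ 2 : ℕ) : ℝ)) := by
          gcongr; linarith [exp_one_gt_d9]
      _ ≤ _ := by rw [← exp_add]; apply exp_le_exp.mpr; push_cast; nlinarith
  have h7 : 0 ≤ ∑ v ∈ Tot u, (1 : ℝ) / v := sum_nonneg fun _ _ => by positivity
  have h8 : (∑ v ∈ Tot u, (1 : ℝ) / v) * ∑ d ∈ DS N u (N ^ 2), (1 : ℝ) / d ≤
      (∑ v ∈ Tot u, (1 : ℝ) / v) * (1 / 2) := by gcongr; exact h4.trans h5
  linarith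

end Vale.Agent.P031
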