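import Mathlib

open MeasureTheory Set Filter Topology Asymptotics
open scoped Real

namespace Vale.Agent.P031

namespace PNT

/-- normalised error term in logarithmic scale -/
noncomputable def hh (u : ℝ) : ℝ := Chebyshev.psi (Real.exp u) * Real.exp (-u) - 1

/-- bound for the normalised error term -/
noncomputable def CC : ℝ := Real.log 4 + 5

lemma CC_pos : 0 < CC := by
  have : 0 ≤ Real.log 4 := Real.log_nonneg (by norm_num)
  unfold CC; linarith

lemma H_le (u : ℝ) : Chebyshev.psi (Real.exp u) * Real.exp (-u) ≤ CC - 1 := by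
  have h := Chebyshev.psi_le_const_mul_self (Real.exp_pos u).le
  have e : Real.exp u * Real.exp (-u) = 1 := by rw [← Real.exp_add]; simp
  calc _ ≤ (Real.log 4 + 4) * Real.exp u * Real.exp (-u) := by gcongr
    _ = CC - 1 := by rw [mul_assoc, e]; unfold CC; ring

lemma H_nonneg (u : ℝ) : 0 ≤ Chebyshev.psi (Real.exp u) * Real.exp (-u) :=
  mul_nonneg (Chebyshev.psi_nonneg _) (Real.exp_pos _).le

lemma hh_abs (u : ℝ) : |hh u| ≤ CC := by
  have h1 := H_le u
  have h2 := H_nonneg u
  have : 0 ≤ Real.log 4 := Real.log_nonneg (by norm_num)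
  unfold CC at *
  rw [abs_le]; unfold hh; constructor <;> linarith

lemma hh_meas : Measurable hh := by
  have : Measurable fun u => Chebyshev.psi (Real.exp u) :=
    Chebyshev.psi_mono.measurable.comp Real.measurable_exp
  unfold hh
  fun_prop

/-- the regular part of the logarithmic derivative -/
noncomputable def GG (s : ℂ) : ℂ :=
  ArithmeticFunction.vonMangoldt.LFunctionResidueClassAux (1 : ZMod 1) s

/-- Laplace transform of the error term -/
noncomputable def FF (s : ℂ) : ℂ := (GG s - 1) / s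

lemma FF_cont : ContinuousOn FF {s | 1 ≤ s.re} := by
  refine ContinuousOn.div (ContinuousOn.sub
    (ArithmeticFunction.vonMangoldt.continuousOn_LFunctionResidueClassAux (1 : ZMod 1))
    continuousOn_const) continuousOn_id ?_
  intro s hs h
  simp only [mem_ofPred_eq, h, Complex.zero_re] at hs
  linarith

lemma GG_eq {s : ℂ} (hs : 1 < s.re) :
    GG s = LSeries (fun n => (ArithmeticFunction.vonMangoldt n : ℂ)) s - 1 / (s - 1) := by
  have := ArithmeticFunction.vonMangoldt.eqOn_LFunctionResidueClassAux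
    (a := (1 : ZMod 1)) isUnit_one hs
  unfold GG
  rw [this]
  have e : ArithmeticFunction.vonMangoldt.residueClass (1 : ZMod 1) =
      fun n => ArithmeticFunction.vonMangoldt n := by
    funext n
    apply Set.indicator_of_mem
    exact Subsingleton.elim _ _
  simp [e]

lemma psi_Icc (x : ℝ) :
    ∑ k ∈ Finset.Icc 1 ⌊x⌋₊, ArithmeticFunction.vonMangoldt k = Chebyshev.psi x := by
  unfold Chebyshev.psi
  congr 1

lemma int_hh_exp {a : ℂ} (ha : 0 < a.re) :
    IntegrableOn (fun u : ℝ => (hh u : ℂ) * Complex.exp (-a * u)) (Ioi 0) := by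
  have h1 := integrableOn_exp_mul_complex_Ioi (a := -a) (by simpa using ha) 0
  refine Integrable.bdd_mul (c := CC) h1 ?_ ?_
  · exact (Complex.measurable_ofReal.comp hh_meas).aestronglyMeasurable
  · filter_upwards with u
    simpa using hh_abs u

lemma laplace {a : ℂ} (ha : 0 < a.re) :
    ∫ u in Ioi (0 : ℝ), (hh u : ℂ) * Complex.exp (-a * u) = FF (1 + a) := by
  have hs : (1 : ℝ) < (1 + a).re := by simpa using ha
  have hO : (fun n : ℕ => ∑ k ∈ Finset.Icc 1 n, ArithmeticFunction.vonMangoldt k) =O[atTop]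
      fun n : ℕ => (n : ℝ) ^ (1 : ℝ) := by
    refine IsBigO.of_bound (Real.log 4 + 4) (Eventually.of_forall fun n => ?_)
    have := psi_Icc (n : ℝ)
    rw [Nat.floor_natCast] at this
    rw [this, Real.norm_of_nonneg (Chebyshev.psi_nonneg _), Real.rpow_one, Real.norm_natCast]
    exact Chebyshev.psi_le_const_mul_self (Nat.cast_nonneg n)
  have h1 := LSeries_eq_mul_integral_of_nonneg (fun n => ArithmeticFunction.vonMangoldt n)
    zero_le_one hs hO (fun _ => ArithmeticFunction.vonMangoldt_nonneg)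
  have him : Ioi (1 : ℝ) = Real.exp '' Ioi 0 := by
    ext x
    constructor
    · intro hx
      have hx' : (1 : ℝ) < x := hx
      exact ⟨Real.log x, Real.log_pos hx', Real.exp_log (by linarith)⟩
    · rintro ⟨u, hu, rfl⟩
      exact Real.one_lt_exp_iff.2 hu
  rw [him, integral_image_eq_integral_abs_deriv_smul measurableSet_Ioi
    (fun u _ => (Real.hasDerivAt_exp u).hasDerivWithinAt) Real.exp_injective.injOn] at h1
  have h2 := integral_exp_mul_complex_Ioi (a := -a) (by simpa using ha) 0
  have h3 := integrableOn_exp_mul_complex_Ioi (a := -a) (by simpa using ha) 0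
  have h4 : ∫ u in Ioi (0 : ℝ), |Real.exp u| •
      ((∑ k ∈ Finset.Icc 1 ⌊Real.exp u⌋₊, ((ArithmeticFunction.vonMangoldt k : ℝ) : ℂ)) *
        ((Real.exp u : ℝ) : ℂ) ^ (-(1 + a + 1))) =
      (∫ u in Ioi (0 : ℝ), (hh u : ℂ) * Complex.exp (-a * u)) +
        ∫ u in Ioi (0 : ℝ), Complex.exp (-a * u) := by
    rw [← integral_add (int_hh_exp ha) h3]
    refine setIntegral_congr_fun measurableSet_Ioi fun u _ => ?_
    have e1 : ((Real.exp u : ℝ) : ℂ) ^ (-(1 + a + 1)) = Complex.exp (u * (-(1 + a + 1))) := by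
      rw [Complex.cpow_def_of_ne_zero (by exact_mod_cast (Real.exp_pos u).ne'),
        ← Complex.ofReal_log (Real.exp_pos u).le, Real.log_exp]
    have e2 : Complex.exp (u * (-(1 + a + 1))) * Complex.exp u =
        Complex.exp (-u) * Complex.exp (-a * u) := by
      rw [← Complex.exp_add, ← Complex.exp_add]; congr 1; ring
    rw [← Complex.ofReal_sum, psi_Icc, abs_of_pos (Real.exp_pos u), e1, Complex.real_smul]
    unfold hh
    push_cast
    linear_combination (Chebyshev.psi (Real.exp u) : ℂ) * e2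
  rw [h4, h2] at h1
  have ha0 : a ≠ 0 := fun h => by simp [h] at ha
  have ha1 : 1 + a ≠ 0 := fun h => by simp [h] at hs; linarith
  unfold FF
  rw [GG_eq hs, h1]
  field_simp
  simp
  field_simp
  ring

/-- complex Fejer kernel -/
noncomputable def Kc (v : ℝ) : ℂ :=
  ∫ t in Ioc (0 : ℝ) 1, ((1 - t : ℝ) : ℂ) * Complex.exp (Complex.I * t * v)

/-- Fejer kernel -/
noncomputable def KK (v : ℝ) : ℝ := (Kc v).re

lemma Kc_norm (v : ℝ) : ‖Kc v‖ ≤ 1 := by
  have := norm_setIntegral_le_of_norm_le_const (μ := volume) (s := Ioc (0 : ℝ) 1)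
    (f := fun t : ℝ => ((1 - t : ℝ) : ℂ) * Complex.exp (Complex.I * t * v)) (C := 1)
    (by simp) (fun t ht => by
      have e : Complex.I * t * v = ((t * v : ℝ) : ℂ) * Complex.I := by push_cast; ring
      rw [norm_mul, e, Complex.norm_exp_ofReal_mul_I, Complex.norm_real, mul_one, Real.norm_eq_abs,
        abs_le]
      constructor <;> linarith [ht.1, ht.2])
  simpa [Kc] using this

lemma Kc_cont : Continuous Kc := by
  have : Kc = fun v : ℝ =>
      ∫ t in (0 : ℝ)..1, ((1 - t : ℝ) : ℂ) * Complex.exp (Complex.I * t * v) := by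
    funext v
    rw [intervalIntegral.integral_of_le zero_le_one]; rfl
  rw [this]
  exact intervalIntegral.continuous_parametric_intervalIntegral_of_continuous' (by fun_prop) _ _

lemma KK_cont : Continuous KK := Complex.continuous_re.comp Kc_cont

lemma KK_eq {v : ℝ} (hv : v ≠ 0) : KK v = (1 - Real.cos v) / v ^ 2 := by
  have hv' : (v : ℂ) ≠ 0 := by exact_mod_cast hv
  have hd : ∀ t ∈ uIcc (0 : ℝ) 1, HasDerivAt (fun t : ℝ =>
      ((1 - t : ℝ) : ℂ) * Complex.exp (Complex.I * t * v) / (Complex.I * v) -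
        Complex.exp (Complex.I * t * v) / (v : ℂ) ^ 2)
      (((1 - t : ℝ) : ℂ) * Complex.exp (Complex.I * t * v)) t := by
    intro t _
    have h0 : HasDerivAt (fun t : ℝ => (t : ℂ)) 1 t := Complex.ofRealCLM.hasDerivAt
    have h1 : HasDerivAt (fun t : ℝ => Complex.exp (Complex.I * t * v))
        (Complex.exp (Complex.I * t * v) * (Complex.I * 1 * v)) t :=
      ((h0.const_mul Complex.I).mul_const (v : ℂ)).cexp
    have h2 : HasDerivAt (fun t : ℝ => ((1 - t : ℝ) : ℂ)) (-1) t := by
      simpa using h0.const_sub 1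
    refine (((h2.mul h1).div_const (Complex.I * v)).sub (h1.div_const ((v : ℂ) ^ 2))).congr_deriv ?_
    have hI := Complex.I_ne_zero
    field_simp
    linear_combination (-1 : ℂ) * Complex.I_mul_I
  have h := intervalIntegral.integral_eq_sub_of_hasDerivAt hd
    (Continuous.intervalIntegrable (by fun_prop) _ _)
  rw [intervalIntegral.integral_of_le zero_le_one] at h
  unfold KK Kc
  rw [h]
  have e : ((1 - 1 : ℝ) : ℂ) * Complex.exp (Complex.I * (1 : ℝ) * v) / (Complex.I * v) -
      Complex.exp (Complex.I * (1 : ℝ) * v) / (v : ℂ) ^ 2 -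
      (((1 - 0 : ℝ) : ℂ) * Complex.exp (Complex.I * (0 : ℝ) * v) / (Complex.I * v) -
        Complex.exp (Complex.I * (0 : ℝ) * v) / (v : ℂ) ^ 2) =
      (((1 - Real.cos v) / v ^ 2 : ℝ) : ℂ) + (((v - Real.sin v) / v ^ 2 : ℝ) : ℂ) * Complex.I := by
    have hI := Complex.I_ne_zero
    have e1 : Complex.I * (1 : ℝ) * v = v * Complex.I := by push_cast; ring
    rw [e1, Complex.exp_mul_I]
    push_cast
    simp only [mul_zero, zero_mul, Complex.exp_zero]
    field_simp
    linear_combination (-(v : ℂ)) * Complex.I_mul_I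
  rw [e]
  simp only [Complex.add_re, Complex.ofReal_re, Complex.mul_re, Complex.I_re, Complex.ofReal_im,
    Complex.I_im]
  ring

lemma KK_zero : KK 0 = 1 / 2 := by
  unfold KK Kc
  simp only [Complex.ofReal_zero, mul_zero, Complex.exp_zero, mul_one]
  rw [integral_complex_ofReal, Complex.ofReal_re, ← intervalIntegral.integral_of_le zero_le_one,
    intervalIntegral.integral_sub (by simp) (by simp)]
  simp
  norm_num

lemma KK_nonneg (v : ℝ) : 0 ≤ KK v := by
  rcases eq_or_ne v 0 with rfl | hv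
  · rw [KK_zero]; norm_num
  · rw [KK_eq hv]
    exact div_nonneg (by linarith [Real.cos_le_one v]) (sq_nonneg _)

lemma KK_int : Integrable KK := by
  refine Integrable.mono' (integrable_inv_one_add_sq.const_mul 3) KK_cont.aestronglyMeasurable
    (Eventually.of_forall fun v => ?_)
  rw [Real.norm_of_nonneg (KK_nonneg v), ← div_eq_mul_inv, le_div_iff₀ (by positivity)]
  have h1 : KK v ≤ 1 := (Complex.re_le_norm _).trans (Kc_norm v)
  have h2 : KK v * v ^ 2 ≤ 2 := by
    rcases eq_or_ne v 0 with rfl | hv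
    · simp
    · rw [KK_eq hv, div_mul_cancel₀ _ (pow_ne_zero 2 hv)]
      linarith [Real.neg_one_le_cos v]
  nlinarith

lemma KK_pos : 0 < ∫ v, KK v :=
  integral_pos_of_integrable_nonneg_nonzero (x := 0) KK_cont KK_int KK_nonneg
    (by rw [KK_zero]; norm_num)

lemma exp_norm (t v : ℝ) : ‖Complex.exp (Complex.I * t * v)‖ = 1 := by
  have e : Complex.I * t * v = ((t * v : ℝ) : ℂ) * Complex.I := by push_cast; ring
  rw [e, Complex.norm_exp_ofReal_mul_I]

lemma fubini {ε : ℝ} (hε : 0 < ε) (l y : ℝ) :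
    ∫ u in Ioi (0 : ℝ), hh u * Real.exp (-ε * u) * KK (l * (y - u)) =
      (∫ t in Ioc (0 : ℝ) 1, ((1 - t : ℝ) : ℂ) * Complex.exp (Complex.I * t * (l * y : ℝ)) *
        FF (1 + (ε + Complex.I * t * l))).re := by
  set f : ℝ → ℝ → ℂ := fun u t => (hh u : ℂ) * Complex.exp (-(ε : ℂ) * u) *
    (((1 - t : ℝ) : ℂ) * Complex.exp (Complex.I * t * (l * (y - u) : ℝ))) with hf
  have hi0 := int_hh_exp (a := (ε : ℂ)) (by simpa using hε)
  have hint : Integrable (Function.uncurry f)
      ((volume.restrict (Ioi (0 : ℝ))).prod (volume.restrict (Ioc (0 : ℝ) 1))) := by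
    have hb : Integrable (fun p : ℝ × ℝ => ‖(hh p.1 : ℂ) * Complex.exp (-(ε : ℂ) * p.1)‖ * (1 : ℝ))
        ((volume.restrict (Ioi (0 : ℝ))).prod (volume.restrict (Ioc (0 : ℝ) 1))) :=
      Integrable.mul_prod (f := fun u : ℝ => ‖(hh u : ℂ) * Complex.exp (-(ε : ℂ) * u)‖)
        (g := fun _ : ℝ => (1 : ℝ)) hi0.norm (integrable_const _)
    refine hb.mono' ?_ ?_
    · have := hh_meas
      apply Measurable.aestronglyMeasurable
      unfold Function.uncurry
      simp only [hf]
      fun_prop
    · rw [Measure.prod_restrict]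
      filter_upwards [ae_restrict_mem (measurableSet_Ioi.prod measurableSet_Ioc)] with p hp
      simp only [Function.uncurry, hf]
      rw [norm_mul, norm_mul (((1 - p.2 : ℝ) : ℂ)), exp_norm, mul_one, Complex.norm_real]
      gcongr
      rw [Real.norm_eq_abs, abs_le]
      constructor <;> linarith [hp.2.1, hp.2.2]
  have h1 := integral_integral_swap hint
  have h2 : ∀ u, ∫ t in Ioc (0 : ℝ) 1, f u t =
      (hh u : ℂ) * Complex.exp (-(ε : ℂ) * u) * Kc (l * (y - u)) := fun u => by
    simp only [hf]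
    rw [integral_const_mul]; rfl
  have h3 : ∀ t : ℝ, ∫ u in Ioi (0 : ℝ), f u t =
      ((1 - t : ℝ) : ℂ) * Complex.exp (Complex.I * t * (l * y : ℝ)) *
        FF (1 + (ε + Complex.I * t * l)) := fun t => by
    rw [← laplace (by simpa using hε), ← integral_const_mul]
    refine setIntegral_congr_fun measurableSet_Ioi fun u _ => ?_
    have e : Complex.exp (-(ε : ℂ) * u) * Complex.exp (Complex.I * t * (l * (y - u) : ℝ)) =
        Complex.exp (Complex.I * t * (l * y : ℝ)) *
          Complex.exp (-(ε + Complex.I * t * l) * u) := by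
      rw [← Complex.exp_add, ← Complex.exp_add]; congr 1; push_cast; ring
    simp only [hf]
    linear_combination (hh u : ℂ) * ((1 - t : ℝ) : ℂ) * e
  simp only [h2, h3] at h1
  rw [← h1]
  have hi1 : Integrable (fun u : ℝ => (hh u : ℂ) * Complex.exp (-(ε : ℂ) * u) * Kc (l * (y - u)))
      (volume.restrict (Ioi (0 : ℝ))) := by
    refine Integrable.mul_bdd (c := 1) hi0 ?_ (Eventually.of_forall fun u => Kc_norm _)
    have := Kc_cont
    exact Continuous.aestronglyMeasurable (by fun_prop)
  have h4 := integral_re hi1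
  simp only [RCLike.re_to_complex] at h4
  rw [← h4]
  refine setIntegral_congr_fun measurableSet_Ioi fun u _ => ?_
  have e : (hh u : ℂ) * Complex.exp (-(ε : ℂ) * u) = ((hh u * Real.exp (-ε * u) : ℝ) : ℂ) := by
    push_cast; ring
  simp only [e, Complex.re_ofReal_mul, KK]

lemma KK_int' {l : ℝ} (hl : 0 < l) (y : ℝ) : Integrable fun u => KK (l * (y - u)) :=
  (KK_int.comp_mul_left' hl.ne').comp_sub_left y

lemma limit_eq {l : ℝ} (hl : 0 < l) (y : ℝ) :
    ∫ u in Ioi (0 : ℝ), hh u * KK (l * (y - u)) =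
      (∫ t in Ioc (0 : ℝ) 1, ((1 - t : ℝ) : ℂ) * Complex.exp (Complex.I * t * (l * y : ℝ)) *
        FF (1 + Complex.I * t * l)).re := by
  have h1 : Tendsto (fun ε : ℝ => ∫ u in Ioi (0 : ℝ), hh u * Real.exp (-ε * u) * KK (l * (y - u)))
      (𝓝[>] 0) (𝓝 (∫ u in Ioi (0 : ℝ), hh u * KK (l * (y - u)))) := by
    refine tendsto_integral_filter_of_dominated_convergence (fun u => CC * KK (l * (y - u)))
      (Eventually.of_forall fun ε => ?_) ?_ ((KK_int' hl y).const_mul CC).integrableOn ?_
    · have := hh_meas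
      have := KK_cont.measurable
      exact Measurable.aestronglyMeasurable (by fun_prop)
    · filter_upwards [self_mem_nhdsWithin] with ε hε
      filter_upwards [ae_restrict_mem measurableSet_Ioi] with u hu
      have hε' : 0 < ε := hε
      have hu' : 0 < u := hu
      rw [norm_mul, norm_mul, Real.norm_of_nonneg (KK_nonneg _),
        Real.norm_of_nonneg (Real.exp_pos _).le, Real.norm_eq_abs]
      have e1 : Real.exp (-ε * u) ≤ 1 := Real.exp_le_one_iff.2 (by nlinarith)
      have := hh_abs u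
      have := KK_nonneg (l * (y - u))
      have := CC_pos
      calc _ ≤ CC * 1 * KK (l * (y - u)) := by gcongr
        _ = _ := by ring
    · filter_upwards with u
      have : Continuous fun ε : ℝ => hh u * Real.exp (-ε * u) * KK (l * (y - u)) := by fun_prop
      simpa using (this.tendsto 0).mono_left nhdsWithin_le_nhds
  have hc : ContinuousOn (fun p : ℝ × ℝ => FF (1 + (p.1 + Complex.I * p.2 * l)))
      (Icc 0 1 ×ˢ Icc 0 1) := by
    refine FF_cont.comp (Continuous.continuousOn (by fun_prop)) fun p hp => ?_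
    simpa using hp.1.1
  obtain ⟨M, hM⟩ := (isCompact_Icc.prod isCompact_Icc).exists_bound_of_continuousOn hc
  have h2 : Tendsto (fun ε : ℝ => ∫ t in Ioc (0 : ℝ) 1, ((1 - t : ℝ) : ℂ) *
      Complex.exp (Complex.I * t * (l * y : ℝ)) * FF (1 + (ε + Complex.I * t * l))) (𝓝[>] 0)
      (𝓝 (∫ t in Ioc (0 : ℝ) 1, ((1 - t : ℝ) : ℂ) * Complex.exp (Complex.I * t * (l * y : ℝ)) *
        FF (1 + Complex.I * t * l))) := by
    refine tendsto_integral_filter_of_dominated_convergence (fun _ => M) ?_ ?_
      (integrable_const _) ?_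
    · filter_upwards [self_mem_nhdsWithin] with ε hε
      have hε' : 0 < ε := hε
      have : Continuous fun t : ℝ => FF (1 + (ε + Complex.I * t * l)) :=
        FF_cont.comp_continuous (by fun_prop) fun t => by simpa using hε'.le
      exact Continuous.aestronglyMeasurable (by fun_prop)
    · filter_upwards [Ioo_mem_nhdsGT zero_lt_one] with ε hε
      filter_upwards [ae_restrict_mem measurableSet_Ioc] with t ht
      have := hM (ε, t) ⟨⟨hε.1.le, hε.2.le⟩, ⟨ht.1.le, ht.2⟩⟩
      rw [norm_mul, norm_mul, exp_norm, mul_one, Complex.norm_real]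
      have e : ‖1 - t‖ ≤ 1 := by
        rw [Real.norm_eq_abs, abs_le]
        constructor <;> linarith [ht.1, ht.2]
      calc _ ≤ 1 * M := by gcongr
        _ = M := one_mul _
    · filter_upwards with t
      refine Tendsto.const_mul _ ?_
      have hw : ContinuousWithinAt FF {s | 1 ≤ s.re} (1 + Complex.I * t * l) :=
        FF_cont _ (by simp)
      refine hw.tendsto.comp (tendsto_nhdsWithin_iff.2 ⟨?_, ?_⟩)
      · have : Continuous fun ε : ℝ => (1 + (ε + Complex.I * t * l) : ℂ) := by fun_prop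
        simpa using (this.tendsto 0).mono_left nhdsWithin_le_nhds
      · filter_upwards [self_mem_nhdsWithin] with ε hε
        have hε' : 0 < ε := hε
        simpa using hε'.le
  refine tendsto_nhds_unique h1 (((Complex.continuous_re.tendsto _).comp h2).congr' ?_)
  filter_upwards [self_mem_nhdsWithin] with ε hε
  exact (fubini hε l y).symm

lemma conv_tendsto {l : ℝ} (hl : 0 < l) :
    Tendsto (fun y => ∫ u in Ioi (0 : ℝ), hh u * KK (l * (y - u))) atTop (𝓝 0) := by
  simp_rw [limit_eq hl]
  have h1 := Real.tendsto_integral_exp_smul_cocompact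
    ((Ioc (0 : ℝ) 1).indicator fun t : ℝ => ((1 - t : ℝ) : ℂ) * FF (1 + Complex.I * t * l))
  have h2 : Tendsto (fun y : ℝ => -(l / (2 * π) * y)) atTop (cocompact ℝ) :=
    (tendsto_neg_atTop_atBot.comp (Tendsto.const_mul_atTop (by positivity) tendsto_id)).mono_right
      atBot_le_cocompact
  have h3 := (Complex.continuous_re.tendsto _).comp (h1.comp h2)
  simp only [Complex.zero_re] at h3
  refine h3.congr fun y => ?_
  simp only [Function.comp]
  congr 1
  rw [← integral_indicator measurableSet_Ioc]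
  refine integral_congr_ae (Eventually.of_forall fun t => ?_)
  by_cases ht : t ∈ Ioc (0 : ℝ) 1
  · simp only [indicator_of_mem ht, Circle.smul_def, Real.fourierChar_apply, smul_eq_mul]
    have e : ((2 * π * -(t * -(l / (2 * π) * y)) : ℝ) : ℂ) * Complex.I =
        Complex.I * t * (l * y : ℝ) := by
      have : (π : ℂ) ≠ 0 := by exact_mod_cast Real.pi_ne_zero
      push_cast
      field_simp
    rw [e]; ring
  · simp [indicator_of_notMem ht]

/-- error term cut to the positive half line -/
noncomputable def h0 (u : ℝ) : ℝ := (Ioi (0 : ℝ)).indicator hh u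

lemma h0_abs (u : ℝ) : |h0 u| ≤ CC := by
  unfold h0
  by_cases hu : u ∈ Ioi (0 : ℝ)
  · rw [indicator_of_mem hu]; exact hh_abs u
  · rw [indicator_of_notMem hu, abs_zero]; exact CC_pos.le

lemma conv_tendsto' {l : ℝ} (hl : 0 < l) :
    Tendsto (fun y => ∫ w, h0 (y - w / l) * KK w) atTop (𝓝 0) := by
  have h := (conv_tendsto hl).const_mul l
  rw [mul_zero] at h
  refine h.congr fun y => ?_
  have e1 : ∫ u in Ioi (0 : ℝ), hh u * KK (l * (y - u)) = ∫ u, h0 u * KK (l * (y - u)) := by
    rw [← integral_indicator measurableSet_Ioi]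
    refine integral_congr_ae (Eventually.of_forall fun u => ?_)
    by_cases hu : u ∈ Ioi (0 : ℝ) <;> simp [h0, hu]
  have e2 := integral_sub_left_eq_self (fun u => h0 u * KK (l * (y - u))) volume y
  have e3 := Measure.integral_comp_div (fun v => h0 (y - v) * KK (l * (y - (y - v)))) l
  rw [abs_of_pos hl, smul_eq_mul] at e3
  rw [e1, ← e2, ← e3]
  refine integral_congr_ae (Eventually.of_forall fun w => ?_)
  simp only [sub_sub_cancel]
  rw [mul_div_cancel₀ _ hl.ne']

lemma tail_small {η : ℝ} (hη : 0 < η) : ∃ R : ℝ, 0 < R ∧ ∫ w in (Icc (-R) R)ᶜ, KK w < η := by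
  have h := tendsto_setIntegral_of_antitone (μ := volume) (f := KK)
    (s := fun n : ℕ => (Icc (-((n : ℝ) + 1)) ((n : ℝ) + 1))ᶜ)
    (fun n => measurableSet_Icc.compl)
    (fun m n hmn => compl_subset_compl.2 (Icc_subset_Icc
      (by have : (m : ℝ) ≤ n := Nat.cast_le.2 hmn
          linarith) (by simpa using hmn)))
    ⟨0, KK_int.integrableOn⟩
  have e : (⋂ n : ℕ, (Icc (-((n : ℝ) + 1)) ((n : ℝ) + 1))ᶜ) = ∅ := by
    rw [eq_empty_iff_forall_notMem]
    intro x hx
    obtain ⟨n, hn⟩ := exists_nat_ge |x|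
    have := abs_le.1 hn
    exact mem_iInter.1 hx n ⟨by linarith [this.1], by linarith [this.2]⟩
  rw [e, Measure.restrict_empty, integral_zero_measure] at h
  obtain ⟨n, hn⟩ := (h.eventually (gt_mem_nhds hη)).exists
  exact ⟨n + 1, by positivity, hn⟩

lemma compare {l R y a σ : ℝ} (hσ : |σ| ≤ 1) (ha : |a| ≤ 3 * CC)
    (h : ∀ w ∈ Icc (-R) R, a ≤ σ * h0 (y - w / l)) :
    a * ∫ w, KK w ≤ σ * (∫ w, h0 (y - w / l) * KK w) + 4 * CC * ∫ w in (Icc (-R) R)ᶜ, KK w := by
  have hm : Measurable h0 := hh_meas.indicator measurableSet_Ioi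
  have i1 : Integrable fun w => h0 (y - w / l) * KK w :=
    Integrable.bdd_mul (c := CC) KK_int (Measurable.aestronglyMeasurable (by fun_prop))
      (Eventually.of_forall fun w => h0_abs _)
  have i2 : Integrable ((Icc (-R) R)ᶜ.indicator KK) := KK_int.indicator measurableSet_Icc.compl
  rw [← integral_indicator measurableSet_Icc.compl, ← integral_const_mul, ← integral_const_mul,
    ← integral_const_mul, ← integral_add (i1.const_mul _) (i2.const_mul _)]
  refine integral_mono (KK_int.const_mul _) ((i1.const_mul _).add (i2.const_mul _)) fun w => ?_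
  have hK := KK_nonneg w
  by_cases hw : w ∈ Icc (-R) R
  · have := h w hw
    simp only [indicator_of_notMem (notMem_compl_iff.2 hw)]
    nlinarith
  · simp only [indicator_of_mem (mem_compl hw)]
    have h1 : |σ * h0 (y - w / l)| ≤ CC := by
      rw [abs_mul]
      calc _ ≤ 1 * CC := mul_le_mul hσ (h0_abs _) (abs_nonneg _) zero_le_one
        _ = CC := one_mul _
    have h2 := (abs_le.1 h1).1
    have h3 := (abs_le.1 ha).2
    nlinarith

lemma H_mono {x u : ℝ} (h : x ≤ u) :
    Chebyshev.psi (Real.exp x) * Real.exp (-x) * Real.exp (x - u) ≤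
      Chebyshev.psi (Real.exp u) * Real.exp (-u) := by
  rw [mul_assoc, ← Real.exp_add, show -x + (x - u) = -u by ring]
  exact mul_le_mul_of_nonneg_right (Chebyshev.psi_mono (Real.exp_le_exp.2 h)) (Real.exp_pos _).le

lemma hh_tendsto : Tendsto hh atTop (𝓝 0) := by
  rw [Metric.tendsto_nhds]
  intro η hη
  have hC := CC_pos
  have hc := KK_pos
  have hcont : Continuous fun δ : ℝ => (Real.exp (2 * δ) - 1) * CC := by fun_prop
  have ht : Tendsto (fun δ : ℝ => (Real.exp (2 * δ) - 1) * CC) (𝓝[>] 0) (𝓝 0) := by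
    simpa using (hcont.tendsto 0).mono_left nhdsWithin_le_nhds
  obtain ⟨δ, hδ1, hδ⟩ := ((ht.eventually (gt_mem_nhds (lt_min (half_pos hη) hC))).and
    self_mem_nhdsWithin).exists
  have hδ0 : 0 < δ := hδ
  have hE1 : (Real.exp (2 * δ) - 1) * CC < η / 2 := hδ1.trans_le (min_le_left _ _)
  have hE2 : Real.exp (2 * δ) ≤ 2 := by
    have := hδ1.trans_le (min_le_right _ _)
    nlinarith
  have hE0 : 1 ≤ Real.exp (2 * δ) := Real.one_le_exp (by linarith)
  have hEE : Real.exp (2 * δ) * Real.exp (-(2 * δ)) = 1 := by rw [← Real.exp_add]; simp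
  have hEn : 0 < Real.exp (-(2 * δ)) := Real.exp_pos _
  set c := ∫ v, KK v with hcdef
  obtain ⟨R, hR, hT⟩ := tail_small (η := η * c / (16 * CC)) (by positivity)
  have hT' : 4 * CC * ∫ w in (Icc (-R) R)ᶜ, KK w ≤ η * c / 4 := by
    calc _ ≤ 4 * CC * (η * c / (16 * CC)) := by gcongr
      _ = _ := by field_simp; ring
  have hl : 0 < R / δ := by positivity
  have hJ := Metric.tendsto_nhds.1 (conv_tendsto' hl) (η * c / 4) (by positivity)
  have hw : ∀ w ∈ Icc (-R) R, -δ ≤ w / (R / δ) ∧ w / (R / δ) ≤ δ := fun w hw => by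
    rw [le_div_iff₀ hl, div_le_iff₀ hl]
    have : δ * (R / δ) = R := by field_simp
    constructor <;> linarith [hw.1, hw.2]
  filter_upwards [(tendsto_atTop_add_const_right _ δ tendsto_id).eventually hJ,
    (tendsto_atTop_add_const_right _ (-δ) tendsto_id).eventually hJ,
    eventually_gt_atTop (2 * δ)] with x hx1 hx2 hx
  simp only [id, Real.dist_eq, sub_zero] at hx1 hx2 ⊢
  have hH1 := H_le x
  have hH0 := H_nonneg x
  set H := Chebyshev.psi (Real.exp x) * Real.exp (-x) with hH
  have hhx : hh x = H - 1 := rfl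
  have hC1 : 1 ≤ CC := by linarith
  have hEn1 : Real.exp (-(2 * δ)) ≤ 1 := Real.exp_le_one_iff.2 (by linarith)
  have c1 := compare (l := R / δ) (R := R) (y := x + δ) (a := H * Real.exp (-(2 * δ)) - 1) (σ := 1)
    (by simp) (by rw [abs_le]; constructor <;> nlinarith) (fun w hw' => by
      obtain ⟨h1, h2⟩ := hw w hw'
      have hu : x + δ - w / (R / δ) ∈ Ioi (0 : ℝ) := by simp only [mem_Ioi]; linarith
      rw [one_mul, h0, indicator_of_mem hu, hh]
      have h3 := H_mono (x := x) (u := x + δ - w / (R / δ)) (by linarith)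
      have h4 : Real.exp (-(2 * δ)) ≤ Real.exp (x - (x + δ - w / (R / δ))) :=
        Real.exp_le_exp.2 (by linarith)
      nlinarith)
  have c2 := compare (l := R / δ) (R := R) (y := x + -δ) (a := 1 - H * Real.exp (2 * δ)) (σ := -1)
    (by simp) (by rw [abs_le]; constructor <;> nlinarith) (fun w hw' => by
      obtain ⟨h1, h2⟩ := hw w hw'
      have hu : x + -δ - w / (R / δ) ∈ Ioi (0 : ℝ) := by simp only [mem_Ioi]; linarith
      rw [h0, indicator_of_mem hu, hh]
      have h3 := H_mono (x := x + -δ - w / (R / δ)) (u := x) (by linarith)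
      have h4 : Real.exp (-(2 * δ)) ≤ Real.exp (x + -δ - w / (R / δ) - x) :=
        Real.exp_le_exp.2 (by linarith)
      have h5 := H_nonneg (x + -δ - w / (R / δ))
      set G := Chebyshev.psi (Real.exp (x + -δ - w / (R / δ))) * Real.exp (-(x + -δ - w / (R / δ)))
      have h6 : G * Real.exp (-(2 * δ)) ≤ H := (mul_le_mul_of_nonneg_left h4 h5).trans h3
      have h7 : G * Real.exp (-(2 * δ)) * Real.exp (2 * δ) ≤ H * Real.exp (2 * δ) := by gcongr
      have h8 : G * Real.exp (-(2 * δ)) * Real.exp (2 * δ) = G := by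
        rw [mul_assoc, mul_comm (Real.exp _), hEE, mul_one]
      linarith)
  have d1 : H * Real.exp (-(2 * δ)) - 1 < η / 2 := by
    have : (H * Real.exp (-(2 * δ)) - 1) * c < η / 2 * c := by linarith [(abs_lt.1 hx1).2]
    exact lt_of_mul_lt_mul_right this hc.le
  have d2 : 1 - H * Real.exp (2 * δ) < η / 2 := by
    have : (1 - H * Real.exp (2 * δ)) * c < η / 2 * c := by linarith [(abs_lt.1 hx2).1]
    exact lt_of_mul_lt_mul_right this hc.le
  have d3 : 1 - Real.exp (-(2 * δ)) ≤ Real.exp (2 * δ) - 1 := by nlinarith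
  have d4 : H * (1 - Real.exp (-(2 * δ))) ≤ CC * (Real.exp (2 * δ) - 1) :=
    mul_le_mul (by linarith) d3 (by linarith) hC.le
  have d5 : H * (Real.exp (2 * δ) - 1) ≤ CC * (Real.exp (2 * δ) - 1) :=
    mul_le_mul_of_nonneg_right (by linarith) (by linarith)
  rw [hhx, abs_lt]
  constructor <;> nlinarith

end PNT

/-- prime number theorem for `psi` -/
theorem psi_pnt : Tendsto (fun x : ℝ => Chebyshev.psi x / x) atTop (𝓝 1) := by
  have h := (PNT.hh_tendsto.comp Real.tendsto_log_atTop).add_const 1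
  rw [zero_add] at h
  refine h.congr' ?_
  filter_upwards [eventually_gt_atTop 0] with x hx
  simp only [Function.comp, PNT.hh, Real.exp_neg, Real.exp_log hx]
  ring

/-- prime number theorem for `theta` -/
theorem theta_pnt : Tendsto (fun x : ℝ => Chebyshev.theta x / x) atTop (𝓝 1) := by
  have h1 : (Chebyshev.psi - Chebyshev.theta) =o[atTop] fun x : ℝ => x := by
    refine Chebyshev.isBigO_psi_sub_theta_sqrt.trans_isLittleO ?_
    refine (isLittleO_iff_tendsto' (by simp +contextual)).2 ?_
    refine Tendsto.congr' (f₁ := fun x => (Real.sqrt x)⁻¹) ?_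
      Real.tendsto_sqrt_atTop.inv_tendsto_atTop
    filter_upwards with x
    rw [Real.sqrt_div_self]
  have h2 := psi_pnt.sub h1.tendsto_div_nhds_zero
  rw [sub_zero] at h2
  refine h2.congr fun x => ?_
  simp only [Pi.sub_apply]
  ring

/-- the prime number theorem -/
theorem pnt : Filter.Tendsto (fun x : ℝ => (Nat.primeCounting ⌊x⌋₊ : ℝ) * Real.log x / x)
    Filter.atTop (nhds 1) := by
  have h1 : (fun x : ℝ => (Nat.primeCounting ⌊x⌋₊ : ℝ) - Chebyshev.theta x / Real.log x) =o[atTop]
      fun x : ℝ => x / Real.log x := by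
    refine Chebyshev.primeCounting_sub_theta_div_log_isBigO.trans_isLittleO ?_
    refine (isLittleO_iff_tendsto' (by simp)).2 ?_
    refine Tendsto.congr' (f₁ := fun x => (Real.log x)⁻¹) ?_
      Real.tendsto_log_atTop.inv_tendsto_atTop
    filter_upwards [eventually_gt_atTop 0] with x _
    field
  have h2 := theta_pnt.add h1.tendsto_div_nhds_zero
  rw [add_zero] at h2
  refine h2.congr' ?_
  filter_upwards [eventually_gt_atTop 1] with x hx
  have := (Real.log_pos hx).ne'
  have : x ≠ 0 := by linarith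
  field

end Vale.Agent.P031
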