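import Vale.Agent.P031.Low
import Vale.Agent.P031.PNT

/-! Choice of parameters and the limit. -/

namespace Vale.Agent.P031

open Finset Real Filter Topology

lemma exists_ok (K u : ℕ) (hK : 1000000 ≤ K) (hu : K ^ 100 < u) : ∃ N, K ≤ N ∧ Ok N u := by
  have hex : ∃ N, u ≤ N ^ 100 := ⟨u, Nat.le_self_pow (by norm_num) u⟩
  have h1 := Nat.find_spec hex
  have h2 : K < Nat.find hex := by
    by_contra hc
    have := Nat.pow_le_pow_left (not_lt.mp hc) 100
    omega
  refine ⟨Nat.find hex, h2.le, by omega, h1, ?_⟩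
  obtain ⟨m, hm⟩ : ∃ m, Nat.find hex = m + 1 := ⟨Nat.find hex - 1, by omega⟩
  have h3 : ¬ u ≤ m ^ 100 := Nat.find_min hex (by omega)
  rw [hm]
  have hm1 : (1000000 : ℝ) ≤ m := by exact_mod_cast (by omega : 1000000 ≤ m)
  have h4 : ((m : ℝ) + 1) ^ 100 ≤ 2 * (m : ℝ) ^ 100 := by
    have e1 : (m : ℝ) + 1 ≤ exp (1 / m) * m := by
      have := add_one_le_exp (1 / (m : ℝ))
      calc (m : ℝ) + 1 = (1 / m + 1) * m := by field_simp; ring
        _ ≤ _ := by gcongr
    have e2 : exp (1 / (m : ℝ)) ^ 100 ≤ 2 := by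
      rw [← exp_nat_mul]
      refine le_trans (exp_le_exp.mpr ?_) (exp_two_fifth.trans (by norm_num))
      rw [mul_one_div, div_le_iff₀ (by linarith)]; push_cast; linarith
    calc _ ≤ (exp (1 / m) * m) ^ 100 := by gcongr
      _ ≤ _ := by rw [mul_pow]; gcongr
  have h5 : (m + 1) ^ 100 ≤ 2 * m ^ 100 := by exact_mod_cast h4
  omega

open Classical in
/-- totient values up to `x` -/
noncomputable def VS (x : ℝ) : Finset ℕ := (range (⌊x⌋₊ + 1)).filter IsTot

lemma mem_VS {x : ℝ} (hx : 0 ≤ x) (v : ℕ) : v ∈ VS x ↔ IsTot v ∧ (v : ℝ) ≤ x := by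
  simp only [VS, mem_filter, mem_range, Nat.lt_succ_iff, Nat.le_floor_iff hx]
  exact and_comm

set_option maxHeartbeats 1000000 in
lemma ratio_near (c : ℝ) (hc : 1 < c) {δ : ℝ} (hδ : 0 < δ) (hδ1 : δ ≤ 1 / 100) :
    ∀ᶠ x in atTop, |((VS (c * x)).card : ℝ) / (VS x).card - c| ≤ 60 * δ * c := by
  obtain ⟨T0, hT⟩ := eventually_atTop.mp
    ((Metric.tendsto_nhds.mp pnt) δ hδ)
  have hT' : ∀ T, T0 ≤ T → |(Nat.primeCounting ⌊T⌋₊ : ℝ) * log T / T - 1| ≤ δ := fun T h => by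
    have := hT T h
    rw [Real.dist_eq] at this
    exact this.le
  obtain ⟨K, hK⟩ : ∃ K : ℕ, K = 1000000 + ⌈1 / δ⌉₊ := ⟨_, rfl⟩
  have hK1 : 1 / δ ≤ K := by
    rw [hK]; push_cast; linarith [Nat.le_ceil (1 / δ)]
  have t1 : Tendsto (fun x : ℝ => log (log x)) atTop atTop := tendsto_log_atTop.comp tendsto_log_atTop
  have t2 : Tendsto (fun x : ℝ => exp (log x / 2)) atTop atTop :=
    tendsto_exp_atTop.comp (tendsto_log_atTop.atTop_div_const (by norm_num))
  filter_upwards [eventually_ge_atTop (c + 3), t1.eventually_gt_atTop ((K ^ 100 : ℕ) : ℝ),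
    t2.eventually_ge_atTop T0, tendsto_log_atTop.eventually_ge_atTop (log c / δ)] with x x1 x2 x3 x4
  have x0 : 0 < x := by linarith
  have xc : x ≤ c * x := by nlinarith
  have lx : 0 < log x := log_pos (by linarith)
  have lc : 0 ≤ log c := log_nonneg hc.le
  obtain ⟨n, hn⟩ : ∃ n : ℕ, n = ⌈c * x⌉₊ + 1 := ⟨_, rfl⟩
  have n1 : c * x + 1 ≤ n := by rw [hn]; push_cast; linarith [Nat.le_ceil (c * x)]
  have n2 : (n : ℝ) ≤ x * x := by
    rw [hn]; push_cast
    nlinarith [Nat.ceil_lt_add_one (by linarith : 0 ≤ c * x)]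
  have n3 : log x ≤ log n := log_le_log x0 (by linarith)
  have u1 : K ^ 100 < lev n := by
    have e1 : log (log x) ≤ lev n := (log_le_log lx n3).trans (Nat.le_ceil _)
    exact_mod_cast x2.trans_le e1
  obtain ⟨N, N1, N2⟩ := exists_ok K (lev n) (by omega) u1
  have N3 : 1 / δ ≤ N := hK1.trans (by exact_mod_cast N1)
  have y1 : (n : ℝ) ≤ Y (lev n) := by exact_mod_cast lev_le_iff_Y.mp le_rfl
  have l1 : exp ((lev n : ℝ) - 3) ≤ log x := by
    have e1 := lt_log_of_lev (q := n) (by omega)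
    have e2 := log_le_log (by linarith) n2
    rw [log_mul x0.ne' x0.ne'] at e2
    have e3 : exp ((lev n : ℝ) - 1) = exp ((lev n : ℝ) - 3) * exp 2 := by rw [← exp_add]; ring_nf
    nlinarith [seven_le_exp_two, exp_pos ((lev n : ℝ) - 3)]
  have l2 : log (c * x) = log c + log x := log_mul (by linarith) x0.ne'
  have r1 : Rg N (lev n) x := ⟨N2, by linarith, by linarith, l1⟩
  have r2 : Rg N (lev n) (c * x) := ⟨N2, by linarith, by linarith, by linarith⟩
  obtain ⟨a1, a2⟩ := count_eval r1 hδ (by linarith) N3 hT' x3 (VS x) (mem_VS x0.le)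
  obtain ⟨b1, b2⟩ := count_eval r2 hδ (by linarith) N3 hT'
    (x3.trans (exp_le_exp.mpr (by linarith))) (VS (c * x)) (mem_VS (by linarith))
  have z0 := one_le_FF N (lev n) 0 (x := lev n - (N : ℝ) ^ 5 - (N : ℝ) ^ 58) (by
    have := N2.u'
    have := N2.pw 5 58 (by norm_num)
    have := N2.pw 58 100 (by norm_num)
    have : (0 : ℝ) ≤ (N : ℝ) ^ 5 := by positivity
    linarith)
  generalize FF N (lev n) 0 (lev n - (N : ℝ) ^ 5 - (N : ℝ) ^ 58) = Z at *
  generalize ((VS x).card : ℝ) = A at *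
  generalize ((VS (c * x)).card : ℝ) = B at *
  obtain ⟨W, hW⟩ : ∃ W, W = x / log x * Z := ⟨_, rfl⟩
  have W0 : 0 < W := by rw [hW]; positivity
  have c1 : c * x / log (c * x) * Z ≤ c * W := by
    rw [hW, ← mul_assoc, mul_div_assoc c]
    gcongr
  have c2 : (1 - δ) * (c * W) ≤ c * x / log (c * x) * Z := by
    rw [hW, ← mul_assoc, ← mul_assoc]
    refine mul_le_mul_of_nonneg_right ?_ (by linarith)
    rw [div_le_iff₀ hδ] at x4
    rw [← mul_div_assoc, div_le_div_iff₀ lx (by linarith), l2]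
    have : (1 - δ) * (log c + log x) ≤ log x := by nlinarith
    nlinarith [mul_pos (by linarith : 0 < c) x0]
  rw [← hW] at a1 a2
  have A0 : 0 < A := lt_of_lt_of_le (mul_pos (by linarith) W0) a1
  have cW : 0 < c * W := by positivity
  have d1 : B ≤ (1 + 42 * δ) * (c * W) := b2.trans (by gcongr)
  have d2 : (1 - 5 * δ) * ((1 - δ) * (c * W)) ≤ B := le_trans (by gcongr; linarith) b1
  rw [abs_le]
  constructor
  · rw [le_sub_iff_add_le, le_div_iff₀ A0]
    have e1 : (-(60 * δ * c) + c) * A ≤ (-(60 * δ * c) + c) * ((1 + 42 * δ) * W) := by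
      gcongr; nlinarith only [hδ1, hc]
    have e2 : (1 - 60 * δ) * (1 + 42 * δ) ≤ (1 - 5 * δ) * (1 - δ) := by
      nlinarith only [hδ, hδ1]
    have e3 := mul_le_mul_of_nonneg_right e2 cW.le
    linarith only [e1, e3, d2]
  · rw [sub_le_iff_le_add, div_le_iff₀ A0]
    have e1 : (60 * δ * c + c) * ((1 - 5 * δ) * W) ≤ (60 * δ * c + c) * A := by gcongr
    have e2 : 1 + 42 * δ ≤ (1 + 60 * δ) * (1 - 5 * δ) := by nlinarith only [hδ, hδ1]
    have e3 := mul_le_mul_of_nonneg_right e2 cW.le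
    linarith only [e1, e3, d1]

theorem ratio_tendsto (c : ℝ) (hc : 1 < c) :
    Tendsto (fun x : ℝ => ((VS (c * x)).card : ℝ) / (VS x).card) atTop (𝓝 c) := by
  rw [Metric.tendsto_nhds]
  intro ε hε
  have h0 : 0 < min (1 / 100) (ε / (120 * c)) := lt_min (by norm_num) (by positivity)
  filter_upwards [ratio_near c hc h0 (min_le_left _ _)] with x hx
  rw [Real.dist_eq]
  refine hx.trans_lt ?_
  have h1 := min_le_right (1 / 100) (ε / (120 * c))
  rw [le_div_iff₀ (by positivity)] at h1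
  linarith

end Vale.Agent.P031
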