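import Vale.Agent.P031.Top

/-! Lower bound at the top scale, and evaluation of the main term. -/

namespace Vale.Agent.P031

open Finset Real

variable {N u : ℕ} {y : ℝ}

lemma Rg.val_small (h : Rg N u y) {t : Finset ℕ × ℕ} (ht : t ∈ Can N u)
    (hc : ck N u 0 t ≤ u - (N : ℝ) ^ 5 - (N : ℝ) ^ 58) : log (val t) ≤ log y / N := by
  have hn := h.ok.n
  have hl := h.lpos
  have e1 := log_val_le' (Can.adm ht) (Λ := exp (u - (N : ℝ) ^ 58)) (exp_pos _).le fun q hq => by
    refine (log_le_lev q).trans (exp_le_exp.mpr ?_)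
    have a1 := lv_le_ck N u hq
    have a2 := (mem_GP.mp ((mem_Adm.mp (Can.adm ht)).1 hq)).2.2.1
    rw [lv, Nat.cast_sub a2.le] at a1
    push_cast at a1
    linarith
  have e2 := h.blob
  have e3 : ((N ^ 2 : ℕ) : ℝ) * exp (u - (N : ℝ) ^ 58) ≤ log y / (4 * N) := by
    rw [le_div_iff₀ (by positivity)]
    have e4 := pow_le_exp N (by linarith) 4
    have := h.ok.pw 3 4 (by norm_num)
    calc _ = 4 * (N : ℝ) ^ 3 * exp (u - (N : ℝ) ^ 58) := by push_cast; ring
      _ ≤ exp ((4 : ℕ) * N) * exp (u - (N : ℝ) ^ 58) := by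
          gcongr; nlinarith [pow_pos (show (0 : ℝ) < N by linarith) 3]
      _ ≤ exp (u - 3) := by
          rw [← exp_add]; apply exp_le_exp.mpr
          have := h.ok.pw 1 58 (by norm_num)
          push_cast; linarith
      _ ≤ _ := h.hl
  have e4 : log y / (4 * N) = log y / N / 4 := by field_simp
  have e5 : 0 ≤ log y / N := by positivity
  linarith

lemma Rg.lev_top (h : Rg N u y) {p : ℕ} (hp : log y / 2 ≤ log p) : (u : ℝ) - 4 ≤ lev p := by
  have e1 := h.hl
  have e2 := log_le_lev p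
  have e3 : exp ((u : ℝ) - 4) ≤ exp (u - 3) / 2 := by
    rw [show (u : ℝ) - 3 = u - 4 + 1 by ring, exp_add]
    nlinarith [exp_one_gt_d9, exp_pos ((u : ℝ) - 4)]
  exact exp_le_exp.mp (by linarith)

lemma lower (h : Rg N u y) (V : Finset ℕ) (hV : ∀ v, IsTot v → (v : ℝ) ≤ y → v ∈ V) :
    MT N u y ≤ V.card + 3 * (y / log y / N) * FF N u 0 (u - (N : ℝ) ^ 5 - (N : ℝ) ^ 58) := by
  classical
  have hn := h.ok.n
  have hy := h.ypos
  have hl := h.lpos
  have p58 := h.ok.pw 0 58 (by norm_num)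
  obtain ⟨C, hC⟩ : ∃ C, C = (Can N u).filter fun t =>
    ck N u 0 t ≤ u - (N : ℝ) ^ 5 - (N : ℝ) ^ 58 := ⟨_, rfl⟩
  have hCm : ∀ t, t ∈ C ↔ t ∈ Can N u ∧ ck N u 0 t ≤ u - (N : ℝ) ^ 5 - (N : ℝ) ^ 58 := fun t => by
    rw [hC, mem_filter]
  have hZ : FF N u 0 (u - (N : ℝ) ^ 5 - (N : ℝ) ^ 58) = ∑ t ∈ C, (1 : ℝ) / val t := by rw [FF, hC]
  have hv0 : ∀ t ∈ C, (0 : ℝ) < val t := fun t ht => by
    exact_mod_cast Nat.pos_of_ne_zero (val_ne_zero (Can.adm ((hCm t).mp ht).1))
  obtain ⟨Pairs, hP⟩ : ∃ P : Finset ((Finset ℕ × ℕ) × ℕ), P = (C ×ˢ range (⌊y + 1⌋₊ + 1)).filter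
    fun z => z.2.Prime ∧ (z.2 : ℝ) - 1 ≤ y / val z.1 := ⟨_, rfl⟩
  have hPm : ∀ z ∈ Pairs, z.1 ∈ C ∧ z.2.Prime ∧ (z.2 : ℝ) - 1 ≤ y / val z.1 := fun z hz => by
    rw [hP, mem_filter, mem_product] at hz
    exact ⟨hz.1.1, hz.2⟩
  have hle : ∀ t ∈ C, y / val t ≤ y := fun t ht => div_le_self hy.le (by
    exact_mod_cast Nat.pos_of_ne_zero (val_ne_zero (Can.adm ((hCm t).mp ht).1)))
  have h1 : MT N u y ≤ Pairs.card := by
    rw [hP, card_filter, sum_product, MT, ← hC]
    push_cast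
    apply sum_le_sum
    intro t ht
    rw [primeCounting_eq, ← sum_filter, sum_const, nsmul_eq_mul, mul_one, Nat.cast_le]
    apply card_le_card
    intro p hp
    rw [mem_filter, mem_range] at hp ⊢
    have e1 : (p : ℝ) ≤ y / val t + 1 :=
      (Nat.le_floor_iff (by have := hv0 t ht; positivity)).mp (Nat.le_of_lt_succ hp.1)
    exact ⟨Nat.lt_succ_of_le (Nat.le_floor (by linarith [hle t ht])), hp.2, by linarith⟩
  have hlu : ∀ z ∈ Pairs, lev z.2 ≤ u := fun z hz => by
    obtain ⟨a1, a2, a3⟩ := hPm z hz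
    have : (z.2 : ℝ) ≤ Y u := by linarith [hle _ a1, h.hy]
    exact lev_le_iff_Y.mpr (by exact_mod_cast this)
  have hA : log y / (N : ℝ) ^ 102 ≤ log y / 2 := by
    have := h.ok.pw 0 102 (by norm_num)
    gcongr; linarith
  have htop : ∀ z ∈ Pairs, log y / 2 ≤ log z.2 → (u : ℝ) - (N : ℝ) ^ 5 - 4 ≤ lv (N ^ 5) z.2 ∧
      ∀ q ∈ z.1.1, q < z.2 := fun z hz hp => by
    have a1 := h.lev_top hp
    have a2 := h.lev_ge (hA.trans hp)
    have a3 : (u : ℝ) - (N : ℝ) ^ 5 - 4 ≤ lv (N ^ 5) z.2 := by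
      rw [lv, Nat.cast_sub a2.le]; push_cast; linarith
    refine ⟨a3, fun q hq => ?_⟩
    by_contra hc
    have e1 : (lv (N ^ 5) z.2 : ℝ) ≤ lv (N ^ 5) q := by exact_mod_cast lv_mono _ (not_lt.mp hc)
    linarith [lv_le_ck N u hq, ((hCm _).mp (hPm z hz).1).2]
  have hval : ∀ z ∈ Pairs, (∀ q ∈ z.1.1, q < z.2) → (val (ins z.2 z.1) : ℝ) ≤ y := fun z hz hlt => by
    obtain ⟨a1, a2, a3⟩ := hPm z hz
    rw [val_ins (not_mem_of_lt hlt), Nat.cast_mul, cast_pred a2]
    rwa [le_div_iff₀ (hv0 _ a1)] at a3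
  have hM : N ^ 2 + 1 + 1 ≤ 2 * N ^ 2 := by have := h.ok.hN; nlinarith
  have h2 := or_card Pairs (fun z => log z.2 ≤ log y / 2) (fun z => log y / 2 ≤ log z.2)
    (fun z _ => le_total _ _) (A := y / log y / N * ∑ t ∈ C, (1 : ℝ) / val t)
    (B := y / log y / N * ∑ t ∈ C, (1 : ℝ) / val t + (y / log y / N + V.card))
    (fun W hW => by
      refine decomp_card W Prod.mk (fun t => t ∈ C) (fun _ p => p ≠ 0 ∧ (p : ℝ) ≤ exp (log y / 2))
        (fun t => y / log y / N * (1 / val t)) _ (fun z hz => ?_) (fun t ht S hS => ?_) fun S hS => ?_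
      · obtain ⟨a1, a2, -⟩ := hPm z (hW z hz).1
        exact ⟨z.1, z.2, a1, ⟨a2.ne_zero, (log_le_iff_le_exp (by exact_mod_cast a2.pos)).mp
          (hW z hz).2⟩, rfl⟩
      · refine (card_le_of_le S _ (exp_pos _).le hS).trans ?_
        rw [mul_one_div, le_div_iff₀ (hv0 t ht)]
        refine le_trans ?_ h.sqrt
        have e1 := h.val_small ((hCm t).mp ht).1 ((hCm t).mp ht).2
        have e2 : log y / N ≤ log y / 4 := by gcongr; linarith
        rw [← exp_log (hv0 t ht), ← exp_add]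
        apply exp_le_exp.mpr; linarith
      · rw [← mul_sum]
        exact mul_le_mul_of_nonneg_left (sum_le_sum_of_subset_of_nonneg hS
          fun _ _ _ => by positivity) (by positivity))
    (fun W hW => or_card W (fun z => ¬ Nrm N z.2) (fun z => Nrm N z.2) (fun _ _ => em' _)
      (fun W' hW' => by
        refine decomp_card W' Prod.mk (fun t => t ∈ C) (fun t p => p.Prime ∧ lev p ≤ u ∧
          log y / (N : ℝ) ^ 102 ≤ log p ∧ ((p : ℝ) - 1 ≤ y / val t) ∧ ¬ Nrm N p)
          (fun t => y / log y / N * (1 / val t)) _ (fun z hz => ?_) (fun t ht S hS => ?_)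
          fun S hS => ?_
        · have b1 := hW z (hW' z hz).1
          obtain ⟨a1, a2, a3⟩ := hPm z b1.1
          exact ⟨z.1, z.2, a1, ⟨a2, hlu z b1.1, hA.trans b1.2, a3, (hW' z hz).2⟩, rfl⟩
        · refine (abn_top h _ (by have := hv0 t ht; positivity) S hS).trans ?_
          have e1 := h.err2 (a := -(N : ℝ) ^ 5 / 20) (by
            have := h.ok.pw 1 5 (by norm_num)
            linarith)
          have := hv0 t ht
          calc _ = y / log y * exp (-(N : ℝ) ^ 5 / 20) * (1 / val t) := by ring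
            _ ≤ _ := by gcongr
        · rw [← mul_sum]
          exact mul_le_mul_of_nonneg_left (sum_le_sum_of_subset_of_nonneg hS
            fun _ _ _ => by positivity) (by positivity))
      fun W' hW' => by
        have b1 : ∀ z ∈ W', z ∈ Pairs ∧ log y / 2 ≤ log z.2 := fun z hz => hW z (hW' z hz).1
        have b2 : ∀ z ∈ W', z.2 ∈ GP N u (N ^ 5) := fun z hz => mem_GP.mpr ⟨(hPm z (b1 z hz).1).2.1,
          hlu z (b1 z hz).1, h.lev_ge (hA.trans (b1 z hz).2), (hW' z hz).2⟩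
        have b3 : ∀ z ∈ W', ∀ q ∈ z.1.1, q < z.2 := fun z hz => (htop z (b1 z hz).1 (b1 z hz).2).2
        have b4 : ∀ z ∈ W', z.1 ∈ Can N u := fun z hz => ((hCm _).mp (hPm z (b1 z hz).1).1).1
        refine or_card W' (fun z => Coll N u (N ^ 2 + 1) z.2 (ins z.2 z.1))
          (fun z => ¬ Coll N u (N ^ 2 + 1) z.2 (ins z.2 z.1)) (fun _ _ => em _)
          (fun S hS => ?_) fun S hS => ?_
        · have c1 := un_card S (range (u + 1)) (fun l z => lev z.2 = l) (fun z hz => ⟨lev z.2,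
            mem_range.mpr (Nat.lt_succ_of_le (hlu z (b1 z (hS z hz).1).1)), rfl⟩)
            (fun _ => y / log y * exp (-(N : ℝ) ^ 58 + 5 + 7 * (N : ℝ) ^ 56)) (fun l _ S' hS' => by
              rcases S'.eq_empty_or_nonempty with rfl | ⟨z0, hz0⟩
              · simp only [card_empty, Nat.cast_zero]; positivity
              have inj : Set.InjOn (fun z : (Finset ℕ × ℕ) × ℕ => ins z.2 z.1) S' :=
                fun z hz z' hz' e => by
                  obtain ⟨e1, e2⟩ := ins_inj (b3 z (hS z (hS' z hz).1).1)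
                    (b3 z' (hS z' (hS' z' hz').1).1) e
                  exact Prod.ext e2 e1
              rw [← card_image_of_injOn inj]
              refine (col_count h.ok hM l (-(N : ℝ) ^ 58 + 4) y hy.le _ fun s hs => ?_).trans ?_
              · obtain ⟨z, hz, rfl⟩ := mem_image.mp hs
                have d1 := (hS z (hS' z hz).1).1
                refine ⟨ins_adm (Can.adm (b4 z d1)) (b2 z d1), hval z (b1 z d1).1 (b3 z d1), z.2,
                  mem_insert_self _ _, (hS' z hz).2, fun q hq => ?_, ?_, (hS z (hS' z hz).1).2⟩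
                · rcases mem_insert.mp hq with rfl | hq
                  exacts [le_rfl, (b3 z d1 q hq).le]
                · simp only [ins, erase_insert (not_mem_of_lt (b3 z d1))]
                  linarith [TT_le_ck N u z.1, (htop z (b1 z d1).1 (b1 z d1).2).1,
                    ((hCm _).mp (hPm z (b1 z d1).1).1).2]
              · have d1 := (b1 z0 (hS z0 (hS' z0 hz0).1).1).2.trans (log_le_lev _)
                rw [(hS' z0 hz0).2] at d1
                rw [div_mul_eq_mul_div, mul_div_assoc]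
                refine mul_le_mul_of_nonneg_left ?_ hy.le
                rw [le_div_iff₀ hl]
                calc _ ≤ exp (-l + (-(N : ℝ) ^ 58 + 4) + 7 * (N : ℝ) ^ 56) * (exp 1 * exp l) := by
                      gcongr; nlinarith [exp_one_gt_d9, exp_pos (l : ℝ)]
                  _ = _ := by rw [← exp_add, ← exp_add]; ring_nf)
          rw [sum_const, card_range, nsmul_eq_mul] at c1
          have c2 := h.ok.u1
          calc _ ≤ exp (101 * N) * (y / log y * exp (-(N : ℝ) ^ 58 + 5 + 7 * (N : ℝ) ^ 56)) := by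
                refine c1.trans ?_
                gcongr; push_cast; linarith
            _ ≤ _ := by
                rw [mul_left_comm, ← exp_add]
                apply h.err2
                have := h.ok.pw 56 58 (by norm_num)
                have := h.ok.pw 1 56 (by norm_num)
                linarith
        · norm_cast
          apply card_le_card_of_injOn (fun z => val (ins z.2 z.1))
          · intro z hz
            have d1 := (hS z hz).1
            have d2 := mem_Adm.mp (ins_adm (Can.adm (b4 z d1)) (b2 z d1))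
            exact hV _ (isTot_val (fun p hp => ⟨(mem_GP.mp (d2.1 hp)).1, (mem_GP.mp (d2.1 hp)).2.2.1⟩)
              d2.2.2) (hval z (b1 z d1).1 (b3 z d1))
          · intro z hz z' hz' e
            have d1 := (hS z hz).1
            have d2 := (hS z' hz').1
            obtain ⟨e1, e2⟩ := pair_inj (b4 z d1) (b4 z' d2) (b2 z d1) (b2 z' d2) (b3 z d1) (b3 z' d2)
              (hS z hz).2 (hS z' hz').2 e
            exact Prod.ext e2 e1)
  have z0 := one_le_FF N u 0 (x := u - (N : ℝ) ^ 5 - (N : ℝ) ^ 58) (by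
    have := h.ok.u'
    have := h.ok.pw 5 58 (by norm_num)
    have := h.ok.pw 58 100 (by norm_num)
    have : (0 : ℝ) ≤ (N : ℝ) ^ 5 := by positivity
    linarith)
  have e0 : 0 ≤ y / log y / N := by positivity
  rw [← hZ] at h2
  nlinarith

lemma pi_eval (h : Rg N u y) {δ T0 : ℝ} (hδ : 0 < δ) (hδ1 : δ ≤ 1 / 10) (hN : 1 / δ ≤ N)
    (hT : ∀ T, T0 ≤ T → |(Nat.primeCounting ⌊T⌋₊ : ℝ) * log T / T - 1| ≤ δ)
    (hT0 : T0 ≤ exp (log y / 2)) {w : ℝ} (hw : 1 ≤ w) (hw' : log w ≤ log y / N) :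
    (1 - 2 * δ) * (y / log y * (1 / w)) ≤ Nat.primeCounting ⌊y / w + 1⌋₊ ∧
      (Nat.primeCounting ⌊y / w + 1⌋₊ : ℝ) ≤ (1 + 4 * δ) * (y / log y * (1 / w)) := by
  have hn := h.ok.n
  have hy := h.ypos
  have hl := h.lpos
  have h0 := h.nle
  have hw0 : 0 < w := by linarith
  have hδN : 1 ≤ δ * N := by rw [div_le_iff₀ hδ] at hN; linarith
  have e1 : log y / N ≤ δ * log y := by
    rw [div_le_iff₀ (by linarith)]; nlinarith
  obtain ⟨X, hX⟩ : ∃ X, X = y / w := ⟨_, rfl⟩
  have hX0 : 0 < X := by rw [hX]; positivity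
  have e2 : log X = log y - log w := by rw [hX, log_div hy.ne' hw0.ne']
  have e3 : exp (log y / 2) ≤ X := by
    rw [← le_log_iff_exp_le hX0]; nlinarith
  have e4 : (N : ℝ) ≤ X := by linarith [add_one_le_exp (log y / 2)]
  have e5 : X + 1 ≤ (1 + δ) * X := by nlinarith
  have e6 : (1 - δ) * log y ≤ log (X + 1) := by
    have := log_le_log hX0 (by linarith : X ≤ X + 1)
    linarith
  have e7 : log (X + 1) ≤ (1 + δ) * log y := by
    have a1 : X ≤ y := hX ▸ div_le_self hy.le hw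
    have a2 := log_le_log (by linarith) (by linarith [h.y1] : X + 1 ≤ 2 * y)
    rw [log_mul (by norm_num) hy.ne'] at a2
    nlinarith [log_two_lt_d9]
  have e8 := abs_le.mp (hT (X + 1) (by linarith))
  have e9 : 0 < log (X + 1) := log_pos (by linarith)
  have e10 : y / log y * (1 / w) = X / log y := by rw [hX]; ring
  rw [e10, ← hX]
  obtain ⟨P, hP⟩ : ∃ P : ℝ, P = Nat.primeCounting ⌊X + 1⌋₊ := ⟨_, rfl⟩
  rw [← hP] at e8 ⊢
  have P0 : 0 ≤ P := hP ▸ Nat.cast_nonneg _
  have f1 : (1 - δ) * (X + 1) ≤ P * log (X + 1) := by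
    rw [← le_div_iff₀ (by linarith)]; linarith
  have f2 : P * log (X + 1) ≤ (1 + δ) * (X + 1) := by
    rw [← div_le_iff₀ (by linarith)]; linarith
  constructor
  · rw [← mul_div_assoc, div_le_iff₀ hl]
    have g1 : P * log (X + 1) ≤ P * ((1 + δ) * log y) := by gcongr
    have g2 : (1 - 2 * δ) * X * (1 + δ) ≤ (1 - δ) * (X + 1) := by nlinarith [mul_pos hδ hX0]
    have g3 : (1 - 2 * δ) * X * (1 + δ) ≤ P * log y * (1 + δ) := by linarith
    exact le_of_mul_le_mul_right g3 (by linarith)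
  · rw [← mul_div_assoc, le_div_iff₀ hl]
    have g1 : P * ((1 - δ) * log y) ≤ P * log (X + 1) := by gcongr
    have g2 : (1 + δ) * (X + 1) ≤ (1 + δ) * ((1 + δ) * X) := by gcongr
    have g4 : (1 + δ) * (1 + δ) ≤ (1 + 4 * δ) * (1 - δ) := by nlinarith
    have g5 : (1 + δ) * (1 + δ) * X ≤ (1 + 4 * δ) * (1 - δ) * X := by gcongr
    have g3 : P * log y * (1 - δ) ≤ (1 + 4 * δ) * X * (1 - δ) := by linarith
    exact le_of_mul_le_mul_right g3 (by linarith)

lemma count_eval (h : Rg N u y) {δ T0 : ℝ} (hδ : 0 < δ) (hδ1 : δ ≤ 1 / 10) (hN : 1 / δ ≤ N)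
    (hT : ∀ T, T0 ≤ T → |(Nat.primeCounting ⌊T⌋₊ : ℝ) * log T / T - 1| ≤ δ)
    (hT0 : T0 ≤ exp (log y / 2)) (V : Finset ℕ) (hV : ∀ v, v ∈ V ↔ IsTot v ∧ (v : ℝ) ≤ y) :
    (1 - 5 * δ) * (y / log y * FF N u 0 (u - (N : ℝ) ^ 5 - (N : ℝ) ^ 58)) ≤ V.card ∧
      (V.card : ℝ) ≤ (1 + 42 * δ) * (y / log y * FF N u 0 (u - (N : ℝ) ^ 5 - (N : ℝ) ^ 58)) := by
  have hn := h.ok.n
  have hy := h.ypos
  have hl := h.lpos
  have h1 := upper h V fun v hv => (hV v).mp hv
  have h2 := lower h V fun v a b => (hV v).mpr ⟨a, b⟩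
  have h3 : ∀ t ∈ (Can N u).filter fun t => ck N u 0 t ≤ u - (N : ℝ) ^ 5 - (N : ℝ) ^ 58, _ :=
    fun t ht => pi_eval h hδ hδ1 hN hT hT0 (w := val t) (by
      exact_mod_cast Nat.pos_of_ne_zero (val_ne_zero (Can.adm (mem_filter.mp ht).1)))
      (h.val_small (mem_filter.mp ht).1 (mem_filter.mp ht).2)
  have h4 := sum_le_sum fun t ht => (h3 t ht).1
  have h5 := sum_le_sum fun t ht => (h3 t ht).2
  rw [← mul_sum, ← mul_sum] at h4 h5
  have hZ : 0 ≤ FF N u 0 (u - (N : ℝ) ^ 5 - (N : ℝ) ^ 58) := sum_nonneg fun _ _ => by positivity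
  have h6 : y / log y / N ≤ δ * (y / log y) := by
    rw [div_le_iff₀ hδ] at hN
    rw [div_le_iff₀ (by linarith)]
    have : 0 < y / log y := by positivity
    nlinarith
  have h7 := mul_le_mul_of_nonneg_right h6 hZ
  unfold MT at h1 h2
  unfold FF at *
  constructor <;> linarith

end Vale.Agent.P031
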