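import Vale.Agent.P031.Prof

/-! Matrices of integers whose shifted row and column products are primes. -/

namespace Vale.Agent.P031

open Finset Real

variable {ι : Type} [Fintype ι] [DecidableEq ι]

/-- row and column products -/
def line (n : ι × ι → ℕ) : ι ⊕ ι → ℕ
  | Sum.inl i => ∏ j, n (i, j)
  | Sum.inr j => ∏ i, n (i, j)

/-- product of all entries -/
def tot (n : ι × ι → ℕ) : ℕ := ∏ e, n e

/-- multiply one entry -/
def up (n : ι × ι → ℕ) (e : ι × ι) (r : ℕ) : ι × ι → ℕ := fun e' => n e' * if e' = e then r else 1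

/-- a line passes through an entry -/
def Thr (e : ι × ι) (c : ι ⊕ ι) : Prop := c = Sum.inl e.1 ∨ c = Sum.inr e.2

instance (e : ι × ι) : DecidablePred (Thr e) := fun c => by unfold Thr; infer_instance

lemma line_up (n : ι × ι → ℕ) (e : ι × ι) (r : ℕ) (c : ι ⊕ ι) :
    line (up n e r) c = (if Thr e c then r else 1) * line n c := by
  obtain ⟨a, b⟩ := e
  rcases c with i | j
  · simp only [line, up, Thr, prod_mul_distrib, Prod.mk.injEq, Sum.inl.injEq, reduceCtorEq, or_false]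
    by_cases h : i = a <;> simp [h, mul_comm]
  · simp only [line, up, Thr, prod_mul_distrib, Prod.mk.injEq, Sum.inr.injEq, reduceCtorEq, false_or]
    by_cases h : j = b <;> simp [h, mul_comm]

lemma tot_up (n : ι × ι → ℕ) (e : ι × ι) (r : ℕ) : tot (up n e r) = tot n * r := by
  simp only [tot, up, prod_mul_distrib]
  simp

lemma exists_up (n : ι × ι → ℕ) (e : ι × ι) {r : ℕ} (h : r ∣ n e) :
    ∃ n', up n' e r = n ∧ ∀ e', n' e' ∣ n e' := by
  refine ⟨Function.update n e (n e / r), funext fun e' => ?_, fun e' => ?_⟩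
  · by_cases he : e' = e
    · subst he; simp [up, Nat.div_mul_cancel h]
    · simp [up, he]
  · by_cases he : e' = e
    · subst he; simpa using Nat.div_dvd_of_dvd h
    · simp [he]

lemma dvd_line {n : ι × ι → ℕ} {c : ι ⊕ ι} {r : ℕ} (hr : r.Prime) (h : r ∣ line n c) :
    ∃ e, Thr e c ∧ r ∣ n e := by
  rcases c with i | j
  · obtain ⟨j, -, hj⟩ := (Prime.dvd_finset_prod_iff hr.prime _).mp h
    exact ⟨(i, j), Or.inl rfl, hj⟩
  · obtain ⟨i, -, hi⟩ := (Prime.dvd_finset_prod_iff hr.prime _).mp h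
    exact ⟨(i, j), Or.inr rfl, hi⟩

/-- the conditions on a matrix -/
def Good (N i0 : ℕ) (L : ι ⊕ ι → ℕ) (J : Finset (ι ⊕ ι)) (n : ι × ι → ℕ) : Prop :=
  (∀ e, Sm (i0 + min (L (Sum.inl e.1)) (L (Sum.inr e.2))) (n e)) ∧
    (∀ c ∈ J, (line n c + 1).Prime ∧ lev (line n c + 1) = i0 + L c ∧
      ∃ r : ℕ, r.Prime ∧ r ∣ line n c ∧ log ((line n c + 1 : ℕ) : ℝ) ≤ (N : ℝ) ^ 102 * log r) ∧
    ∀ i j, Sum.inl i ∈ J → Sum.inr j ∈ J → line n (Sum.inl i) ≠ line n (Sum.inr j)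

/-- lower bound for the logarithm of a marked prime -/
noncomputable def rho (N i0 l : ℕ) : ℝ := exp (i0 + l - 1) / (N : ℝ) ^ 102

/-- the conditions on a removed prime -/
def Rr (N u : ℕ) (J : Finset (ι ⊕ ι)) (e : ι × ι) (ρ : ℝ) (n : ι × ι → ℕ) (r : ℕ) : Prop :=
  r.Prime ∧ ρ ≤ log r ∧ log r ≤ 3 * (N : ℝ) ^ 102 * ρ ∧
    (∀ c ∈ J, Thr e c → (r * line n c + 1).Prime ∧ lev (line n c) ≤ u) ∧
    (Sum.inl e.1 ∈ J → Sum.inr e.2 ∈ J → line n (Sum.inl e.1) ≠ line n (Sum.inr e.2))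

lemma Good.tot_ne {N i0 : ℕ} {L : ι ⊕ ι → ℕ} {J : Finset (ι ⊕ ι)} {n : ι × ι → ℕ}
    (h : Good N i0 L J n) : tot n ≠ 0 := prod_ne_zero_iff.mpr fun e _ => (h.1 e).1

lemma Good.line_ne {N i0 : ℕ} {L : ι ⊕ ι → ℕ} {J : Finset (ι ⊕ ι)} {n : ι × ι → ℕ}
    (h : Good N i0 L J n) (c : ι ⊕ ι) : line n c ≠ 0 := by
  rcases c with i | j <;> exact prod_ne_zero_iff.mpr fun e _ => (h.1 _).1

lemma mat_step {N u i0 : ℕ} (hN : 1 ≤ N) (hi : 1 ≤ i0) {L : ι ⊕ ι → ℕ} {J : Finset (ι ⊕ ι)}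
    (hL : ∀ c ∈ J, i0 + L c ≤ u) {c1 : ι ⊕ ι} (hc1 : c1 ∈ J) (hmax : ∀ c ∈ J, L c ≤ L c1)
    {n : ι × ι → ℕ} (h : Good N i0 L J n) :
    ∃ e, (∃ c ∈ J, Thr e c) ∧ ∃ n' r, Good N i0 L (J.filter fun c => ¬ Thr e c) n' ∧
      Rr N u J e (rho N i0 (L c1)) n' r ∧ up n' e r = n := by
  have hA : (0 : ℝ) < (N : ℝ) ^ 102 := by positivity
  obtain ⟨g1, g2, g3⟩ := h
  choose! rc hrc using fun c hc => (g2 c hc).2.2
  obtain ⟨c0, hc0, hm0⟩ := J.exists_max_image rc ⟨c1, hc1⟩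
  obtain ⟨r1, r2, r3⟩ := hrc c0 hc0
  obtain ⟨e, he1, he2⟩ := dvd_line r1 r2
  obtain ⟨n', hn', hd⟩ := exists_up n e he2
  have hline : ∀ c, line n c = (if Thr e c then rc c0 else 1) * line n' c := fun c => by
    rw [← hn', line_up]
  refine ⟨e, ⟨c0, hc0, he1⟩, n', rc c0, ⟨fun e' => (g1 e').of_dvd (hd e'), fun c hc => ?_,
    fun i j hi hj => ?_⟩, ⟨r1, ?_, ?_, fun c hc ht => ?_, fun hi hj => ?_⟩, hn'⟩
  · rw [mem_filter] at hc
    have := hline c
    rw [if_neg hc.2, one_mul] at this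
    rw [← this]; exact g2 c hc.1
  · rw [mem_filter] at hi hj
    have e1 := hline (Sum.inl i)
    have e2 := hline (Sum.inr j)
    rw [if_neg hi.2, one_mul] at e1
    rw [if_neg hj.2, one_mul] at e2
    rw [← e1, ← e2]; exact g3 i j hi.1 hj.1
  · have e1 := lt_log_of_lev (q := line n c1 + 1) (by rw [(g2 c1 hc1).2.1]; omega)
    rw [(g2 c1 hc1).2.1] at e1
    have e2 := (hrc c1 hc1).2.2
    have e3 := log_nat_mono (hm0 c1 hc1)
    unfold rho
    rw [div_le_iff₀ hA]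
    push_cast at e1 e2
    nlinarith
  · have e1 := log_le_lev (line n c0 + 1)
    rw [(g2 c0 hc0).2.1] at e1
    have e0 : line n c0 ≠ 0 := by
      intro e0
      have := (g2 c0 hc0).1
      rw [e0] at this
      exact Nat.not_prime_one this
    have e2 := log_nat_mono ((Nat.le_of_dvd (Nat.pos_of_ne_zero e0) r2).trans (Nat.le_succ _))
    have e3 : exp ((i0 + L c0 : ℕ) : ℝ) ≤ exp 1 * exp (i0 + L c1 - 1) := by
      rw [← exp_add]; apply exp_le_exp.mpr
      have : (L c0 : ℝ) ≤ L c1 := by exact_mod_cast hmax c0 hc0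
      push_cast; linarith
    have e4 : exp 1 * exp ((i0 : ℝ) + L c1 - 1) ≤ 3 * exp (i0 + L c1 - 1) := by
      gcongr; linarith [exp_one_lt_d9]
    unfold rho
    rw [mul_assoc, mul_div_cancel₀ _ hA.ne']
    exact e2.trans (e1.trans (e3.trans e4))
  · have := hline c
    rw [if_pos ht] at this
    rw [← this]
    refine ⟨(g2 c hc).1, le_trans (lev_mono ?_) ((g2 c hc).2.1.le.trans (hL c hc))⟩
    rw [this]
    exact (Nat.le_mul_of_pos_left _ r1.pos).trans (Nat.le_succ _)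
  · intro e0
    apply g3 _ _ hi hj
    rw [hline, hline (Sum.inr e.2), if_pos (show Thr e (Sum.inl e.1) from Or.inl rfl),
      if_pos (show Thr e (Sum.inr e.2) from Or.inr rfl), e0]

lemma r_count {N u : ℕ} {J : Finset (ι ⊕ ι)} {e : ι × ι} (he : ∃ c ∈ J, Thr e c) {ρ : ℝ}
    (hρ : 0 < ρ) (hρu : ρ ≤ exp u) {n : ι × ι → ℕ} (hn : ∀ c, line n c ≠ 0) (T : ℝ) (hT : 0 ≤ T)
    (S : Finset ℕ) (hS : ∀ r ∈ S, Rr N u J e ρ n r ∧ (r : ℝ) ≤ T) :
    (S.card : ℝ) ≤ Ds u * T / ρ * (1 / ρ) ^ (J.filter (Thr e)).card := by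
  rcases S.eq_empty_or_nonempty with rfl | ⟨r0, hr0⟩
  · have := Ds_nonneg u
    simp only [card_empty, Nat.cast_zero]; positivity
  have h0 := (hS r0 hr0).1
  have one : ∀ c ∈ J, Thr e c → J.filter (Thr e) = {c} →
      (S.card : ℝ) ≤ Ds u * T / ρ * (1 / ρ) ^ (J.filter (Thr e)).card := by
    intro c hc ht hf
    rw [hf, card_singleton]
    refine (sieve2 u (line n c) (hn c) (h0.2.2.2.1 c hc ht).2 T ρ hT hρ hρu S fun r hr => ?_).trans
      (le_of_eq (by field_simp))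
    obtain ⟨⟨a1, a2, -, a4, -⟩, a6⟩ := hS r hr
    exact ⟨a1, a6, a2, (a4 c hc ht).1⟩
  by_cases h1 : Sum.inl e.1 ∈ J <;> by_cases h2 : Sum.inr e.2 ∈ J
  · have hf : J.filter (Thr e) = {Sum.inl e.1, Sum.inr e.2} := by
      ext c
      simp only [mem_filter, Thr, mem_insert, mem_singleton]
      constructor
      · exact fun h => h.2
      · rintro (rfl | rfl) <;> simp [h1, h2]
    rw [hf, card_pair (by simp)]
    refine (sieve3 u _ _ (hn _) (h0.2.2.2.1 _ h1 (Or.inl rfl)).2 (hn _)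
      (h0.2.2.2.1 _ h2 (Or.inr rfl)).2 (h0.2.2.2.2 h1 h2) T ρ hT hρ hρu S fun r hr => ?_).trans
      (le_of_eq (by field_simp))
    obtain ⟨⟨a1, a2, -, a4, -⟩, a6⟩ := hS r hr
    exact ⟨a1, a6, a2, (a4 _ h1 (Or.inl rfl)).1, (a4 _ h2 (Or.inr rfl)).1⟩
  · apply one _ h1 (Or.inl rfl)
    ext c
    simp only [mem_filter, Thr, mem_singleton]
    constructor
    · rintro ⟨h, rfl | rfl⟩
      exacts [rfl, absurd h h2]
    · rintro rfl; simp [h1]
  · apply one _ h2 (Or.inr rfl)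
    ext c
    simp only [mem_filter, Thr, mem_singleton]
    constructor
    · rintro ⟨h, rfl | rfl⟩
      exacts [absurd h h1, rfl]
    · rintro rfl; simp [h2]
  · obtain ⟨c, hc, rfl | rfl⟩ := he
    exacts [absurd hc h1, absurd hc h2]

lemma rho_ge {N u : ℕ} (h : Ok N u) (l : ℕ) : exp l ≤ rho N (N ^ 5) l := by
  have hn := h.n
  unfold rho
  rw [le_div_iff₀ (by positivity)]
  have h1 := pow_le_exp N (by linarith) 102
  have h2 := h.pw 1 5 (by norm_num)
  calc exp l * (N : ℝ) ^ 102 ≤ exp l * exp ((102 : ℕ) * N) := by gcongr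
    _ ≤ _ := by rw [← exp_add]; apply exp_le_exp.mpr; push_cast; linarith

lemma rho_le {N u : ℕ} (h : Ok N u) {l : ℕ} (hl : N ^ 5 + l ≤ u) : rho N (N ^ 5) l ≤ exp u := by
  have hn := h.n
  unfold rho
  refine (div_le_self (exp_pos _).le (one_le_pow₀ (by linarith))).trans (exp_le_exp.mpr ?_)
  have : ((N ^ 5 + l : ℕ) : ℝ) ≤ u := by exact_mod_cast hl
  push_cast at this ⊢
  linarith

lemma rho_mono (N i0 : ℕ) {l l' : ℕ} (h : l ≤ l') : rho N i0 l ≤ rho N i0 l' := by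
  unfold rho
  gcongr

/-- weight of a matrix -/
noncomputable def wt (f : ℕ → ℝ) (n : ι × ι → ℕ) : ℝ := exp (Ad f (tot n)) / tot n

lemma pow_le_prod_exp {N u : ℕ} (h : Ok N u) {L : ι ⊕ ι → ℕ} (K : Finset (ι ⊕ ι)) {l : ℕ}
    (hK : ∀ c ∈ K, L c ≤ l) : (1 / rho N (N ^ 5) l) ^ K.card ≤ ∏ c ∈ K, exp (-L c) := by
  have h1 := rho_ge h l
  rw [← prod_const]
  apply prod_le_prod
  · intro c _
    have := exp_pos (l : ℝ)
    apply one_div_nonneg.mpr; linarith
  · intro c hc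
    rw [exp_neg, one_div]
    apply inv_anti₀ (exp_pos _)
    exact le_trans (by gcongr; exact hK c hc) h1

lemma mat_weight {N u : ℕ} (h : Ok N u) (hι : Fintype.card ι ≤ 2 * N ^ 2) (L : ι ⊕ ι → ℕ)
    (f : ℕ → ℝ) (hf : ∀ q, f q ≤ 0) (B : ℝ) (hB0 : 0 ≤ B)
    (hB : ∀ W : Finset (ι × ι → ℕ), (∀ n ∈ W, Good N (N ^ 5) L ∅ n) → ∑ n ∈ W, wt f n ≤ B)
    (k : ℕ) : ∀ J : Finset (ι ⊕ ι), J.card ≤ k → (∀ c ∈ J, N ^ 5 + L c ≤ u) →
      ∀ W : Finset (ι × ι → ℕ), (∀ n ∈ W, Good N (N ^ 5) L J n) →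
      ∑ n ∈ W, wt f n ≤ exp (900 * N * k) * (∏ c ∈ J, exp (-L c)) * B := by
  have hn := h.n
  induction k with
  | zero =>
    intro J hJ _ W hW
    obtain rfl : J = ∅ := card_eq_zero.mp (by omega)
    simpa using hB W hW
  | succ k ih =>
    intro J hJ hL W hW
    rcases J.eq_empty_or_nonempty with rfl | hne
    · refine (hB W hW).trans ?_
      rw [prod_empty, mul_one]
      exact le_mul_of_one_le_left hB0 (one_le_exp (by positivity))
    obtain ⟨c1, hc1, hmax⟩ := J.exists_max_image L hne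
    obtain ⟨ρ, hρ⟩ : ∃ ρ, ρ = rho N (N ^ 5) (L c1) := ⟨_, rfl⟩
    have hρ1 : 1 ≤ ρ := hρ ▸ (one_le_exp (Nat.cast_nonneg _)).trans (rho_ge h _)
    have hρu : ρ ≤ exp u := hρ ▸ rho_le h (hL c1 hc1)
    have hN1 : 1 ≤ N := by have := h.hN; omega
    have hA : (1 : ℝ) ≤ (N : ℝ) ^ 102 := one_le_pow₀ (by linarith)
    have hD := Ds_nonneg u
    have h1 := un_bound W univ (fun e n => (∃ c ∈ J, Thr e c) ∧ ∃ n' r,
      Good N (N ^ 5) L (J.filter fun c => ¬ Thr e c) n' ∧ Rr N u J e ρ n' r ∧ up n' e r = n)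
      (wt f) (fun _ _ => by unfold wt; positivity) (fun n hn => by
        obtain ⟨e, he⟩ := mat_step hN1 (Nat.one_le_pow _ _ hN1) hL hc1 hmax (hW n hn)
        exact ⟨e, mem_univ _, hρ ▸ he⟩)
      (fun _ => exp (810 * N) * (exp (900 * N * k) * (∏ c ∈ J, exp (-L c)) * B)) (fun e _ W' hW' => by
        rcases W'.eq_empty_or_nonempty with rfl | ⟨n0, hn0⟩
        · simp only [sum_empty]; positivity
        have he := (hW' n0 hn0).2.1
        refine decomp_bound W' _ (fun n' r => up n' e r)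
          (Good N (N ^ 5) L (J.filter fun c => ¬ Thr e c)) (Rr N u J e ρ)
          (fun n' r => wt f n' * (1 / r))
          (fun n' => exp (810 * N) * (∏ c ∈ J with Thr e c, exp (-L c)) * wt f n') _
          (fun _ _ _ _ => by unfold wt; positivity) (fun n hn => ?_) (fun n' hn' S hS => ?_)
          fun S hS => ?_
        · obtain ⟨n', r, a1, a2, rfl⟩ := (hW' n hn).2.2
          refine ⟨n', r, a1, a2, rfl, ?_⟩
          unfold wt
          rw [tot_up, Ad_mul _ a1.tot_ne a2.1.ne_zero, Ad_prime _ a2.1, div_mul_div_comm, mul_one,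
            Nat.cast_mul]
          gcongr
          linarith [hf r]
        · rw [← mul_sum, mul_comm]
          refine mul_le_mul_of_nonneg_right ?_ (by unfold wt; positivity)
          refine (dyadic S (fun r : ℕ => (r : ℝ)) (Ds u / ρ * (1 / ρ) ^ (J.filter (Thr e)).card)
            (3 * (N : ℝ) ^ 102 * ρ) (by positivity) (by positivity)
            (fun r hr => by exact_mod_cast (hS r hr).1.one_le) (fun r hr => (hS r hr).2.2.1)
            fun y hy => ?_).trans ?_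
          · refine (r_count (N := N) he (by linarith) hρu hn'.line_ne y hy.le _ fun r hr => ?_).trans
              (le_of_eq (by ring))
            rw [mem_filter] at hr
            exact ⟨hS r hr.1, hr.2⟩
          · have e1 := pow_le_prod_exp h (L := L) (J.filter (Thr e))
              (fun c hc => hmax c (mem_filter.mp hc).1)
            rw [← hρ] at e1
            have e2 : 3 * (Ds u / ρ) * (3 * (N : ℝ) ^ 102 * ρ + 1) ≤ exp (810 * N) := by
              have e3 : 3 * (N : ℝ) ^ 102 * ρ + 1 ≤ 4 * (N : ℝ) ^ 102 * ρ := by nlinarith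
              have e4 := pow_le_exp N (by linarith) 102
              have e5 : (12 : ℝ) ≤ exp (8 * N) := by linarith [add_one_le_exp (8 * (N : ℝ))]
              calc _ ≤ 3 * (Ds u / ρ) * (4 * (N : ℝ) ^ 102 * ρ) := by gcongr
                _ = 12 * Ds u * (N : ℝ) ^ 102 := by field_simp; ring
                _ ≤ exp (8 * N) * exp (700 * N) * exp ((102 : ℕ) * N) := by gcongr; exact h.ds
                _ = _ := by rw [← exp_add, ← exp_add]; push_cast; ring_nf
            calc _ = 3 * (Ds u / ρ) * (3 * (N : ℝ) ^ 102 * ρ + 1) *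
                  (1 / ρ) ^ (J.filter (Thr e)).card := by ring
              _ ≤ _ := by gcongr
        · rw [← mul_sum]
          have e1 : (J.filter fun c => ¬ Thr e c).card ≤ k := by
            obtain ⟨c, hc, ht⟩ := he
            have : (J.filter fun c => ¬ Thr e c).card < J.card :=
              card_lt_card (filter_ssubset.mpr ⟨c, hc, not_not.mpr ht⟩)
            omega
          have e2 := ih _ e1 (fun c hc => hL c (mem_filter.mp hc).1) S hS
          rw [← prod_filter_mul_prod_filter_not J (Thr e)]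
          calc _ ≤ exp (810 * N) * (∏ c ∈ J with Thr e c, exp (-L c)) *
                (exp (900 * N * k) * (∏ c ∈ J with ¬ Thr e c, exp (-L c)) * B) := by gcongr
            _ = _ := by ring)
    rw [sum_const, card_univ, Fintype.card_prod, nsmul_eq_mul] at h1
    have h2 : ((Fintype.card ι * Fintype.card ι : ℕ) : ℝ) ≤ exp (90 * N) := by
      have e1 : (Fintype.card ι : ℝ) ≤ 2 * (N : ℝ) ^ 2 := by exact_mod_cast hι
      have e2 := pow_le_exp N (by linarith) 3
      have e3 := h.pw 2 3 (by norm_num)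
      have e4 : (Fintype.card ι : ℝ) ≤ exp (45 * N) := by
        refine le_trans (by nlinarith [sq_nonneg (N : ℝ)]) (e2.trans (exp_le_exp.mpr ?_))
        push_cast; linarith
      push_cast
      rw [show (90 : ℝ) * N = 45 * N + 45 * N by ring, exp_add]
      gcongr
    calc _ ≤ exp (90 * N) * (exp (810 * N) * (exp (900 * N * k) * (∏ c ∈ J, exp (-L c)) * B)) :=
          h1.trans (by gcongr)
      _ = _ := by
        rw [← mul_assoc, ← mul_assoc, ← mul_assoc, ← exp_add, ← exp_add]; push_cast; ring_nf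

lemma mat_count {N u : ℕ} (h : Ok N u) (hι : Fintype.card ι ≤ 2 * N ^ 2) (L : ι ⊕ ι → ℕ)
    (f : ℕ → ℝ) (hf : ∀ q, f q ≤ 0) (B : ℝ) (hB0 : 0 ≤ B)
    (hB : ∀ W : Finset (ι × ι → ℕ), (∀ n ∈ W, Good N (N ^ 5) L ∅ n) → ∑ n ∈ W, wt f n ≤ B)
    (J : Finset (ι ⊕ ι)) (hL : ∀ c ∈ J, N ^ 5 + L c ≤ u) (c0 : ι ⊕ ι) (hc0 : c0 ∈ J)
    (y : ℝ) (hy : 0 ≤ y) (W : Finset (ι × ι → ℕ))
    (hW : ∀ n ∈ W, Good N (N ^ 5) L J n ∧ (tot n : ℝ) ≤ y) :
    ∑ n ∈ W, exp (Ad f (tot n)) ≤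
      y * exp (-((N : ℝ) ^ 5 + L c0) + (N : ℝ) ^ 4) * (∏ c ∈ J, exp (-L c)) * B := by
  have hn := h.n
  obtain ⟨c1, hc1, hmax⟩ := J.exists_max_image L ⟨c0, hc0⟩
  obtain ⟨ρ, hρ⟩ : ∃ ρ, ρ = rho N (N ^ 5) (L c1) := ⟨_, rfl⟩
  have hρ1 : 1 ≤ ρ := hρ ▸ (one_le_exp (Nat.cast_nonneg _)).trans (rho_ge h _)
  have hρu : ρ ≤ exp u := hρ ▸ rho_le h (hL c1 hc1)
  have hN1 : 1 ≤ N := by have := h.hN; omega
  have hD := Ds_nonneg u
  have hJ : J.card ≤ 4 * N ^ 2 := by
    have := card_le_univ J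
    rw [Fintype.card_sum] at this
    omega
  have h1 := un_bound W univ (fun e n => (∃ c ∈ J, Thr e c) ∧ ∃ n' r,
    Good N (N ^ 5) L (J.filter fun c => ¬ Thr e c) n' ∧ Rr N u J e ρ n' r ∧ up n' e r = n)
    (fun n => exp (Ad f (tot n))) (fun _ _ => by positivity) (fun n hn => by
      obtain ⟨e, he⟩ := mat_step hN1 (Nat.one_le_pow _ _ hN1) hL hc1 hmax (hW n hn).1
      exact ⟨e, mem_univ _, hρ ▸ he⟩)
    (fun _ => Ds u * y / ρ * (exp (900 * N * (4 * N ^ 2 : ℕ)) * (∏ c ∈ J, exp (-L c)) * B))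
    (fun e _ W' hW' => by
      rcases W'.eq_empty_or_nonempty with rfl | ⟨n0, hn0⟩
      · simp only [sum_empty]; positivity
      have he := (hW' n0 hn0).2.1
      refine decomp_bound W' _ (fun n' r => up n' e r)
        (Good N (N ^ 5) L (J.filter fun c => ¬ Thr e c))
        (fun n' r => Rr N u J e ρ n' r ∧ (r : ℝ) ≤ y / tot n')
        (fun n' _ => exp (Ad f (tot n')))
        (fun n' => Ds u * y / ρ * (∏ c ∈ J with Thr e c, exp (-L c)) * wt f n') _
        (fun _ _ _ _ => by positivity) (fun n hn => ?_) (fun n' hn' S hS => ?_)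
        fun S hS => ?_
      · obtain ⟨n', r, a1, a2, rfl⟩ := (hW' n hn).2.2
        refine ⟨n', r, a1, ⟨a2, ?_⟩, rfl, ?_⟩
        · have := (hW _ (hW' _ hn).1).2
          rw [tot_up, Nat.cast_mul] at this
          rw [le_div_iff₀ (by exact_mod_cast Nat.pos_of_ne_zero a1.tot_ne)]; linarith
        · rw [tot_up, Ad_mul _ a1.tot_ne a2.1.ne_zero, Ad_prime _ a2.1]
          gcongr
          linarith [hf r]
      · rw [sum_const, nsmul_eq_mul]
        have e0 := r_count (N := N) he (by linarith) hρu hn'.line_ne (y / tot n') (by positivity) S hS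
        have e1 := pow_le_prod_exp h (L := L) (J.filter (Thr e))
          (fun c hc => hmax c (mem_filter.mp hc).1)
        rw [← hρ] at e1
        calc _ ≤ Ds u * (y / tot n') / ρ * (∏ c ∈ J with Thr e c, exp (-L c)) *
              exp (Ad f (tot n')) := by
              gcongr
              exact e0.trans (by gcongr)
          _ = _ := by unfold wt; ring
      · rw [← mul_sum]
        have e2 := mat_weight h hι L f hf B hB0 hB (4 * N ^ 2) _ ((card_filter_le _ _).trans hJ)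
          (fun c hc => hL c (mem_filter.mp hc).1) S hS
        rw [← prod_filter_mul_prod_filter_not J (Thr e)]
        calc _ ≤ Ds u * y / ρ * (∏ c ∈ J with Thr e c, exp (-L c)) *
              (exp (900 * N * (4 * N ^ 2 : ℕ)) * (∏ c ∈ J with ¬ Thr e c, exp (-L c)) * B) := by
              gcongr
          _ = _ := by ring)
  rw [sum_const, card_univ, Fintype.card_prod, nsmul_eq_mul] at h1
  have h2 : ((Fintype.card ι * Fintype.card ι : ℕ) : ℝ) ≤ exp (90 * N) := by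
    have e1 : (Fintype.card ι : ℝ) ≤ 2 * (N : ℝ) ^ 2 := by exact_mod_cast hι
    have e2 := pow_le_exp N (by linarith) 3
    have e3 := h.pw 2 3 (by norm_num)
    have e4 : (Fintype.card ι : ℝ) ≤ exp (45 * N) := by
      refine le_trans (by nlinarith [sq_nonneg (N : ℝ)]) (e2.trans (exp_le_exp.mpr ?_))
      push_cast; linarith
    push_cast
    rw [show (90 : ℝ) * N = 45 * N + 45 * N by ring, exp_add]
    gcongr
  have h3 : 1 / ρ ≤ exp (102 * N + 1 - (N : ℝ) ^ 5 - L c0) := by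
    have e1 := rho_mono N (N ^ 5) (hmax c0 hc0)
    rw [← hρ] at e1
    have e2 := pow_le_exp N (by linarith) 102
    have e3 : exp (-(102 * N + 1 - (N : ℝ) ^ 5 - L c0)) ≤ rho N (N ^ 5) (L c0) := by
      unfold rho
      rw [le_div_iff₀ (by positivity)]
      calc _ ≤ exp (-(102 * N + 1 - (N : ℝ) ^ 5 - L c0)) * exp ((102 : ℕ) * N) := by gcongr
        _ = _ := by rw [← exp_add]; push_cast; ring_nf
    rw [one_div, inv_le_comm₀ (by linarith) (exp_pos _), ← exp_neg]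
    exact e3.trans e1
  have h4 : exp (90 * N) * (exp (700 * N) * exp (102 * N + 1 - (N : ℝ) ^ 5 - L c0) *
      exp (900 * N * (4 * N ^ 2 : ℕ))) ≤ exp (-((N : ℝ) ^ 5 + L c0) + (N : ℝ) ^ 4) := by
    rw [← exp_add, ← exp_add, ← exp_add]
    apply exp_le_exp.mpr
    have := h.pw 3 4 (by norm_num)
    have := h.pw 1 3 (by norm_num)
    push_cast
    nlinarith
  have h5 : 0 ≤ ∏ c ∈ J, exp (-(L c : ℝ)) := prod_nonneg fun _ _ => (exp_pos _).le
  calc _ ≤ exp (90 * N) * (Ds u * y / ρ *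
        (exp (900 * N * (4 * N ^ 2 : ℕ)) * (∏ c ∈ J, exp (-L c)) * B)) := h1.trans (by gcongr)
    _ = y * (exp (90 * N) * (Ds u * (1 / ρ) * exp (900 * N * (4 * N ^ 2 : ℕ)))) *
        (∏ c ∈ J, exp (-L c)) * B := by ring
    _ ≤ _ := by
      gcongr
      refine le_trans ?_ h4
      gcongr
      exact h.ds

end Vale.Agent.P031
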