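import Vale.Agent.P031.Sieve

/-! Normal primes and exceptional sets. -/

namespace Vale.Agent.P031

open Finset Real

lemma union_bound {α ι : Type*} (V : Finset α) (I : Finset ι) (R : ι → α → Prop)
    [∀ i, DecidablePred (R i)] (g : α → ℝ) (hg : ∀ v ∈ V, 0 ≤ g v)
    (h : ∀ v ∈ V, ∃ i ∈ I, R i v) : ∑ v ∈ V, g v ≤ ∑ i ∈ I, ∑ v ∈ V with R i v, g v := by
  simp_rw [sum_filter]
  rw [sum_comm]
  apply sum_le_sum
  intro v hv
  obtain ⟨i, hi, hR⟩ := h v hv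
  have := single_le_sum (f := fun i => if R i v then g v else 0)
    (fun j _ => by split_ifs; exacts [hg v hv, le_rfl]) hi
  simpa [hR] using this

lemma union_card {α ι : Type*} (V : Finset α) (I : Finset ι) (R : ι → α → Prop)
    [∀ i, DecidablePred (R i)] (h : ∀ v ∈ V, ∃ i ∈ I, R i v) :
    (V.card : ℝ) ≤ ∑ i ∈ I, ((V.filter (R i)).card : ℝ) := by
  simpa using union_bound V I R (fun _ => 1) (fun _ _ => zero_le_one) h

lemma sum_or_le {α : Type*} (V : Finset α) (p q : α → Prop) [DecidablePred p] [DecidablePred q]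
    (g : α → ℝ) (hg : ∀ v ∈ V, 0 ≤ g v) (h : ∀ v ∈ V, p v ∨ q v) :
    ∑ v ∈ V, g v ≤ ∑ v ∈ V with p v, g v + ∑ v ∈ V with q v, g v := by
  rw [sum_filter, sum_filter, ← sum_add_distrib]
  apply sum_le_sum
  intro v hv
  have := hg v hv
  rcases h v hv with h | h <;> simp only [h, if_true] <;> split_ifs <;> linarith

lemma card_or_le {α : Type*} (V : Finset α) (p q : α → Prop) [DecidablePred p] [DecidablePred q]
    (h : ∀ v ∈ V, p v ∨ q v) :
    (V.card : ℝ) ≤ (V.filter p).card + (V.filter q).card := by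
  simpa using sum_or_le V p q (fun _ => 1) (fun _ _ => zero_le_one) h

lemma sum_le_of_cover {α ι : Type*} (V : Finset α) (I : Finset ι) (f : ι → α) (g : α → ℝ)
    (w : ι → ℝ) (hw : ∀ i ∈ I, 0 ≤ w i) (h : ∀ v ∈ V, ∃ i ∈ I, f i = v ∧ g v ≤ w i) :
    ∑ v ∈ V, g v ≤ ∑ i ∈ I, w i := by
  classical
  calc ∑ v ∈ V, g v ≤ ∑ v ∈ V, ∑ i ∈ I with f i = v, w i := by
        apply sum_le_sum
        intro v hv
        obtain ⟨i, hi, h1, h2⟩ := h v hv
        exact h2.trans (single_le_sum (f := w) (fun j hj => hw j (mem_filter.mp hj).1)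
          (mem_filter.mpr ⟨hi, h1⟩))
    _ = ∑ i ∈ I, ∑ v ∈ V, if f i = v then w i else 0 := by
        simp_rw [sum_filter]; exact sum_comm
    _ ≤ _ := by
        apply sum_le_sum
        intro i hi
        rw [sum_ite_eq]
        split_ifs
        exacts [le_rfl, hw i hi]

/-- size constraints on the parameters -/
structure Ok (N u : ℕ) : Prop where
  hN : 1000000 ≤ N
  hu : u ≤ N ^ 100
  hu' : N ^ 100 ≤ 2 * u

lemma Ok.n {N u : ℕ} (h : Ok N u) : (1000000 : ℝ) ≤ N := by exact_mod_cast h.hN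

lemma Ok.u {N u : ℕ} (h : Ok N u) : (u : ℝ) ≤ (N : ℝ) ^ 100 := by exact_mod_cast h.hu

lemma Ok.u' {N u : ℕ} (h : Ok N u) : (N : ℝ) ^ 100 ≤ 2 * u := by exact_mod_cast h.hu'

lemma Ok.pw {N u : ℕ} (h : Ok N u) (a b : ℕ) (hab : a < b) :
    1000000 * (N : ℝ) ^ a ≤ (N : ℝ) ^ b := by
  have h1 := h.n
  calc 1000000 * (N : ℝ) ^ a ≤ N * (N : ℝ) ^ a := by gcongr
    _ = (N : ℝ) ^ (a + 1) := by ring
    _ ≤ _ := pow_le_pow_right₀ (by linarith) hab

lemma pow_le_exp (x : ℝ) (hx : 0 ≤ x) (k : ℕ) : x ^ k ≤ exp (k * x) := by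
  rw [exp_nat_mul]; gcongr; linarith [add_one_le_exp x]

lemma Ok.u1 {N u : ℕ} (h : Ok N u) : (u : ℝ) + 4 ≤ exp (101 * N) := by
  have h1 := h.n
  have h2 := h.u
  have h3 := h.pw 0 100 (by norm_num)
  have h4 := pow_le_exp N (by linarith) 100
  have h5 := add_one_le_exp (N : ℝ)
  rw [show (101 : ℝ) * N = N + 100 * N by ring, exp_add]
  push_cast at h4
  nlinarith [exp_pos (100 * (N : ℝ))]

lemma Ok.ds {N u : ℕ} (h : Ok N u) : Ds u ≤ exp (700 * N) := by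
  have h1 := h.n
  unfold Ds
  calc exp 68 * ((u : ℝ) + 4) ^ 6 ≤ exp 68 * (exp (101 * N)) ^ 6 := by gcongr; exact h.u1
    _ = exp (68 + 6 * (101 * N)) := by rw [← exp_nat_mul, ← exp_add]; norm_num
    _ ≤ _ := by gcongr; linarith

lemma Ds_nonneg (u : ℕ) : 0 ≤ Ds u := by unfold Ds; positivity

lemma Om_mul (i : ℕ) {a b : ℕ} (ha : a ≠ 0) (hb : b ≠ 0) : Om i (a * b) = Om i a + Om i b :=
  Ad_mul _ ha hb

lemma Om_nonneg (i m : ℕ) : 0 ≤ Om i m := Ad_nonneg fun q _ _ => by split_ifs <;> norm_num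

lemma Om_prime_le (i : ℕ) {r : ℕ} (hr : r.Prime) : Om i r ≤ 1 := by
  unfold Om; rw [Ad_prime _ hr]; split_ifs <;> norm_num

lemma Om_mono {i j : ℕ} (h : i ≤ j) (m : ℕ) : Om i m ≤ Om j m :=
  Ad_mono fun q _ _ => by split_ifs <;> first | omega | norm_num

/-- normal primes -/
def Nrm (N p : ℕ) : Prop :=
  (∃ r : ℕ, r.Prime ∧ r ∣ p - 1 ∧ log p ≤ (N : ℝ) ^ 102 * log r) ∧
    (∀ i ≤ lev p, |Om i (p - 1) - i| ≤ (N : ℝ) ^ 53) ∧ (lev p : ℝ) / 2 ≤ Om (lev p) (p - 1)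

lemma cast_pred {p : ℕ} (hp : p.Prime) : ((p - 1 : ℕ) : ℝ) = p - 1 := by
  rw [Nat.cast_sub hp.one_le, Nat.cast_one]

lemma card_le_mul_sum (S : Finset ℕ) (T : ℝ) (h : ∀ d ∈ S, d ≠ 0 ∧ (d : ℝ) ≤ T) :
    (S.card : ℝ) ≤ T * ∑ d ∈ S, (1 : ℝ) / d := by
  rw [mul_sum, card_eq_sum_ones]; push_cast
  apply sum_le_sum
  intro d hd
  have : (0 : ℝ) < d := by exact_mod_cast Nat.pos_of_ne_zero (h d hd).1
  rw [mul_one_div, le_div_iff₀ this]; linarith [(h d hd).2]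

lemma pred_injOn (S : Finset ℕ) (h : ∀ p ∈ S, p.Prime) : Set.InjOn (fun p => p - 1) S := by
  intro a ha b hb hab
  have := (h a ha).pos
  have := (h b hb).pos
  simp only at hab
  omega

lemma abn_count1 {N u : ℕ} (h : Ok N u) {s : ℕ} (hs2 : 2 ≤ s) (hsu : s ≤ u) (T : ℝ) (hT : 0 ≤ T)
    (S : Finset ℕ) (hS : ∀ p ∈ S, p.Prime ∧ lev p = s ∧ ((p : ℝ) - 1 ≤ T) ∧
      ¬ ∃ r : ℕ, r.Prime ∧ r ∣ p - 1 ∧ log p ≤ (N : ℝ) ^ 102 * log r) :
    (S.card : ℝ) ≤ T * exp (-s - (N : ℝ) ^ 5) := by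
  have hn := h.n
  have hA : (0 : ℝ) < (N : ℝ) ^ 102 := by positivity
  rw [← card_image_of_injOn (pred_injOn S fun p hp => (hS p hp).1)]
  refine (card_le_mul_sum _ T fun d hd => ?_).trans ?_
  · obtain ⟨p, hp, rfl⟩ := mem_image.mp hd
    have := (hS p hp).1.two_le
    exact ⟨by omega, by rw [cast_pred (hS p hp).1]; exact (hS p hp).2.2.1⟩
  gcongr
  refine (smooth_tail (s := s) (exp s / (N : ℝ) ^ 102) (exp s / 6) (by positivity) _
    fun d hd => ?_).trans ?_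
  · obtain ⟨p, hp, rfl⟩ := mem_image.mp hd
    obtain ⟨p1, p2, p3, p4⟩ := hS p hp
    refine ⟨p2 ▸ Sm.pred p1, fun q hq hd => ?_, ?_⟩
    · rw [le_div_iff₀ hA]
      have e1 : ¬ log p ≤ (N : ℝ) ^ 102 * log q := fun e => p4 ⟨q, hq, hd, e⟩
      have e2 := log_le_lev p
      rw [p2] at e2
      linarith
    · have e1 := lt_log_of_lev (q := p) (by omega)
      rw [p2] at e1
      have e2 : (2 : ℝ) ≤ p := by exact_mod_cast p1.two_le
      have e3 : log p ≤ log (2 * ((p : ℝ) - 1)) := log_le_log (by linarith) (by linarith)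
      rw [log_mul (by norm_num) (by linarith)] at e3
      rw [cast_pred p1]
      have e4 : exp s = exp 1 * exp (s - 1) := by rw [← exp_add]; ring_nf
      have e5 : (2 : ℝ) ≤ s := by exact_mod_cast hs2
      have e6 := add_one_le_exp ((s : ℝ) - 1)
      have e7 : exp s ≤ 3 * exp (s - 1) := by
        rw [e4]; gcongr; linarith [exp_one_lt_d9]
      linarith [log_two_lt_d9]
  · apply exp_le_exp.mpr
    have e1 : -(exp s / 6) / (4 * (exp s / (N : ℝ) ^ 102)) = -((N : ℝ) ^ 102 / 24) := by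
      field_simp; norm_num
    rw [e1]
    have e2 : (s : ℝ) ≤ u := by exact_mod_cast hsu
    have := h.u
    have := h.pw 100 102 (by norm_num)
    have := h.pw 5 100 (by norm_num)
    have := h.pw 0 5 (by norm_num)
    linarith

lemma mbad_sum {N u : ℕ} (h : Ok N u) {i0 s : ℕ} (hi : (i0 : ℝ) ≤ (N : ℝ) ^ 5) (his : i0 ≤ s)
    (hsu : s ≤ u) (M : Finset ℕ)
    (hM : ∀ m ∈ M, Sm s m ∧ ((∃ i ≤ s, (N : ℝ) ^ 53 - 1 ≤ |Om i m - i|) ∨ Om s m ≤ s / 2)) :
    ∑ m ∈ M, (1 : ℝ) / m ≤ exp (s + 103 * N - i0 / 16) := by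
  classical
  have hn := h.n
  have e2 : (s : ℝ) ≤ u := by exact_mod_cast hsu
  have e3 : (i0 : ℝ) ≤ s := by exact_mod_cast his
  have hu := h.u
  obtain ⟨t, ht⟩ : ∃ t : ℝ, t = 1 / (4 * (N : ℝ) ^ 48) := ⟨_, rfl⟩
  have h48 := h.pw 0 48 (by norm_num)
  have ht0 : 0 < t := by rw [ht]; positivity
  have ht1 : t ≤ 1 / 4 := by
    rw [ht]; apply one_div_le_one_div_of_le <;> linarith
  have ht2 : t * (N : ℝ) ^ 53 = (N : ℝ) ^ 5 / 4 := by rw [ht]; field_simp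
  have ht3 : t ^ 2 * (N : ℝ) ^ 100 = (N : ℝ) ^ 4 / 16 := by rw [ht]; field_simp; norm_num
  have hch : ∀ i ≤ s, ∀ τ : ℝ, |τ| = t → ∀ M' : Finset ℕ,
      (∀ m ∈ M', Sm s m ∧ t * ((N : ℝ) ^ 53 - 1) ≤ τ * (Om i m - i)) →
      ∑ m ∈ M', (1 : ℝ) / m ≤ exp (s + 18 - i0 / 16) := by
    intro i hi' τ hτ M' hM'
    refine (chernoff τ _ (by linarith) hi' M' hM').trans (exp_le_exp.mpr ?_)
    have e4 : (i : ℝ) ≤ s := by exact_mod_cast hi'
    have e5 : τ ^ 2 * i ≤ t ^ 2 * (N : ℝ) ^ 100 := by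
      rw [← sq_abs, hτ]; gcongr; linarith
    have := h.pw 4 5 (by norm_num)
    have := h.pw 0 4 (by norm_num)
    nlinarith
  have h1 := sum_or_le M _ _ (fun m => (1 : ℝ) / m) (fun _ _ => by positivity)
    (fun m hm => (hM m hm).2)
  have h2 : ∑ m ∈ M with Om s m ≤ s / 2, (1 : ℝ) / m ≤ exp (s + 18 - i0 / 16) := by
    refine (chernoff (-1 / 4) (s / 8) (by norm_num [abs_of_neg]) (le_refl s) _ fun m hm => ?_).trans
      (exp_le_exp.mpr (by linarith))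
    rw [mem_filter] at hm
    exact ⟨(hM m hm.1).1, by linarith [hm.2]⟩
  have h3 : ∑ m ∈ M with (∃ i ≤ s, (N : ℝ) ^ 53 - 1 ≤ |Om i m - i|), (1 : ℝ) / m ≤
      ∑ _i ∈ range (s + 1), 2 * exp (s + 18 - i0 / 16) := by
    refine (union_bound _ (range (s + 1)) (fun i m => (N : ℝ) ^ 53 - 1 ≤ |Om i m - i|) _
      (fun _ _ => by positivity) fun m hm => ?_).trans (sum_le_sum fun i hi' => ?_)
    · obtain ⟨i, h1, h2⟩ := (mem_filter.mp hm).2
      exact ⟨i, mem_range.mpr (by omega), h2⟩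
    · have hi'' : i ≤ s := by have := mem_range.mp hi'; omega
      refine (sum_or_le _ (fun m => (N : ℝ) ^ 53 - 1 ≤ Om i m - i)
        (fun m => (N : ℝ) ^ 53 - 1 ≤ -(Om i m - i)) _ (fun _ _ => by positivity)
        fun m hm => le_abs.mp (mem_filter.mp hm).2).trans ?_
      rw [two_mul]
      apply add_le_add
      · apply hch i hi'' t (abs_of_pos ht0)
        intro m hm
        simp only [mem_filter] at hm
        exact ⟨(hM m hm.1.1.1).1, mul_le_mul_of_nonneg_left hm.2 ht0.le⟩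
      · apply hch i hi'' (-t) (by rw [abs_neg, abs_of_pos ht0])
        intro m hm
        simp only [mem_filter] at hm
        refine ⟨(hM m hm.1.1.1).1, ?_⟩
        rw [neg_mul, ← mul_neg]; exact mul_le_mul_of_nonneg_left hm.2 ht0.le
  rw [sum_const, card_range, nsmul_eq_mul] at h3
  have h4 := h.u1
  have h5 := add_one_le_exp ((N : ℝ) - 18 + N - N)
  have h6 : exp (s + 103 * N - i0 / 16) =
      exp (101 * N) * exp N * exp (N - 18) * exp (s + 18 - i0 / 16) := by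
    rw [← exp_add, ← exp_add, ← exp_add]; ring_nf
  have h7 : 2 * ((s : ℝ) + 1) + 1 ≤ exp (101 * N) * exp N * exp (N - 18) := by
    have a1 : (2 : ℝ) ≤ exp N := by linarith [add_one_le_exp (N : ℝ)]
    have a2 : (1 : ℝ) ≤ exp ((N : ℝ) - 18) := one_le_exp (by linarith)
    calc 2 * ((s : ℝ) + 1) + 1 ≤ (u + 4) * 2 * 1 := by linarith
      _ ≤ _ := by gcongr
  rw [h6]
  push_cast at h3
  have := exp_pos ((s : ℝ) + 18 - i0 / 16)
  nlinarith

lemma abn_count {N u : ℕ} (h : Ok N u) {i0 s : ℕ} (hi2 : 2 ≤ i0) (hi : (i0 : ℝ) ≤ (N : ℝ) ^ 5)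
    (his : i0 ≤ s) (hsu : s ≤ u) (T : ℝ) (hT : 0 ≤ T)
    (S : Finset ℕ) (hS : ∀ p ∈ S, p.Prime ∧ lev p = s ∧ ((p : ℝ) - 1 ≤ T) ∧ ¬ Nrm N p) :
    (S.card : ℝ) ≤ T * exp (-s + 1100 * N - i0 / 16) := by
  classical
  have hn := h.n
  have hA : (0 : ℝ) < (N : ℝ) ^ 102 := by positivity
  have hA1 : (1 : ℝ) ≤ (N : ℝ) ^ 102 := one_le_pow₀ (by linarith)
  have h1 := card_or_le S _ _ (fun p _ => em' (∃ r : ℕ, r.Prime ∧ r ∣ p - 1 ∧
    log p ≤ (N : ℝ) ^ 102 * log r))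
  have h2 := abn_count1 h (hi2.trans his) hsu T hT (S.filter fun p => ¬ ∃ r : ℕ, r.Prime ∧
    r ∣ p - 1 ∧ log p ≤ (N : ℝ) ^ 102 * log r) (fun p hp => by
      rw [mem_filter] at hp
      obtain ⟨a, b, c, _⟩ := hS p hp.1
      exact ⟨a, b, c, hp.2⟩)
  obtain ⟨ρ, hρ⟩ : ∃ ρ : ℝ, ρ = exp (s - 1) / (N : ℝ) ^ 102 := ⟨_, rfl⟩
  have hρ0 : 0 < ρ := by rw [hρ]; positivity
  have hρu : ρ ≤ exp u := by
    have e2 : (s : ℝ) ≤ u := by exact_mod_cast hsu
    rw [hρ]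
    exact (div_le_self (exp_pos _).le hA1).trans (exp_le_exp.mpr (by linarith))
  let M := (Icc 1 (Y u)).filter fun m =>
    Sm s m ∧ ((∃ i ≤ s, (N : ℝ) ^ 53 - 1 ≤ |Om i m - i|) ∨ Om s m ≤ s / 2)
  have hM := mbad_sum h hi his hsu M (fun m hm => (mem_filter.mp hm).2)
  have h3 : ((S.filter fun p => ∃ r : ℕ, r.Prime ∧ r ∣ p - 1 ∧
      log p ≤ (N : ℝ) ^ 102 * log r).card : ℝ) ≤ ∑ m ∈ M, Ds u * (T / m) / ρ ^ 2 := by
    refine (union_card _ M (fun m p => ∃ r : ℕ, r.Prime ∧ p = r * m + 1 ∧ ρ ≤ log r)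
      fun p hp => ?_).trans (sum_le_sum fun m hm => ?_)
    · rw [mem_filter] at hp
      obtain ⟨p1, p2, p3, p4⟩ := hS p hp.1
      obtain ⟨r, r1, ⟨m, hm⟩, r3⟩ := hp.2
      have hp2 := p1.two_le
      have hm0 : m ≠ 0 := by rintro rfl; omega
      have hsm : Sm s m := (p2 ▸ Sm.pred p1).of_dvd ⟨r, by rw [hm, mul_comm]⟩
      have hOm : ∀ i, Om i (p - 1) = Om i r + Om i m := fun i => by
        rw [hm, Om_mul i r1.ne_zero hm0]
      refine ⟨m, mem_filter.mpr ⟨mem_Icc.mpr ⟨by omega, ?_⟩, hsm, ?_⟩, r, r1, by omega, ?_⟩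
      · have : m ≤ p - 1 := Nat.le_of_dvd (by omega) ⟨r, by rw [hm, mul_comm]⟩
        have : p ≤ Y u := lev_le_iff_Y.mp (p2 ▸ hsu)
        omega
      · by_contra hc
        push Not at hc
        apply p4
        refine ⟨⟨r, r1, ⟨m, hm⟩, r3⟩, fun i hi' => ?_, ?_⟩
        · have := abs_lt.mp (hc.1 i (p2 ▸ hi'))
          have := Om_nonneg i r
          have := Om_prime_le i r1
          rw [hOm, abs_le]; constructor <;> linarith
        · rw [p2, hOm]; linarith [hc.2, Om_nonneg s r]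
      · have e1 := lt_log_of_lev (q := p) (by omega)
        rw [p2] at e1
        rw [hρ, div_le_iff₀ hA]; linarith
    · have hm1 := mem_Icc.mp (mem_filter.mp hm).1
      have hm0 : (0 : ℝ) < m := by exact_mod_cast hm1.1
      rw [← card_image_of_injOn (f := fun p => (p - 1) / m)]
      · apply sieve2 u m (by omega) (lev_le_iff_Y.mpr hm1.2) _ _ (by positivity) hρ0 hρu
        intro r hr
        obtain ⟨p, hp, rfl⟩ := mem_image.mp hr
        simp only [mem_filter] at hp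
        obtain ⟨r, r1, r2, r3⟩ := hp.2
        obtain ⟨p1, p2, p3, p4⟩ := hS p hp.1.1
        have : (p - 1) / m = r := by
          rw [r2, Nat.add_sub_cancel, Nat.mul_div_cancel _ hm1.1]
        rw [this]
        refine ⟨r1, ?_, r3, r2 ▸ p1⟩
        rw [le_div_iff₀ hm0]
        rw [r2] at p3; push_cast at p3; linarith
      · intro a ha b hb hab
        simp only [coe_filter, Set.mem_setOf_eq] at ha hb
        obtain ⟨r, -, r2, -⟩ := ha.2
        obtain ⟨r', -, r2', -⟩ := hb.2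
        simp only at hab
        rw [r2, r2', Nat.add_sub_cancel, Nat.add_sub_cancel, Nat.mul_div_cancel _ hm1.1,
          Nat.mul_div_cancel _ hm1.1] at hab
        rw [r2, r2', hab]
  have h4 : ∑ m ∈ M, Ds u * (T / m) / ρ ^ 2 = T * (Ds u / ρ ^ 2 * ∑ m ∈ M, (1 : ℝ) / m) := by
    rw [mul_sum, mul_sum]; refine sum_congr rfl fun m _ => by ring
  have h5 : Ds u / ρ ^ 2 ≤ exp (700 * N + 204 * N + 2 - 2 * s) := by
    have e1 : Ds u / ρ ^ 2 = Ds u * (N : ℝ) ^ 204 * exp (2 - 2 * s) := by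
      rw [hρ, show (2 : ℝ) - 2 * s = -((s - 1) + (s - 1)) by ring, exp_neg, exp_add]
      field_simp
    have e2 := pow_le_exp N (by linarith) 204
    rw [e1, show 700 * (N : ℝ) + 204 * N + 2 - 2 * s = 700 * N + 204 * N + (2 - 2 * s) by ring,
      exp_add, exp_add]
    gcongr
    · exact h.ds
    · exact_mod_cast e2
  have h6 : Ds u / ρ ^ 2 * ∑ m ∈ M, (1 : ℝ) / m ≤ exp (-s + 1099 * N - i0 / 16) := by
    calc _ ≤ exp (700 * N + 204 * N + 2 - 2 * s) * exp (s + 103 * N - i0 / 16) := by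
          gcongr
      _ ≤ _ := by rw [← exp_add]; apply exp_le_exp.mpr; linarith
  have h7 : exp (-s - (N : ℝ) ^ 5) ≤ exp (-s + 1099 * N - i0 / 16) := by
    apply exp_le_exp.mpr
    have : (0 : ℝ) ≤ i0 := Nat.cast_nonneg _
    linarith
  have h8 : exp (-s + 1100 * N - i0 / 16) = exp N * exp (-s + 1099 * N - i0 / 16) := by
    rw [← exp_add]; ring_nf
  have h9 : (2 : ℝ) ≤ exp N := by linarith [add_one_le_exp (N : ℝ)]
  have h10 := exp_pos (-s + 1099 * (N : ℝ) - i0 / 16)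
  calc (S.card : ℝ) ≤ T * exp (-s + 1099 * N - i0 / 16) + T * exp (-s + 1099 * N - i0 / 16) := by
        refine h1.trans (add_le_add (h2.trans (by gcongr)) (h3.trans ?_))
        rw [h4]; gcongr
    _ = T * (2 * exp (-s + 1099 * N - i0 / 16)) := by ring
    _ ≤ _ := by rw [h8]; gcongr

lemma abn_weight {N u : ℕ} (h : Ok N u) {i0 : ℕ} (hi2 : 2 ≤ i0) (hi : (i0 : ℝ) ≤ (N : ℝ) ^ 5)
    (S : Finset ℕ) (hS : ∀ p ∈ S, p.Prime ∧ i0 < lev p ∧ lev p ≤ u ∧ ¬ Nrm N p) :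
    ∑ p ∈ S, 1 / ((p : ℝ) - 1) ≤ exp (1300 * N - i0 / 16) := by
  classical
  have hn := h.n
  have hp2 : ∀ p ∈ S, (2 : ℝ) ≤ p := fun p hp => by exact_mod_cast (hS p hp).1.two_le
  have h1 : ∑ p ∈ S, 1 / ((p : ℝ) - 1) ≤ ∑ _s ∈ Ioc i0 u, 6 * exp (1100 * N - i0 / 16) := by
    refine (union_bound S (Ioc i0 u) (fun s p => lev p = s) _ (fun p hp => by
      have := hp2 p hp
      apply one_div_nonneg.mpr; linarith) fun p hp =>
      ⟨lev p, mem_Ioc.mpr ⟨(hS p hp).2.1, (hS p hp).2.2.1⟩, rfl⟩).trans (sum_le_sum fun s hs => ?_)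
    rw [mem_Ioc] at hs
    refine (dyadic _ (fun p : ℕ => (p : ℝ) - 1) (exp (-s + 1100 * N - i0 / 16)) (exp s)
      (exp_pos _).le (exp_pos _).le (fun p hp => by linarith [hp2 p (mem_filter.mp hp).1])
      (fun p hp => ?_) fun y hy => ?_).trans ?_
    · rw [mem_filter] at hp
      have := hp2 p hp.1
      have e := log_le_lev p
      rw [hp.2] at e
      exact (log_le_log (by linarith) (by linarith)).trans e
    · rw [mul_comm]
      apply abn_count h hi2 hi hs.1.le hs.2 y hy.le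
      intro p hp
      simp only [mem_filter] at hp
      exact ⟨(hS p hp.1.1).1, hp.1.2, hp.2, (hS p hp.1.1).2.2.2⟩
    · have e1 : (1 : ℝ) ≤ exp s := one_le_exp (Nat.cast_nonneg s)
      have e2 : exp (1100 * N - i0 / 16) = exp (-s + 1100 * N - i0 / 16) * exp s := by
        rw [← exp_add]; ring_nf
      rw [e2]
      nlinarith [exp_pos (-s + 1100 * (N : ℝ) - i0 / 16)]
  rw [sum_const, Nat.card_Ioc, nsmul_eq_mul] at h1
  have h2 : ((u - i0 : ℕ) : ℝ) ≤ exp (101 * N) := by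
    have : ((u - i0 : ℕ) : ℝ) ≤ u := by exact_mod_cast Nat.sub_le u i0
    linarith [h.u1]
  have h3 : (6 : ℝ) ≤ exp (99 * N) := by linarith [add_one_le_exp (99 * (N : ℝ))]
  calc _ ≤ exp (101 * N) * (exp (99 * N) * exp (1100 * N - i0 / 16)) := h1.trans (by gcongr)
    _ = _ := by rw [← exp_add, ← exp_add]; ring_nf

end Vale.Agent.P031
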