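import Vale.Agent.P031.Dec

/-! Level profiles and the bound for values with a heavy profile. -/

namespace Vale.Agent.P031

open Finset Real

lemma decomp_bound {α β γ : Type*} (V : Finset γ) (g : γ → ℝ) (mk : α → β → γ) (Pa : α → Prop)
    (Pb : α → β → Prop) (F : α → β → ℝ) (a : α → ℝ) (B : ℝ)
    (hF : ∀ x y, Pa x → Pb x y → 0 ≤ F x y)
    (h : ∀ v ∈ V, ∃ x y, Pa x ∧ Pb x y ∧ mk x y = v ∧ g v ≤ F x y)
    (hfib : ∀ x, Pa x → ∀ S : Finset β, (∀ y ∈ S, Pb x y) → ∑ y ∈ S, F x y ≤ a x)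
    (hB : ∀ S : Finset α, (∀ x ∈ S, Pa x) → ∑ x ∈ S, a x ≤ B) : ∑ v ∈ V, g v ≤ B := by
  classical
  refine cover_bound V (fun z : α × β => mk z.1 z.2) g (fun z => F z.1 z.2)
    (fun z => Pa z.1 ∧ Pb z.1 z.2) B (fun z hz => hF _ _ hz.1 hz.2) (fun I hI => ?_) fun v hv => ?_
  · rw [← sum_fiberwise_of_maps_to (g := Prod.fst) (t := I.image Prod.fst)
      (fun z hz => mem_image_of_mem _ hz)]
    refine le_trans (sum_le_sum fun x hx => ?_) (hB _ fun x hx => ?_)
    · obtain ⟨z, hz, rfl⟩ := mem_image.mp hx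
      have := hfib z.1 (hI z hz).1 ((I.filter fun w => w.1 = z.1).image Prod.snd) (fun y hy => by
        obtain ⟨w, hw, rfl⟩ := mem_image.mp hy
        rw [mem_filter] at hw
        rw [← hw.2]; exact (hI w hw.1).2)
      rw [sum_image (fun w hw w' hw' e => Prod.ext
        ((mem_filter.mp hw).2.trans (mem_filter.mp hw').2.symm) e)] at this
      refine le_trans (le_of_eq (sum_congr rfl fun w hw => ?_)) this
      rw [(mem_filter.mp hw).2]
    · obtain ⟨z, hz, rfl⟩ := mem_image.mp hx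
      exact (hI z hz).1
  · obtain ⟨x, y, h1, h2, h3, h4⟩ := h v hv
    exact ⟨(x, y), ⟨h1, h2⟩, h3, h4⟩

lemma decomp_card {α β γ : Type*} (V : Finset γ) (mk : α → β → γ) (Pa : α → Prop)
    (Pb : α → β → Prop) (a : α → ℝ) (B : ℝ)
    (h : ∀ v ∈ V, ∃ x y, Pa x ∧ Pb x y ∧ mk x y = v)
    (hfib : ∀ x, Pa x → ∀ S : Finset β, (∀ y ∈ S, Pb x y) → (S.card : ℝ) ≤ a x)
    (hB : ∀ S : Finset α, (∀ x ∈ S, Pa x) → ∑ x ∈ S, a x ≤ B) : (V.card : ℝ) ≤ B := by
  have := decomp_bound V (fun _ => 1) mk Pa Pb (fun _ _ => 1) a B (fun _ _ _ _ => zero_le_one)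
    (fun v hv => by
      obtain ⟨x, y, h1, h2, h3⟩ := h v hv
      exact ⟨x, y, h1, h2, h3, le_rfl⟩) (fun x hx S hS => by simpa using hfib x hx S hS) hB
  simpa using this

/-- level above the threshold -/
noncomputable def lv (i0 q : ℕ) : ℕ := lev q - i0

/-- the convex function of the profile functional -/
noncomputable def gg (a : ℕ) : ℝ := (a + 1) * log (a + 1) - a

/-- number of indices with value above `k` -/
def cn {ι : Type*} (s : Finset ι) (l : ι → ℕ) (k : ℕ) : ℕ := (s.filter fun i => k < l i).card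

/-- shifted profile functionals -/
noncomputable def TT (u i0 j : ℕ) (P : Finset ℕ) : ℝ :=
  ∑ k ∈ range u, (gg (cn P (lv i0) k + j) - gg j)

/-- entropy of a profile -/
noncomputable def Ph (u : ℕ) (a : ℕ → ℕ) : ℝ := ∑ k ∈ range u, ((a k : ℝ) * log (a k) - a k)

lemma gg_zero : gg 0 = 0 := by simp [gg]

lemma gg_le_succ (a : ℕ) : gg a ≤ gg (a + 1) := by
  unfold gg
  have h0 : (0 : ℝ) ≤ a := Nat.cast_nonneg a
  have h1 := one_sub_inv_le_log_of_pos (x := ((a : ℝ) + 2) / (a + 1)) (by positivity)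
  rw [log_div (by positivity) (by positivity), inv_div] at h1
  have h2 : 0 ≤ log ((a : ℝ) + 1) := log_nonneg (by linarith)
  have h3 : 1 ≤ ((a : ℝ) + 2) * (log (a + 2) - log (a + 1)) := by
    have : 1 - ((a : ℝ) + 1) / (a + 2) = 1 / (a + 2) := by field_simp; ring
    rw [this, div_le_iff₀ (by positivity)] at h1
    linarith
  push_cast
  rw [show (a : ℝ) + 1 + 1 = a + 2 by ring]
  nlinarith

lemma gg_mono : Monotone gg := monotone_nat_of_le_succ gg_le_succ

lemma cn_anti {ι : Type*} (s : Finset ι) (l : ι → ℕ) (k : ℕ) : cn s l (k + 1) ≤ cn s l k :=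
  card_le_card fun i hi => by
    rw [mem_filter] at hi ⊢
    exact ⟨hi.1, by omega⟩

lemma cn_le {ι : Type*} (s : Finset ι) (l : ι → ℕ) (k : ℕ) : cn s l k ≤ s.card :=
  card_filter_le _ _

lemma cn_mono {ι : Type*} {s t : Finset ι} (h : s ⊆ t) (l : ι → ℕ) (k : ℕ) : cn s l k ≤ cn t l k :=
  card_le_card (filter_subset_filter _ h)

lemma sum_cn {ι : Type*} (s : Finset ι) (l : ι → ℕ) (u : ℕ) (hl : ∀ i ∈ s, l i ≤ u) (τ : ℕ → ℝ) :
    ∑ k ∈ range u, (cn s l k : ℝ) * τ k = ∑ i ∈ s, ∑ k ∈ range (l i), τ k := by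
  have : ∀ k, (cn s l k : ℝ) * τ k = ∑ i ∈ s, if k < l i then τ k else 0 := fun k => by
    rw [← sum_filter, sum_const, nsmul_eq_mul, cn]
  simp_rw [this]
  rw [sum_comm]
  refine sum_congr rfl fun i hi => ?_
  rw [← sum_filter]
  congr 1
  ext k
  simp only [mem_filter, mem_range]
  have := hl i hi
  omega

lemma cn_insert {P : Finset ℕ} {p : ℕ} (hp : p ∉ P) (l : ℕ → ℕ) (k : ℕ) :
    cn (insert p P) l k = cn P l k + if k < l p then 1 else 0 := by
  unfold cn
  rw [filter_insert]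
  split_ifs
  · rw [card_insert_of_notMem fun h => hp (mem_filter.mp h).1]
  · rfl

lemma cn_eq_zero {P : Finset ℕ} {l : ℕ → ℕ} {k : ℕ} (h : ∀ p ∈ P, l p ≤ k) : cn P l k = 0 := by
  unfold cn
  rw [card_eq_zero, filter_eq_empty_iff]
  intro p hp
  exact not_lt.mpr (h p hp)

lemma sum_ite_lt {u s : ℕ} (hs : s ≤ u) (c : ℝ) :
    ∑ k ∈ range u, (if k < s then c else 0) = s * c := by
  rw [← sum_filter, sum_const, nsmul_eq_mul]
  congr 2
  rw [show (range u).filter (fun k => k < s) = range s by ext k; simp; omega, card_range]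

lemma TT_insert {u i0 : ℕ} (j : ℕ) {P : Finset ℕ} {p : ℕ} (hp : p ∉ P) (hs : lv i0 p ≤ u)
    (hP : ∀ q ∈ P, lv i0 q ≤ lv i0 p) :
    TT u i0 j (insert p P) = (gg (j + 1) - gg j) * lv i0 p + TT u i0 (j + 1) P := by
  unfold TT
  rw [mul_comm, ← sum_ite_lt hs, ← sum_add_distrib]
  refine sum_congr rfl fun k _ => ?_
  rw [cn_insert hp]
  split_ifs with h
  · rw [show cn P (lv i0) k + 1 + j = cn P (lv i0) k + (j + 1) by ring]; ring
  · rw [cn_eq_zero fun q hq => (hP q hq).trans (not_lt.mp h)]; simp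

lemma Ph_insert {u i0 : ℕ} {P : Finset ℕ} {p : ℕ} (hp : p ∉ P) (hs : lv i0 p ≤ u)
    (hP : ∀ q ∈ P, lv i0 q ≤ lv i0 p) :
    Ph u (cn (insert p P) (lv i0)) = TT u i0 0 P - lv i0 p := by
  unfold TT Ph
  rw [← mul_one (lv i0 p : ℝ), ← sum_ite_lt hs, ← sum_sub_distrib]
  refine sum_congr rfl fun k _ => ?_
  rw [cn_insert hp]
  split_ifs with h
  · simp [gg]; ring
  · rw [cn_eq_zero fun q hq => (hP q hq).trans (not_lt.mp h)]; simp

lemma TT_mono {u i0 : ℕ} {P Q : Finset ℕ} (h : P ⊆ Q) : TT u i0 0 P ≤ TT u i0 0 Q :=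
  sum_le_sum fun k _ => by
    have := gg_mono (Nat.add_le_add_right (cn_mono h (lv i0) k) 0)
    linarith

lemma TT_nonneg (u i0 j : ℕ) (P : Finset ℕ) : 0 ≤ TT u i0 j P :=
  sum_nonneg fun k _ => by
    have := gg_mono (Nat.le_add_left j (cn P (lv i0) k))
    linarith

lemma enum (M : ℕ) (P : Finset ℕ) (hP : P.card ≤ M) :
    ∃ f : Fin M → ℕ, (∀ j, f j ∈ P ∨ f j = 2) ∧ (∀ p ∈ P, ∃ j, f j = p) ∧
      (∀ G : ℕ → ℕ, G 2 = 0 → ∑ p ∈ P, G p = ∑ j, G (f j)) ∧ pv P = ∏ j, (f j - 1) := by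
  induction M generalizing P with
  | zero =>
    obtain rfl : P = ∅ := card_eq_zero.mp (by omega)
    exact ⟨fun _ => 2, by simp, by simp, by simp, by simp [pv]⟩
  | succ M ih =>
    rcases P.eq_empty_or_nonempty with rfl | ⟨p, hp⟩
    · exact ⟨fun _ => 2, by simp, by simp, fun G hG => by simp [hG], by simp [pv]⟩
    obtain ⟨f, h1, h2, h3, h4⟩ := ih (P.erase p) (by rw [card_erase_of_mem hp]; omega)
    refine ⟨Fin.cons p f, fun j => ?_, fun q hq => ?_, fun G hG => ?_, ?_⟩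
    · refine Fin.cases ?_ (fun j => ?_) j
      · simp [hp]
      · simp only [Fin.cons_succ]
        exact (h1 j).imp_left mem_of_mem_erase
    · by_cases hqp : q = p
      · exact ⟨0, by simp [hqp]⟩
      · obtain ⟨j, hj⟩ := h2 q (mem_erase.mpr ⟨hqp, hq⟩)
        exact ⟨j.succ, by simpa using hj⟩
    · rw [Fin.sum_univ_succ, ← add_sum_erase _ _ hp, h3 G hG]; simp
    · rw [Fin.prod_univ_succ, pv, ← mul_prod_erase _ _ hp]
      simp only [Fin.cons_zero, Fin.cons_succ]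
      rw [← h4, pv]

lemma lv_two (i0 : ℕ) : lv i0 2 = 0 := by simp [lv, lev_two]

lemma cn_enum {M : ℕ} {P : Finset ℕ} {f : Fin M → ℕ} (i0 : ℕ)
    (h : ∀ G : ℕ → ℕ, G 2 = 0 → ∑ p ∈ P, G p = ∑ j, G (f j)) :
    cn P (lv i0) = cn univ (fun j => lv i0 (f j)) := by
  funext k
  unfold cn
  rw [card_filter, card_filter]
  exact h (fun p => if k < lv i0 p then 1 else 0) (by simp [lv_two])

/-- a function of the level, vanishing below the threshold -/
noncomputable def fl (i0 : ℕ) (τ : ℕ → ℝ) (q : ℕ) : ℝ := if lev q ≤ i0 then 0 else τ (lev q - i0 - 1)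

lemma Ad_fl_sm {i0 m : ℕ} (τ : ℕ → ℝ) (h : Sm i0 m) : Ad (fl i0 τ) m = 0 := by
  rw [← Ad_zero m]
  exact Ad_congr fun q h1 h2 => by simp [fl, h.2 q h1 h2]

lemma Ad_fl_eq {i0 l m : ℕ} (τ : ℕ → ℝ) (h : Sm (i0 + l) m) :
    Ad (fl i0 τ) m = ∑ k ∈ range l, τ k * (Om (i0 + (k + 1)) m - Om (i0 + k) m) := by
  have e : ∀ k, τ k * (Om (i0 + (k + 1)) m - Om (i0 + k) m) =
      Ad (fun q => τ k * ((if lev q ≤ i0 + (k + 1) then 1 else 0) +
        (-1) * (if lev q ≤ i0 + k then 1 else 0))) m := fun k => by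
    rw [Ad_smul, Ad_add, Ad_smul]; unfold Om; ring
  simp_rw [e]
  rw [← Ad_sum]
  apply Ad_congr
  intro q h1 h2
  have hq := h.2 q h1 h2
  unfold fl
  split_ifs with h3
  · symm
    apply sum_eq_zero
    intro k _
    rw [if_pos (by omega), if_pos (by omega)]; ring
  · rw [sum_eq_single (lev q - i0 - 1)]
    · rw [if_pos (by omega), if_neg (by omega)]; ring
    · intro k _ hk
      by_cases h4 : lev q ≤ i0 + k
      · rw [if_pos (by omega), if_pos h4]; ring
      · rw [if_neg (by omega), if_neg h4]; ring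
    · intro h4; exact absurd (mem_range.mpr (by omega)) h4

lemma row_bound {N i0 p : ℕ} (hp : p.Prime) (hN : Nrm N p) (hi : i0 ≤ lev p) (τ : ℕ → ℝ)
    (hτ : ∀ k, τ (k + 1) ≤ τ k) (h0 : ∀ k, 0 ≤ τ k) :
    |Ad (fl i0 τ) (p - 1) - ∑ k ∈ range (lv i0 p), τ k| ≤ 2 * (N : ℝ) ^ 53 * τ 0 := by
  have hl : i0 + lv i0 p = lev p := by unfold lv; omega
  rw [Ad_fl_eq (l := lv i0 p) τ (hl ▸ Sm.pred hp), ← sum_sub_distrib]
  have hD : ∀ k ≤ lv i0 p, |∑ i ∈ range k, (Om (i0 + (i + 1)) (p - 1) - Om (i0 + i) (p - 1) - 1)|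
      ≤ 2 * (N : ℝ) ^ 53 := by
    intro k hk
    rw [sum_sub_distrib, sum_range_sub (fun i => Om (i0 + i) (p - 1))]
    have e1 := abs_le.mp (hN.2.1 (i0 + k) (by omega))
    have e2 := abs_le.mp (hN.2.1 i0 hi)
    simp only [add_zero, sum_const, card_range, nsmul_eq_mul, mul_one]
    push_cast at e1
    rw [abs_le]; constructor <;> linarith
  have h1 := abel_ge τ _ _ _ hτ h0 (fun k hk => (abs_le.mp (hD k hk)).1)
  have h2 := abel_ge τ (fun i => -(Om (i0 + (i + 1)) (p - 1) - Om (i0 + i) (p - 1) - 1)) _ _ hτ h0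
    (fun k hk => by rw [sum_neg_distrib]; exact neg_le_neg (abs_le.mp (hD k hk)).2)
  simp only [mul_neg, sum_neg_distrib] at h2
  have e : ∑ k ∈ range (lv i0 p), (τ k * (Om (i0 + (k + 1)) (p - 1) - Om (i0 + k) (p - 1)) - τ k)
      = ∑ k ∈ range (lv i0 p), τ k * (Om (i0 + (k + 1)) (p - 1) - Om (i0 + k) (p - 1) - 1) :=
    sum_congr rfl fun k _ => by ring
  rw [e, abs_le]; constructor <;> linarith

lemma log_nat_mono {a b : ℕ} (h : a ≤ b) : log a ≤ log b := by
  rcases Nat.eq_zero_or_pos a with rfl | ha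
  · simpa using log_natCast_nonneg b
  · exact log_le_log (by exact_mod_cast ha) (by exact_mod_cast h)

lemma log_le_N {N u : ℕ} (h : Ok N u) {a : ℕ} (ha : a ≤ 2 * N ^ 2) : log a ≤ N := by
  refine (log_nat_mono ha).trans ?_
  have hn := h.n
  rw [log_le_iff_le_exp (by push_cast; positivity)]
  have := Real.pow_div_factorial_le_exp (x := N) (by linarith) 3
  have h2 := h.pw 2 3 (by norm_num)
  norm_num [Nat.factorial] at this
  push_cast
  nlinarith [sq_nonneg (N : ℝ)]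

lemma mass_band (i0 l w : ℕ) (hl : i0 + l ≤ w) :
    ∑ q ∈ Pr w, (if i0 < lev q ∧ lev q ≤ i0 + l then (1 : ℝ) / q else 0) ≤ l + 13 := by
  rw [← sum_filter]
  have : (Pr w).filter (fun q => i0 < lev q ∧ lev q ≤ i0 + l) =
      (Pr (i0 + l)).filter fun q => i0 < lev q := by
    ext q
    simp only [mem_filter, mem_Pr]
    constructor
    · intro h; exact ⟨⟨h.1.1, h.2.2⟩, h.2.1⟩
    · intro h; exact ⟨⟨h.1.1, by omega⟩, h.2, h.1.2⟩
  rw [this, mass_sub (Nat.le_add_right _ _)]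
  have := mass_le (i0 + l)
  push_cast at this
  linarith [le_mass i0]

lemma mass_low (i0 w : ℕ) :
    ∑ q ∈ Pr w, (if lev q ≤ i0 then (1 : ℝ) / q else 0) ≤ i0 + 4 := by
  rw [← sum_filter]
  refine le_trans (sum_le_sum_of_subset_of_nonneg (fun q hq => ?_) (fun _ _ _ => by positivity))
    (mass_le i0)
  rw [mem_filter, mem_Pr] at hq
  exact mem_Pr.mpr ⟨hq.1.1, hq.2⟩

lemma lv_le {N u i0 p : ℕ} (h : p ∈ GP N u i0) : lv i0 p ≤ u := by
  have := (mem_GP.mp h).2.1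
  unfold lv; omega

lemma B_one {N u M : ℕ} (h : Ok N u) (hM : M ≤ 2 * N ^ 2) (l : Fin M → ℕ) (hl : ∀ j, l j ≤ u)
    (E : ℝ) (W : Finset ℕ)
    (hW : ∀ v ∈ W, v ≠ 0 ∧ (∀ q, q.Prime → q ∣ v → lev q ≤ N ^ 5 ∨ ∃ j, lev q ≤ N ^ 5 + l j) ∧
      ∑ k ∈ range u, (cn univ l k : ℝ) * log (cn univ l k) - E ≤
        Ad (fl (N ^ 5) fun k => log (cn univ l k)) v) :
    ∑ v ∈ W, (1 : ℝ) / v ≤ exp (-Ph u (cn univ l) + E + (N : ℝ) ^ 56) := by
  classical
  have hn := h.n
  obtain ⟨i0, hi0⟩ : ∃ i0, i0 = N ^ 5 := ⟨_, rfl⟩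
  have hi0' : (i0 : ℝ) = (N : ℝ) ^ 5 := by rw [hi0]; push_cast; ring
  rw [← hi0] at hW
  obtain ⟨f, hf⟩ : ∃ f, f = fl i0 fun k => log (cn univ l k) := ⟨_, rfl⟩
  rw [← hf] at hW
  let P := (Pr (i0 + u)).filter fun q => lev q ≤ i0 ∨ ∃ j, lev q ≤ i0 + l j
  have hPp : ∀ q ∈ P, q.Prime := fun q hq => (mem_Pr.mp (mem_filter.mp hq).1).1
  have hM' : (M : ℝ) ≤ 2 * (N : ℝ) ^ 2 := by exact_mod_cast hM
  have p02 := h.pw 0 2 (by norm_num)
  have p25 := h.pw 2 5 (by norm_num)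
  have hz : ∀ q ∈ P, exp (f q) = (if lev q ≤ i0 then 1 else 0) +
      ∑ j, if i0 < lev q ∧ lev q ≤ i0 + l j then 1 else 0 := by
    intro q hq
    rw [hf]; unfold fl
    split_ifs with h1
    · rw [sum_eq_zero fun j _ => if_neg (by omega)]; simp
    · have e1 : (∑ j, if i0 < lev q ∧ lev q ≤ i0 + l j then (1 : ℝ) else 0) =
          cn univ l (lev q - i0 - 1) := by
        unfold cn
        rw [card_filter]; push_cast
        refine sum_congr rfl fun j _ => ?_
        congr 1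
        apply propext; omega
      have e2 : 0 < cn univ l (lev q - i0 - 1) := by
        obtain ⟨j, hj⟩ := ((mem_filter.mp hq).2).resolve_left h1
        exact card_pos.mpr ⟨j, mem_filter.mpr ⟨mem_univ _, by omega⟩⟩
      rw [e1, exp_log (by exact_mod_cast e2), zero_add]
  have hZ : ∀ q ∈ P, exp (f q) ≤ 3 * (N : ℝ) ^ 2 := by
    intro q hq
    rw [hz q hq]
    have e1 : (∑ j : Fin M, if i0 < lev q ∧ lev q ≤ i0 + l j then (1 : ℝ) else 0) ≤ ∑ _j : Fin M, 1 :=
      sum_le_sum fun j _ => by split_ifs <;> norm_num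
    simp only [sum_const, card_univ, Fintype.card_fin, nsmul_eq_mul, mul_one] at e1
    split_ifs <;> linarith
  have hq34 : ∀ q ∈ P, exp (f q) ≤ 3 / 4 * q := by
    intro q hq
    have e2 : (2 : ℝ) ≤ q := by exact_mod_cast (hPp q hq).two_le
    by_cases h1 : lev q ≤ i0
    · rw [hf]; unfold fl; rw [if_pos h1, exp_zero]; linarith
    · have e1 := lt_log_of_lt_lev (not_le.mp h1)
      have e3 := log_le_sub_one_of_pos (x := q) (by linarith)
      have e4 := add_one_le_exp (i0 : ℝ)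
      linarith [hZ q hq]
  have hEP := EP P hPp f _ hq34 hZ W (fun v hv => ⟨(hW v hv).1, fun q h1 h2 => by
    have e := (hW v hv).2.1 q h1 h2
    refine mem_filter.mpr ⟨mem_Pr.mpr ⟨h1, ?_⟩, e⟩
    rcases e with e | ⟨j, e⟩
    · omega
    · have := hl j; omega⟩)
  have h1 : ∑ q ∈ P, exp (f q) / q ≤ i0 + 4 + ∑ j, ((l j : ℝ) + 13) := by
    calc _ = ∑ q ∈ P, ((if lev q ≤ i0 then (1 : ℝ) / q else 0) +
          ∑ j, if i0 < lev q ∧ lev q ≤ i0 + l j then (1 : ℝ) / q else 0) := by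
          refine sum_congr rfl fun q hq => ?_
          rw [hz q hq, add_div, sum_div]
          congr 1
          · split_ifs <;> simp
          · refine sum_congr rfl fun j _ => by split_ifs <;> simp
      _ ≤ ∑ q ∈ Pr (i0 + u), ((if lev q ≤ i0 then (1 : ℝ) / q else 0) +
          ∑ j, if i0 < lev q ∧ lev q ≤ i0 + l j then (1 : ℝ) / q else 0) := by
          apply sum_le_sum_of_subset_of_nonneg (filter_subset _ _)
          intro q _ _
          apply add_nonneg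
          · split_ifs <;> positivity
          · exact sum_nonneg fun j _ => by split_ifs <;> positivity
      _ ≤ _ := by
          rw [sum_add_distrib, sum_comm]
          exact add_le_add (mass_low _ _)
            (sum_le_sum fun j _ => mass_band i0 (l j) _ (by have := hl j; omega))
  have h2 : ∑ j, ((l j : ℝ) + 13) = ∑ k ∈ range u, (cn univ l k : ℝ) + 13 * M := by
    have := sum_cn univ l u (fun j _ => hl j) (fun _ => 1)
    simp only [mul_one, sum_const, card_range, nsmul_eq_mul] at this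
    rw [sum_add_distrib, this]; simp [mul_comm]
  have h3 : ∑ v ∈ W, (1 : ℝ) / v ≤
      exp (-(∑ k ∈ range u, (cn univ l k : ℝ) * log (cn univ l k)) + E) *
        ∑ v ∈ W, exp (Ad f v) / v := by
    rw [mul_sum]
    apply sum_le_sum
    intro v hv
    rw [← mul_div_assoc, ← exp_add]
    gcongr
    apply one_le_exp
    linarith [(hW v hv).2.2]
  refine h3.trans ((mul_le_mul_of_nonneg_left hEP (exp_pos _).le).trans ?_)
  rw [← exp_add]
  apply exp_le_exp.mpr
  unfold Ph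
  rw [sum_sub_distrib]
  have := h.pw 5 56 (by norm_num)
  have := h.pw 4 5 (by norm_num)
  nlinarith

lemma card_profiles {N u : ℕ} (h : Ok N u) (ι : Type*) [Fintype ι] [DecidableEq ι] :
    ((Fintype.piFinset fun _ : ι => range (u + 1)).card : ℝ) ≤ exp (101 * N * Fintype.card ι) := by
  rw [Fintype.card_piFinset, prod_const, card_range, card_univ]
  push_cast
  rw [mul_comm, exp_nat_mul]
  gcongr
  linarith [h.u1]

lemma B_core {N u M : ℕ} (h : Ok N u) (hM : M ≤ 2 * N ^ 2) (θ : ℝ) (V : Finset ℕ)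
    (hV : ∀ v ∈ V, ∃ t ∈ Adm N u (N ^ 5) M, ∃ r : ℕ, (r = 1 ∨ r.Prime) ∧ v * r = val t ∧
      θ ≤ Ph u (cn t.1 (lv (N ^ 5)))) :
    ∑ v ∈ V, (1 : ℝ) / v ≤ exp (-θ + 8 * (N : ℝ) ^ 56) := by
  classical
  have hn := h.n
  have hM' : (M : ℝ) ≤ 2 * (N : ℝ) ^ 2 := by exact_mod_cast hM
  have h1 := un_bound V (Fintype.piFinset fun _ : Fin M => range (u + 1))
    (fun l v => θ ≤ Ph u (cn univ l) ∧ v ≠ 0 ∧
      (∀ q, q.Prime → q ∣ v → lev q ≤ N ^ 5 ∨ ∃ j, lev q ≤ N ^ 5 + l j) ∧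
      ∑ k ∈ range u, (cn univ l k : ℝ) * log (cn univ l k) - 5 * (N : ℝ) ^ 56 ≤
        Ad (fl (N ^ 5) fun k => log (cn univ l k)) v) (fun v => (1 : ℝ) / v)
    (fun _ _ => by positivity) (fun v hv => by
      obtain ⟨t, ht, r, hr, hvr, hθ⟩ := hV v hv
      obtain ⟨t1, t2, t3⟩ := mem_Adm.mp ht
      obtain ⟨f, f1, -, f3, f4⟩ := enum M t.1 t2
      have hfp : ∀ j, (f j).Prime := fun j => (f1 j).elim (fun e => (mem_GP.mp (t1 e)).1)
        (fun e => e ▸ Nat.prime_two)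
      have hl : ∀ j, lv (N ^ 5) (f j) ≤ u := fun j => (f1 j).elim (fun e => lv_le (t1 e))
        (fun e => by rw [e, lv_two]; omega)
      have hv0 := val_ne_zero ht
      rw [← hvr] at hv0
      rw [cn_enum (N ^ 5) f3] at hθ
      refine ⟨fun j => lv (N ^ 5) (f j), Fintype.mem_piFinset.mpr fun j =>
        mem_range.mpr (Nat.lt_succ_of_le (hl j)), hθ, left_ne_zero_of_mul hv0, ?_, ?_⟩
      · intro q q1 q2
        have e : q ∣ t.2 * ∏ j, (f j - 1) := by
          rw [← f4]; exact (q2.mul_right r).trans (dvd_of_eq hvr)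
        rcases (Nat.Prime.dvd_mul q1).mp e with e | e
        · exact Or.inl ((Bl_sm t3).2 q q1 e)
        · obtain ⟨j, -, hj⟩ := (Prime.dvd_finset_prod_iff q1.prime _).mp e
          have := (Sm.pred (hfp j)).2 q q1 hj
          exact Or.inr ⟨j, by simp only [lv]; omega⟩
      · obtain ⟨τ, hτ⟩ : ∃ τ : ℕ → ℝ, τ = fun k => log (cn univ (fun j => lv (N ^ 5) (f j)) k) :=
          ⟨_, rfl⟩
        have τ1 : ∀ k, τ (k + 1) ≤ τ k := fun k => hτ ▸ log_nat_mono (cn_anti _ _ k)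
        have τ2 : ∀ k, 0 ≤ τ k := fun k => hτ ▸ log_natCast_nonneg _
        have τ3 : ∀ k, τ k ≤ N := fun k => hτ ▸ log_le_N h ((cn_le _ _ _).trans (by simpa using hM))
        have e0 : ∀ k, log (cn univ (fun j => lv (N ^ 5) (f j)) k) = τ k := fun k => by rw [hτ]
        simp only [e0]
        rw [sum_cn univ _ u (fun j _ => hl j)]
        have e1 : Ad (fl (N ^ 5) τ) v + Ad (fl (N ^ 5) τ) r = ∑ j, Ad (fl (N ^ 5) τ) (f j - 1) := by
          rw [← Ad_mul _ (left_ne_zero_of_mul hv0) (right_ne_zero_of_mul hv0), hvr, val,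
            Ad_mul _ (Bl_sm t3).1 (pv_ne_zero fun p hp => (mem_GP.mp (t1 hp)).1),
            Ad_fl_sm _ (Bl_sm t3), zero_add, f4,
            Ad_prod _ _ _ fun j _ => by have := (hfp j).two_le; omega]
        have e2 : Ad (fl (N ^ 5) τ) r ≤ N := by
          rcases hr with rfl | hr
          · simp
          · rw [Ad_prime _ hr]; unfold fl; split_ifs
            exacts [by linarith, τ3 _]
        have e3 : ∑ j, (∑ k ∈ range (lv (N ^ 5) (f j)), τ k - 2 * (N : ℝ) ^ 53 * N) ≤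
            ∑ j, Ad (fl (N ^ 5) τ) (f j - 1) := by
          apply sum_le_sum
          intro j _
          rcases f1 j with e | e
          · obtain ⟨g1, g2, g3, g4⟩ := mem_GP.mp (t1 e)
            have := (abs_le.mp (row_bound g1 g4 g3.le τ τ1 τ2)).1
            have : 2 * (N : ℝ) ^ 53 * τ 0 ≤ 2 * (N : ℝ) ^ 53 * N := by gcongr; exact τ3 0
            linarith
          · rw [e, lv_two]; simp; positivity
        rw [sum_sub_distrib] at e3
        simp only [sum_const, card_univ, Fintype.card_fin, nsmul_eq_mul] at e3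
        have e4 : (M : ℝ) * (2 * (N : ℝ) ^ 53 * N) ≤ 2 * (N : ℝ) ^ 2 * (2 * (N : ℝ) ^ 53 * N) := by
          gcongr
        have := h.pw 1 56 (by norm_num)
        nlinarith)
    (fun _ => exp (-θ + 6 * (N : ℝ) ^ 56)) (fun l hl W hW => by
      rcases W.eq_empty_or_nonempty with rfl | ⟨v, hv⟩
      · simp [exp_nonneg]
      refine (B_one h hM l (fun j => Nat.le_of_lt_succ (mem_range.mp
        (Fintype.mem_piFinset.mp hl j))) _ W fun v hv => (hW v hv).2.2).trans ?_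
      apply exp_le_exp.mpr
      linarith [(hW v hv).2.1])
  rw [sum_const, nsmul_eq_mul] at h1
  have h2 := card_profiles h (Fin M)
  calc _ ≤ exp (101 * N * Fintype.card (Fin M)) * exp (-θ + 6 * (N : ℝ) ^ 56) :=
        h1.trans (by gcongr)
    _ ≤ _ := by
      rw [← exp_add]
      apply exp_le_exp.mpr
      have := h.pw 3 56 (by norm_num)
      simp only [Fintype.card_fin]
      nlinarith

end Vale.Agent.P031
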