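import Vale.Agent.P031.Mertens
import Vale.Agent.P003.Basic

/-! An upper bound sieve. -/

namespace Vale.Agent.P031

open Finset Real Vale.Agent.P003

lemma sum_pow_card_le (Q : Finset ℕ) (κ : ℝ) (hκ : 0 ≤ κ) (k : ℕ) :
    ∑ D ∈ Q.powerset with D.card ≤ k, κ ^ D.card ≤ 3 * (κ * Q.card + 1) ^ k := by
  set w : ℝ := κ * Q.card + 1 with hw
  have hw1 : 1 ≤ w := by rw [hw]; nlinarith [Nat.cast_nonneg (α := ℝ) Q.card]
  have hw0 : 0 < w := by linarith
  calc _ ≤ ∑ D ∈ Q.powerset with D.card ≤ k, w ^ k * ∏ _q ∈ D, (κ / w) := by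
        apply sum_le_sum
        intro D hD
        have hD' := (mem_filter.mp hD).2
        rw [prod_const, div_pow, ← mul_div_assoc, le_div_iff₀ (by positivity), mul_comm]
        gcongr
    _ ≤ ∑ D ∈ Q.powerset, w ^ k * ∏ _q ∈ D, (κ / w) :=
        sum_le_sum_of_subset_of_nonneg (filter_subset _ _) (fun _ _ _ => by positivity)
    _ = w ^ k * ∏ _q ∈ Q, (1 + κ / w) := by rw [prod_one_add, mul_sum]
    _ ≤ w ^ k * ∏ _q ∈ Q, exp (κ / w) := by
        gcongr with q _
        linarith [add_one_le_exp (κ / w)]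
    _ ≤ w ^ k * exp 1 := by
        rw [← exp_sum, sum_const, nsmul_eq_mul]
        gcongr
        rw [← mul_div_assoc, div_le_one hw0, hw]; linarith
    _ ≤ w ^ k * 3 := by gcongr; linarith [exp_one_lt_d9]
    _ = _ := by ring

lemma sieve_core (Q : Finset ℕ) (hQ : ∀ q ∈ Q, q.Prime) (κ : ℝ) (hκ : 0 ≤ κ) (I : ℕ → ℕ → ℝ)
    (h01 : ∀ q ∈ Q, ∀ n, I q n = 0 ∨ I q n = 1) (hL : ∀ q ∈ Q, Low q (I q) κ)
    (hav : ∀ q ∈ Q, ∀ P, 0 < P → q ∣ P → av P (I q) = κ / q) (k X : ℕ) (S : Finset ℕ)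
    (hS : ∀ n ∈ S, n < X ∧ ∀ q ∈ Q, I q n = 0) :
    (S.card : ℝ) ≤ X * (exp (-(κ * ∑ q ∈ Q, (1 : ℝ) / q)) + exp (-k + 11 * κ * ∑ q ∈ Q, (1 : ℝ) / q))
      + (3 * (κ * Q.card + 1) ^ k) ^ 2 := by
  classical
  set P := ∏ q ∈ Q, q with hP
  have hP0 : 0 < P := prod_pos fun q hq => (hQ q hq).pos
  have hdv : ∀ q ∈ Q, q ∣ P := fun q hq => dvd_prod_of_mem _ hq
  have hI0 : ∀ q ∈ Q, ∀ n, 0 ≤ I q n := fun q hq n => by rcases h01 q hq n with h | h <;> simp [h]
  let g : ℕ → ℝ := fun n => ∑ D ∈ Q.powerset with D.card ≤ k, ∏ q ∈ D, (-1) * I q n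
  have hgL : Low P g (3 * (κ * Q.card + 1) ^ k) := by
    refine Low.mono (Low.sum _ (c := fun D => κ ^ D.card) fun D hD => ?_)
      (sum_pow_card_le Q κ hκ k)
    have hDQ := mem_powerset.mp (mem_filter.mp hD).1
    have := Low.prod D (P := P) (f := fun q n => (-1) * I q n) (c := fun _ => κ) fun q hq => by
      simpa using ((hL q (hDQ hq)).of_dvd (hdv q (hDQ hq))).smul (-1)
    simpa using this
  have hsq : Low P (fun n => g n * g n) ((3 * (κ * Q.card + 1) ^ k) ^ 2) := by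
    rw [sq]; exact hgL.mul hgL
  have htr := (abs_le.mp (hsq.transfer hP0 X)).2
  have hg1 : ∀ n ∈ S, g n = 1 := by
    intro n hn
    simp only [g]
    rw [sum_eq_single ∅]
    · simp
    · intro D hD hne
      obtain ⟨q, hq⟩ := nonempty_iff_ne_empty.mpr hne
      apply prod_eq_zero hq
      rw [(hS n hn).2 q (mem_powerset.mp (mem_filter.mp hD).1 hq)]; simp
    · intro h; simp at h
  have h1 : (S.card : ℝ) ≤ ∑ n ∈ range X, g n * g n := by
    calc (S.card : ℝ) = ∑ n ∈ S, g n * g n := by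
          rw [sum_congr rfl fun n hn => by rw [hg1 n hn]]; simp
      _ ≤ _ := sum_le_sum_of_subset_of_nonneg (fun n hn => mem_range.mpr (hS n hn).1)
          (fun _ _ _ => mul_self_nonneg _)
  have he : (1 : ℝ) ≤ exp 1 := one_le_exp (by norm_num)
  have hpt : ∀ n, g n * g n ≤ ∏ q ∈ Q, (1 + (-1) * I q n)
      + exp (-k) * ∏ q ∈ Q, (1 + (4 * exp 1 - 1) * I q n) := by
    intro n
    have hA : 0 ≤ ∏ q ∈ Q, (1 + (-1) * I q n) := prod_nonneg fun q hq => by
      rcases h01 q hq n with h | h <;> simp [h]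
    have hB : 0 ≤ exp (-k) * ∏ q ∈ Q, (1 + (4 * exp 1 - 1) * I q n) := by
      apply mul_nonneg (exp_pos _).le
      apply prod_nonneg fun q hq => ?_
      have := hI0 q hq n
      have : 0 ≤ 4 * exp 1 - 1 := by linarith
      positivity
    by_cases hJ : (Q.filter fun q => I q n = 1).card ≤ k
    · have e1 : g n = ∏ q ∈ Q, (1 + (-1) * I q n) := by
        rw [prod_one_add]
        simp only [g]
        apply sum_subset (filter_subset _ _)
        intro D hD hD'
        have hDQ := mem_powerset.mp hD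
        have hc : ¬ D.card ≤ k := fun h => hD' (mem_filter.mpr ⟨hD, h⟩)
        have : ¬ D ⊆ Q.filter fun q => I q n = 1 := fun h => hc ((card_le_card h).trans hJ)
        obtain ⟨q, hq, hq'⟩ := not_subset.mp this
        apply prod_eq_zero hq
        rcases h01 q (hDQ hq) n with h | h
        · simp [h]
        · exact absurd (mem_filter.mpr ⟨hDQ hq, h⟩) hq'
      have e2 : ∏ q ∈ Q, (1 + (-1) * I q n) ≤ 1 := prod_le_one (fun q hq => by
        rcases h01 q hq n with h | h <;> simp [h]) (fun q hq => by linarith [hI0 q hq n])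
      rw [e1]; nlinarith
    · have e1 : |g n| ≤ ∏ q ∈ Q, (1 + I q n) := by
        rw [prod_one_add]
        refine (abs_sum_le_sum_abs _ _).trans ?_
        calc _ = ∑ D ∈ Q.powerset with D.card ≤ k, ∏ q ∈ D, I q n := by
              refine sum_congr rfl fun D hD => ?_
              have hDQ := mem_powerset.mp (mem_filter.mp hD).1
              rw [abs_prod]
              refine prod_congr rfl fun q hq => ?_
              rw [abs_mul, abs_neg, abs_one, one_mul, abs_of_nonneg (hI0 q (hDQ hq) n)]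
          _ ≤ _ := sum_le_sum_of_subset_of_nonneg (filter_subset _ _) (fun D hD _ =>
              prod_nonneg fun q hq => hI0 q (mem_powerset.mp hD hq) n)
      have e2 : (1 : ℝ) ≤ exp (-k) * ∏ q ∈ Q, (1 + (exp 1 - 1) * I q n) := by
        have : ∏ q ∈ Q, (1 + (exp 1 - 1) * I q n) = exp ((Q.filter fun q => I q n = 1).card) := by
          rw [card_filter]; push_cast
          rw [exp_sum]
          refine prod_congr rfl fun q hq => ?_
          rcases h01 q hq n with h | h <;> simp [h]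
        rw [this, ← exp_add]
        apply one_le_exp
        have : (k : ℝ) ≤ (Q.filter fun q => I q n = 1).card := by exact_mod_cast (not_le.mp hJ).le
        linarith
      have e3 : ∏ q ∈ Q, (1 + (4 * exp 1 - 1) * I q n) =
          (∏ q ∈ Q, (1 + I q n)) ^ 2 * ∏ q ∈ Q, (1 + (exp 1 - 1) * I q n) := by
        rw [← prod_pow, ← prod_mul_distrib]
        refine prod_congr rfl fun q hq => ?_
        rcases h01 q hq n with h | h
        · simp [h]
        · rw [h]; ring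
      have e4 : g n * g n ≤ (∏ q ∈ Q, (1 + I q n)) ^ 2 := by
        rw [← sq, ← sq_abs]; gcongr
      rw [e3]
      nlinarith [sq_nonneg (∏ q ∈ Q, (1 + I q n))]
  have hind : ∀ c : ℝ, av P (fun n => ∏ q ∈ Q, (1 + c * I q n)) = ∏ q ∈ Q, (1 + c * (κ / q)) := by
    intro c
    rw [av_prod_indep hP0 Q (fun q => q) (fun q n => 1 + c * I q n) hdv
      (fun i hi j hj hij => (Nat.coprime_primes (hQ i hi) (hQ j hj)).mpr hij)
      (fun q hq n => by simp only; rw [(hL q hq).periodic n])]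
    refine prod_congr rfl fun q hq => ?_
    rw [av_add, av_const hP0, av_const_mul, hav q hq P hP0 (hdv q hq)]
  have hav2 : av P (fun n => g n * g n) ≤ exp (-(κ * ∑ q ∈ Q, (1 : ℝ) / q))
      + exp (-k + 11 * κ * ∑ q ∈ Q, (1 : ℝ) / q) := by
    refine (av_mono P hpt).trans ?_
    rw [av_add, av_const_mul, hind, hind]
    apply add_le_add
    · rw [mul_sum, ← sum_neg_distrib, exp_sum]
      apply prod_le_prod
      · intro q hq
        rw [← hav q hq P hP0 (hdv q hq)]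
        have := av_mono P (f := I q) (g := fun _ => 1) (fun n => by
          rcases h01 q hq n with h | h <;> simp [h])
        rw [av_const hP0] at this
        linarith
      · intro q _
        have := add_one_le_exp (-(κ * (1 / q)))
        rw [mul_one_div] at this ⊢
        linarith
    · rw [exp_add, mul_sum, exp_sum]
      gcongr with q hq
      · intro q _
        have : 0 ≤ 4 * exp 1 - 1 := by linarith
        positivity
      · have := add_one_le_exp (11 * κ * (1 / q))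
        have h2 : (4 * exp 1 - 1) * (κ / q) ≤ 11 * (κ / q) := by
          gcongr; linarith [exp_one_lt_d9]
        rw [mul_assoc, mul_one_div] at this ⊢
        linarith
  have : (X : ℝ) * av P (fun n => g n * g n) ≤ X * (exp (-(κ * ∑ q ∈ Q, (1 : ℝ) / q))
      + exp (-k + 11 * κ * ∑ q ∈ Q, (1 : ℝ) / q)) := by gcongr
  linarith

lemma exists_ind_lin {q m : ℕ} (hq : q.Prime) (hm : ¬ q ∣ m) :
    ∃ c, ∀ n, dv q (n * m + 1) = ind c q n := by
  haveI := Fact.mk hq
  have hm' : (m : ZMod q) ≠ 0 := by rwa [Ne, ZMod.natCast_eq_zero_iff]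
  refine ⟨(-(m : ZMod q)⁻¹).val, fun n => ?_⟩
  unfold dv ind
  have : q ∣ n * m + 1 ↔ n ≡ (-(m : ZMod q)⁻¹).val [MOD q] := by
    rw [← ZMod.natCast_eq_zero_iff, ← ZMod.natCast_eq_natCast_iff, ZMod.natCast_zmod_val]
    push_cast
    constructor
    · intro h
      field_simp
      linear_combination h
    · intro h
      rw [h]; field_simp; ring
  simp [this]

lemma card_primeFactors_le {G : ℕ} (hG : G ≠ 0) : (G.primeFactors.card : ℝ) ≤ 2 * log G := by
  have h1 := sum_log_primeFactors_le hG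
  have h2 : (G.primeFactors.card : ℝ) * (1 / 2) ≤ ∑ p ∈ G.primeFactors, log p := by
    rw [← nsmul_eq_mul]
    apply card_nsmul_le_sum
    intro p hp
    have : (2 : ℝ) ≤ p := by exact_mod_cast (Nat.prime_of_mem_primeFactors hp).two_le
    have := log_le_log (by norm_num) this
    linarith [log_two_gt_d9]
  linarith

/-- the sieve constant -/
noncomputable def Ds (u : ℕ) : ℝ := exp 68 * (u + 4) ^ 6

lemma seven_le_exp_two : (7 : ℝ) ≤ exp 2 := by
  rw [show (2 : ℝ) = 1 + 1 by norm_num, exp_add]; nlinarith [exp_one_gt_d9]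

set_option maxHeartbeats 1000000 in
lemma sieve_num (u k s j c : ℕ) (T ρ σ κ nQ nS : ℝ) (hms : c ≤ 2) (hκ : κ = c + 1) (hκ3 : κ ≤ 3)
    (hκ0 : 0 ≤ κ) (hT : 0 ≤ T) (hρ : 0 < ρ) (hk' : (k : ℝ) = 36 * (u + 4)) (hsm : 24 * (k : ℝ) < ρ)
    (hTρ : exp ρ ≤ T) (hk0 : (144 : ℝ) ≤ k) (hT1 : 1 ≤ T) (hs1 : exp s ≤ ρ / (8 * k))
    (hs2 : ρ / (8 * k) ≤ exp (s + 1)) (hs3 : 2 ≤ exp s) (hj2 : exp j ≤ exp 1 * (u + 2))
    (hσ0 : 0 ≤ σ) (hσ1 : σ ≤ u + 4) (hσ2 : (s : ℝ) - j - 14 ≤ σ) (hQ0 : 0 ≤ nQ) (e1 : nQ ≤ Y s)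
    (hcore : nS ≤ ((⌊T⌋₊ + 1 : ℕ) : ℝ) * (exp (-(κ * σ)) + exp (-k + 11 * κ * σ))
      + (3 * (κ * nQ + 1) ^ k) ^ 2) : nS * ρ ^ (c + 1) ≤ Ds u * T := by
  have hu0 : (0 : ℝ) ≤ u := Nat.cast_nonneg u
  obtain ⟨D1, hD1⟩ : ∃ D1 : ℝ, D1 = exp 22 * (u + 4) ^ 2 := ⟨_, rfl⟩
  have hD1' : exp (-σ) ≤ D1 / ρ := by
    rw [le_div_iff₀ hρ]
    have e1 : ρ ≤ 8 * k * exp (s + 1) := by
      rw [div_le_iff₀ (by positivity)] at hs2; linarith
    have e2 : exp (-σ) * exp (s + 1) ≤ exp 15 * exp j := by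
      rw [← exp_add, ← exp_add]; apply exp_le_exp.mpr; linarith
    have e3 : (288 : ℝ) ≤ exp 6 := by
      have h7 := seven_le_exp_two
      calc (288 : ℝ) ≤ 7 ^ 3 := by norm_num
        _ ≤ (exp 2) ^ 3 := by gcongr
        _ = exp 6 := by rw [← exp_nat_mul]; norm_num
    calc exp (-σ) * ρ ≤ exp (-σ) * (8 * k * exp (s + 1)) := by gcongr
      _ = 8 * k * (exp (-σ) * exp (s + 1)) := by ring
      _ ≤ 8 * k * (exp 15 * (exp 1 * (u + 4))) := by
          have e4 : exp j ≤ exp 1 * (u + 4) := hj2.trans (by gcongr; norm_num)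
          have e5 : exp (-σ) * exp (s + 1) ≤ exp 15 * (exp 1 * (u + 4)) :=
            e2.trans (mul_le_mul_of_nonneg_left e4 (exp_pos _).le)
          exact mul_le_mul_of_nonneg_left e5 (by positivity)
      _ = 288 * (exp 15 * exp 1) * (u + 4) ^ 2 := by rw [hk']; ring
      _ ≤ exp 6 * (exp 15 * exp 1) * (u + 4) ^ 2 := by gcongr
      _ = D1 := by rw [hD1, ← exp_add, ← exp_add]; norm_num
  have hD10 : 10 ≤ D1 := by
    have := add_one_le_exp (22 : ℝ)
    rw [hD1]; nlinarith only [this, hu0]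
  have hA : exp (-(κ * σ)) * ρ ^ (c + 1) ≤ D1 ^ 3 := by
    have : exp (-(κ * σ)) = exp (-σ) ^ (c + 1) := by
      rw [← exp_nat_mul, hκ]; push_cast; ring_nf
    rw [this, ← mul_pow]
    calc _ ≤ D1 ^ (c + 1) := by
          gcongr; rwa [le_div_iff₀ hρ] at hD1'
      _ ≤ _ := pow_le_pow_right₀ (by linarith) (by omega)
  have hB : exp (-k + 11 * κ * σ) ≤ exp (-(κ * σ)) := by
    apply exp_le_exp.mpr
    have : κ * σ ≤ 3 * (u + 4) := by gcongr
    rw [hk']; linarith
  have hC : (3 * (κ * nQ + 1) ^ k) ^ 2 ≤ 9 * exp (ρ / 2) := by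
    have e2 : (Y s : ℝ) ≤ exp (exp s) := Nat.floor_le (exp_pos _).le
    have e3 : κ * nQ + 1 ≤ exp (2 * exp s) := by
      have e4 : (4 : ℝ) ≤ exp (exp s) := by
        have : exp 2 ≤ exp (exp s) := by gcongr
        linarith only [this, seven_le_exp_two]
      have e5 : κ * nQ ≤ 3 * exp (exp s) := by gcongr; linarith
      rw [two_mul, exp_add]; nlinarith only [e4, e5]
    calc _ = 9 * ((κ * nQ + 1) ^ k) ^ 2 := by ring
      _ ≤ 9 * (exp (2 * exp s) ^ k) ^ 2 := by gcongr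
      _ = 9 * exp (4 * k * exp s) := by
          rw [← exp_nat_mul, ← exp_nat_mul]; congr 2; push_cast; ring
      _ ≤ _ := by
          gcongr
          rw [le_div_iff₀ (by positivity)] at hs1; linarith
  have hE : exp (ρ / 2) * ρ ^ (c + 1) ≤ 48 * T := by
    have e1 : ρ ^ (c + 1) ≤ ρ ^ 3 := pow_le_pow_right₀ (by linarith) (by omega)
    have e2 := Real.pow_div_factorial_le_exp (x := ρ / 2) (by positivity) 3
    have e3 : ρ ^ 3 ≤ 48 * exp (ρ / 2) := by
      norm_num [Nat.factorial] at e2; nlinarith only [e2]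
    calc _ ≤ exp (ρ / 2) * (48 * exp (ρ / 2)) := by gcongr; exact e1.trans e3
      _ = 48 * exp ρ := by rw [mul_left_comm, ← exp_add]; ring_nf
      _ ≤ _ := by gcongr
  have hX : ((⌊T⌋₊ + 1 : ℕ) : ℝ) ≤ 2 * T := by
    push_cast; linarith [Nat.floor_le hT]
  have hF : 5 * D1 ^ 3 ≤ Ds u := by
    have e5 : (5 : ℝ) ≤ exp 2 := by linarith only [seven_le_exp_two]
    calc 5 * D1 ^ 3 ≤ exp 2 * D1 ^ 3 := by gcongr
      _ = Ds u := by
        rw [hD1, Ds, mul_pow, ← exp_nat_mul, ← mul_assoc, ← exp_add, ← pow_mul]; norm_num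
  have hρp : 0 < ρ ^ (c + 1) := by positivity
  calc nS * ρ ^ (c + 1)
      ≤ (2 * T * (exp (-(κ * σ)) + exp (-(κ * σ))) + 9 * exp (ρ / 2)) * ρ ^ (c + 1) := by
        gcongr
        refine hcore.trans ?_
        gcongr
    _ = 4 * T * (exp (-(κ * σ)) * ρ ^ (c + 1)) + 9 * (exp (ρ / 2) * ρ ^ (c + 1)) := by
        ring
    _ ≤ 4 * T * D1 ^ 3 + 9 * (48 * T) := by gcongr
    _ ≤ 5 * D1 ^ 3 * T := by
        have : (1000 : ℝ) ≤ D1 ^ 3 := by
          calc (1000 : ℝ) = 10 ^ 3 := by norm_num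
            _ ≤ _ := by gcongr
        nlinarith only [this, hT]
    _ ≤ _ := by gcongr

set_option maxHeartbeats 1000000 in
lemma sieve (u : ℕ) (ms : Finset ℕ) (hms : ms.card ≤ 2) (hm0 : ∀ m ∈ ms, m ≠ 0) (G : ℕ) (hG : G ≠ 0)
    (hGu : log G ≤ 3 * exp u)
    (hGq : ∀ q, q.Prime → ¬ q ∣ G → (∀ m ∈ ms, ¬ q ∣ m) ∧ ∀ m ∈ ms, ∀ m' ∈ ms, m ≡ m' [MOD q] → m = m')
    (T ρ : ℝ) (hT : 0 ≤ T) (hρ : 0 < ρ) (hρu : ρ ≤ exp u) (S : Finset ℕ)
    (hS : ∀ r ∈ S, r.Prime ∧ (r : ℝ) ≤ T ∧ ρ ≤ log r ∧ ∀ m ∈ ms, (r * m + 1).Prime) :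
    (S.card : ℝ) ≤ Ds u * T / ρ ^ (ms.card + 1) := by
  classical
  have hu0 : (0 : ℝ) ≤ u := Nat.cast_nonneg u
  have he68 : (864 : ℝ) ^ 3 ≤ exp 68 := by
    have : (864 : ℝ) ≤ exp 20 := by
      have := Real.pow_div_factorial_le_exp (x := 20) (by norm_num) 3
      norm_num [Nat.factorial] at this; linarith
    calc (864 : ℝ) ^ 3 ≤ (exp 20) ^ 3 := by gcongr
      _ = exp 60 := by rw [← exp_nat_mul]; norm_num
      _ ≤ exp 68 := by gcongr; norm_num
  obtain ⟨k, hk⟩ : ∃ k : ℕ, k = 36 * (u + 4) := ⟨_, rfl⟩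
  have hk' : (k : ℝ) = 36 * (u + 4) := by rw [hk]; push_cast; ring
  rw [le_div_iff₀ (by positivity)]
  by_cases hsm : ρ ≤ 24 * k
  · have h1 : (S.card : ℝ) ≤ T := by
      have : S ⊆ Ioc 0 ⌊T⌋₊ := fun r hr =>
        mem_Ioc.mpr ⟨(hS r hr).1.pos, Nat.le_floor (hS r hr).2.1⟩
      have h2 := card_le_card this
      simp only [Nat.card_Ioc, tsub_zero] at h2
      exact le_trans (by exact_mod_cast h2) (Nat.floor_le hT)
    have h2 : ρ ^ (ms.card + 1) ≤ Ds u := by
      calc ρ ^ (ms.card + 1) ≤ (864 * (u + 4)) ^ (ms.card + 1) := by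
            gcongr; rw [hk'] at hsm; linarith
        _ ≤ (864 * (u + 4)) ^ 3 := pow_le_pow_right₀ (by linarith) (by omega)
        _ = 864 ^ 3 * (u + 4) ^ 3 := by ring
        _ ≤ exp 68 * (u + 4) ^ 6 := by
            gcongr
            · linarith
            · norm_num
    rw [mul_comm (Ds u)]
    gcongr
  push Not at hsm
  rcases S.eq_empty_or_nonempty with rfl | ⟨r0, hr0⟩
  · simp only [card_empty, Nat.cast_zero, zero_mul, Ds]; positivity
  have hTρ : exp ρ ≤ T := by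
    have h := hS r0 hr0
    have : (0 : ℝ) < r0 := by exact_mod_cast h.1.pos
    exact ((le_log_iff_exp_le this).mp h.2.2.1).trans h.2.1
  have hk0 : (144 : ℝ) ≤ k := by rw [hk']; linarith
  have hT1 : 1 ≤ T := (one_le_exp hρ.le).trans hTρ
  have h3 : 3 ≤ ρ / (8 * k) := by rw [le_div_iff₀ (by positivity)]; linarith
  obtain ⟨s, hs⟩ : ∃ s : ℕ, s = ⌊log (ρ / (8 * k))⌋₊ := ⟨_, rfl⟩
  have hlog3 : 1 ≤ log (ρ / (8 * k)) := by
    rw [le_log_iff_exp_le (by linarith)]; linarith [exp_one_lt_d9]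
  have hs1 : exp s ≤ ρ / (8 * k) := by
    rw [← le_log_iff_exp_le (by linarith), hs]; exact Nat.floor_le (by linarith)
  have hs2 : ρ / (8 * k) ≤ exp (s + 1) := by
    rw [← log_le_iff_le_exp (by linarith), hs]; exact (Nat.lt_floor_add_one _).le
  have hs3 : 2 ≤ exp s := by
    have : 1 ≤ s := hs ▸ Nat.le_floor (by simpa using hlog3)
    have : (1 : ℝ) ≤ s := by exact_mod_cast this
    linarith [add_one_le_exp (s : ℝ)]
  have hsρ : exp s < ρ := by
    have : ρ / (8 * k) < ρ := div_lt_self hρ (by linarith)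
    linarith
  have hsu : (s : ℝ) ≤ u := exp_le_exp.mp (hsρ.le.trans hρu)
  obtain ⟨j, hj⟩ : ∃ j : ℕ, j = ⌈log (u + 2)⌉₊ := ⟨_, rfl⟩
  have hj1 : (u : ℝ) + 2 ≤ exp j := by
    rw [← log_le_iff_le_exp (by linarith), hj]; exact Nat.le_ceil _
  have hj2 : exp j ≤ exp 1 * (u + 2) := by
    have : (j : ℝ) < log (u + 2) + 1 := hj ▸ Nat.ceil_lt_add_one (log_nonneg (by linarith))
    calc exp j ≤ exp (log (u + 2) + 1) := by gcongr
      _ = _ := by rw [exp_add, exp_log (by linarith)]; ring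
  obtain ⟨Q, hQ⟩ : ∃ Q, Q = (Pr s).filter fun q => j < lev q ∧ ¬ q ∣ G := ⟨_, rfl⟩
  have hQs : Q ⊆ Pr s := hQ ▸ filter_subset _ _
  have hQp : ∀ q ∈ Q, q.Prime := fun q hq => (mem_Pr.mp (hQs hq)).1
  have hQG : ∀ q ∈ Q, ¬ q ∣ G := fun q hq => (mem_filter.mp (hQ ▸ hq)).2.2
  obtain ⟨κ, hκ⟩ : ∃ κ : ℝ, κ = ms.card + 1 := ⟨_, rfl⟩
  have hκ3 : κ ≤ 3 := by
    have : (ms.card : ℝ) ≤ 2 := by exact_mod_cast hms
    linarith
  have hκ0 : 0 ≤ κ := by rw [hκ]; positivity
  have hcore := sieve_core Q hQp κ hκ0 (fun q n => ∑ m ∈ ms, dv q (n * m + 1) + dv q (n + 0))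
    (fun q hq n => by
      have hq' := hQp q hq
      obtain ⟨g1, g2⟩ := hGq q hq' (hQG q hq)
      by_cases hn : q ∣ n
      · right
        rw [sum_eq_zero]
        · simp [dv, hn]
        · intro m _
          have : ¬ q ∣ n * m + 1 := fun h =>
            hq'.one_lt.ne' (Nat.dvd_one.mp ((Nat.dvd_add_right (hn.mul_right m)).mp h))
          simp [dv, this]
      · by_cases hex : ∃ m ∈ ms, q ∣ n * m + 1
        · right
          obtain ⟨m, hm, hd⟩ := hex
          rw [sum_eq_single m]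
          · simp [dv, hn, hd]
          · intro m' hm' hne
            have : ¬ q ∣ n * m' + 1 := fun h => by
              apply hne
              apply g2 m' hm' m hm
              have e1 : n * m' + 1 ≡ n * m + 1 [MOD q] :=
                ((Nat.modEq_zero_iff_dvd).mpr h).trans ((Nat.modEq_zero_iff_dvd).mpr hd).symm
              have e2 := Nat.ModEq.add_right_cancel' 1 e1
              exact Nat.ModEq.cancel_left_of_coprime
                ((Nat.Prime.coprime_iff_not_dvd hq').mpr hn) e2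
            simp [dv, this]
          · intro h; exact absurd hm h
        · left
          rw [sum_eq_zero]
          · simp [dv, hn]
          · intro m hm
            have : ¬ q ∣ n * m + 1 := fun h => hex ⟨m, hm, h⟩
            simp [dv, this])
    (fun q hq => by
      have hq' := hQp q hq
      obtain ⟨g1, _⟩ := hGq q hq' (hQG q hq)
      have := Low.sum ms (P := q) (f := fun m n => dv q (n * m + 1)) (c := fun _ => 1) fun m hm => by
        obtain ⟨c, hc⟩ := exists_ind_lin hq' (g1 m hm)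
        exact (Low.basic c q dvd_rfl).congr fun n => (hc n).symm
      rw [hκ]
      simpa using this.add (Low.dv hq'.pos dvd_rfl 0))
    (fun q hq P hP hd => by
      have hq' := hQp q hq
      obtain ⟨g1, _⟩ := hGq q hq' (hQG q hq)
      rw [av_add, av_sum, av_dv hP hd, sum_congr rfl (g := fun _ => (1 : ℝ) / q) fun m hm => by
        obtain ⟨c, hc⟩ := exists_ind_lin hq' (g1 m hm)
        rw [show (fun n => dv q (n * m + 1)) = ind c q from funext hc, av_ind c hP hd]]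
      rw [sum_const, nsmul_eq_mul, hκ]; ring)
    k (⌊T⌋₊ + 1) S (fun r hr => by
      obtain ⟨p1, p2, p3, p4⟩ := hS r hr
      refine ⟨Nat.lt_succ_of_le (Nat.le_floor p2), fun q hq => ?_⟩
      have hq' := hQp q hq
      have hqr : q < r := by
        have e1 : log q ≤ exp s := lev_le_iff.mp (mem_Pr.mp (hQs hq)).2
        have e2 : log q < log r := by linarith
        have := (log_lt_log_iff (by exact_mod_cast hq'.pos) (by exact_mod_cast p1.pos)).mp e2
        exact_mod_cast this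
      have e1 : ¬ q ∣ r := fun h => by
        have := (Nat.prime_dvd_prime_iff_eq hq' p1).mp h; omega
      rw [sum_eq_zero]
      · simp [dv, e1]
      · intro m hm
        have : ¬ q ∣ r * m + 1 := fun h => by
          have e2 := (Nat.prime_dvd_prime_iff_eq hq' (p4 m hm)).mp h
          have e3 : r ≤ r * m := Nat.le_mul_of_pos_right r (Nat.pos_of_ne_zero (hm0 m hm))
          omega
        simp [dv, this])
  obtain ⟨σ, hσ⟩ : ∃ σ, σ = ∑ q ∈ Q, (1 : ℝ) / q := ⟨_, rfl⟩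
  rw [← hσ] at hcore
  have hσ0 : 0 ≤ σ := hσ ▸ sum_nonneg fun _ _ => by positivity
  have hσ1 : σ ≤ u + 4 := by
    have : σ ≤ mass s := hσ ▸ sum_le_sum_of_subset_of_nonneg hQs
      (fun _ _ _ => by positivity)
    linarith [mass_le s]
  have hσ2 : (s : ℝ) - j - 14 ≤ σ := by
    rcases le_or_gt s j with h | h
    · have : (s : ℝ) ≤ j := by exact_mod_cast h
      linarith
    have e1 := mass_sub h.le
    rw [← sum_filter_add_sum_filter_not _ (fun q => ¬ q ∣ G), filter_filter, filter_filter,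
      ← hQ, ← hσ] at e1
    have e2 : ∑ q ∈ Pr s with j < lev q ∧ ¬¬ q ∣ G, (1 : ℝ) / q ≤ 1 := by
      have e3 : ∑ q ∈ Pr s with j < lev q ∧ ¬¬ q ∣ G, (1 : ℝ) / q ≤
          ((Pr s).filter fun q => j < lev q ∧ ¬¬ q ∣ G).card * exp (-(u + 2)) := by
        rw [← nsmul_eq_mul]
        apply sum_le_card_nsmul
        intro q hq
        rw [mem_filter] at hq
        have e4 := lt_log_of_lt_lev hq.2.1
        have e5 : (0 : ℝ) < q := by exact_mod_cast (mem_Pr.mp hq.1).1.pos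
        rw [exp_neg, one_div]
        apply inv_anti₀ (exp_pos _)
        rw [← le_log_iff_exp_le e5]; linarith
      have e4 : (((Pr s).filter fun q => j < lev q ∧ ¬¬ q ∣ G).card : ℝ) ≤ G.primeFactors.card := by
        norm_cast
        apply card_le_card
        intro q hq
        rw [mem_filter] at hq
        exact Nat.mem_primeFactors.mpr ⟨(mem_Pr.mp hq.1).1, not_not.mp hq.2.2, hG⟩
      have e5 := card_primeFactors_le hG
      have e6 : 6 * exp u * exp (-(u + 2)) ≤ 1 := by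
        rw [mul_assoc, ← exp_add, show (u : ℝ) + -(u + 2) = -2 by ring, exp_neg,
          mul_inv_le_iff₀ (exp_pos _)]
        linarith only [seven_le_exp_two]
      calc _ ≤ _ := e3
        _ ≤ 6 * exp u * exp (-(u + 2)) := by gcongr; linarith
        _ ≤ 1 := e6
    linarith [mass_le j, le_mass s]
  have e1 : (Q.card : ℝ) ≤ Y s := by
    have : Q ⊆ Ioc 0 (Y s) := fun q hq => (mem_filter.mp (hQs hq)).1
    have := card_le_card this
    simp only [Nat.card_Ioc, tsub_zero] at this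
    exact_mod_cast this
  exact sieve_num u k s j ms.card T ρ σ κ Q.card S.card hms hκ hκ3 hκ0 hT hρ hk' hsm hTρ hk0 hT1
    hs1 hs2 hs3 hj2 hσ0 hσ1 hσ2 (Nat.cast_nonneg _) e1 hcore

lemma sieve2 (u m : ℕ) (hm0 : m ≠ 0) (hm : lev m ≤ u)
    (T ρ : ℝ) (hT : 0 ≤ T) (hρ : 0 < ρ) (hρu : ρ ≤ exp u) (S : Finset ℕ)
    (hS : ∀ r ∈ S, r.Prime ∧ (r : ℝ) ≤ T ∧ ρ ≤ log r ∧ (r * m + 1).Prime) :
    (S.card : ℝ) ≤ Ds u * T / ρ ^ 2 := by
  have := sieve u {m} (by simp) (by simpa using hm0) m hm0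
    (by have := lev_le_iff.mp hm; linarith [exp_pos (u : ℝ)]) (fun q _ h => by simpa using h)
    T ρ hT hρ hρu S (by simpa using hS)
  simpa using this

lemma sieve3 (u m m' : ℕ) (hm0 : m ≠ 0) (hm : lev m ≤ u) (hm0' : m' ≠ 0) (hm' : lev m' ≤ u)
    (hne : m ≠ m') (T ρ : ℝ) (hT : 0 ≤ T) (hρ : 0 < ρ) (hρu : ρ ≤ exp u) (S : Finset ℕ)
    (hS : ∀ r ∈ S, r.Prime ∧ (r : ℝ) ≤ T ∧ ρ ≤ log r ∧ (r * m + 1).Prime ∧ (r * m' + 1).Prime) :
    (S.card : ℝ) ≤ Ds u * T / ρ ^ 3 := by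
  wlog hlt : m < m' generalizing m m'
  · exact this m' m hm0' hm' hm0 hm hne.symm
      (fun r hr => by have := hS r hr; tauto) (by omega)
  have h0 : m' - m ≠ 0 := by omega
  have := sieve u {m, m'} (card_le_two) (by simp [hm0, hm0']) (m * m' * (m' - m))
    (by positivity)
    (by
      have e1 := lev_le_iff.mp hm
      have e2 := lev_le_iff.mp hm'
      have e3 := lev_le_iff.mp ((lev_mono (Nat.sub_le m' m)).trans hm')
      rw [Nat.cast_mul, Nat.cast_mul, log_mul (by positivity) (by positivity),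
        log_mul (by positivity) (by positivity)]
      linarith)
    (fun q _ h => by
      have e1 : ¬ q ∣ m := fun h' => h ((h'.mul_right _).mul_right _)
      have e2 : ¬ q ∣ m' := fun h' => h ((h'.mul_left _).mul_right _)
      have e3 : ¬ m ≡ m' [MOD q] := fun h' =>
        h (((Nat.modEq_iff_dvd' hlt.le).mp h').mul_left _)
      have e4 : ¬ m' ≡ m [MOD q] := fun h' => e3 h'.symm
      simp [e1, e2, e3, e4])
    T ρ hT hρ hρu S (by simpa using hS)
  rwa [card_pair hne] at this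

end Vale.Agent.P031
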