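import Vale.Agent.P031.Anti

/-! Exceptional totient values at the top scale. -/

namespace Vale.Agent.P031

open Finset Real

/-- the range of the counting variable -/
structure Rg (N u : ℕ) (y : ℝ) : Prop where
  ok : Ok N u
  hy : y + 1 ≤ Y u
  y1 : 1 ≤ y
  hl : exp (u - 3) ≤ log y

variable {N u : ℕ} {y : ℝ}

lemma Rg.lpos (h : Rg N u y) : 0 < log y := (exp_pos _).trans_le h.hl

lemma Rg.ypos (h : Rg N u y) : 0 < y := by linarith [h.y1]

lemma Rg.lle (h : Rg N u y) : log y ≤ exp u :=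
  (log_le_log h.ypos (by linarith [h.hy])).trans (log_Y_le u)

lemma Rg.big (h : Rg N u y) : 2 * u * (N : ℝ) ^ 102 ≤ log y := by
  have hn := h.ok.n
  have h1 := pow_le_exp N (by linarith) 102
  have h2 := h.ok.u'
  have h3 := h.ok.pw 1 100 (by norm_num)
  have h4 := Real.pow_div_factorial_le_exp (x := u / 2) (by positivity) 2
  norm_num [Nat.factorial] at h4
  have h5 : 2 * (u : ℝ) ≤ exp (u / 2) := by nlinarith
  calc _ ≤ exp (u / 2) * exp ((102 : ℕ) * N) := by gcongr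
    _ ≤ exp (u - 3) := by rw [← exp_add]; apply exp_le_exp.mpr; push_cast; linarith
    _ ≤ _ := h.hl

lemma Rg.nle (h : Rg N u y) : 1000 * (N : ℝ) ≤ log y := by
  have hn := h.ok.n
  have h1 := h.big
  have h2 := h.ok.u'
  have h3 := h.ok.pw 1 100 (by norm_num)
  have h4 : (1 : ℝ) ≤ (N : ℝ) ^ 102 := one_le_pow₀ (by linarith)
  nlinarith

lemma exp_neg_le (h : Ok N u) {a : ℝ} (ha : a ≤ -N) : exp a ≤ 1 / N := by
  have hn := h.n
  refine (exp_le_exp.mpr ha).trans ?_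
  rw [exp_neg, one_div]
  apply inv_anti₀ (by linarith)
  linarith [add_one_le_exp (N : ℝ)]

lemma Rg.err1 (h : Rg N u y) {a : ℝ} (ha : a ≤ -u - N) : y * exp a ≤ y / log y / N := by
  have h1 := exp_neg_le h.ok (a := a + u) (by linarith)
  have h2 : exp (-u) ≤ 1 / log y := by
    rw [exp_neg, one_div]; exact inv_anti₀ h.lpos h.lle
  have := h.ypos
  calc y * exp a = y * (exp (-u) * exp (a + u)) := by rw [← exp_add]; ring_nf
    _ ≤ y * (1 / log y * (1 / N)) := by gcongr; exact (one_div_pos.mpr h.lpos).le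
    _ = _ := by ring

lemma Rg.err2 (h : Rg N u y) {a : ℝ} (ha : a ≤ -N) : y / log y * exp a ≤ y / log y / N := by
  have := h.ypos
  have := h.lpos
  rw [div_eq_mul_one_div _ (N : ℝ)]
  gcongr
  exact exp_neg_le h.ok ha

lemma Rg.sqrt (h : Rg N u y) : exp (3 / 4 * log y) ≤ y / log y / N := by
  have hn := h.ok.n
  have h1 := h.nle
  have h4 := Real.pow_div_factorial_le_exp (x := log y / 4) (by linarith) 2
  norm_num [Nat.factorial] at h4
  rw [le_div_iff₀ (by linarith), le_div_iff₀ h.lpos]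
  calc exp (3 / 4 * log y) * N * log y = exp (3 / 4 * log y) * (N * log y) := by ring
    _ ≤ exp (3 / 4 * log y) * exp (log y / 4) := by gcongr; nlinarith
    _ = y := by rw [← exp_add, show 3 / 4 * log y + log y / 4 = log y by ring, exp_log h.ypos]

lemma card_le_of_le (S : Finset ℕ) (T : ℝ) (hT : 0 ≤ T) (h : ∀ k ∈ S, k ≠ 0 ∧ (k : ℝ) ≤ T) :
    (S.card : ℝ) ≤ T := by
  have : S ⊆ Ioc 0 ⌊T⌋₊ := fun r hr =>
    mem_Ioc.mpr ⟨Nat.pos_of_ne_zero (h r hr).1, Nat.le_floor (h r hr).2⟩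
  have h2 := card_le_card this
  simp only [Nat.card_Ioc, tsub_zero] at h2
  exact le_trans (by exact_mod_cast h2) (Nat.floor_le hT)

lemma Rg.lt_Y (h : Rg N u y) {v : ℕ} (hv : (v : ℝ) ≤ y) : v < Y u := by
  have : ((v + 1 : ℕ) : ℝ) ≤ Y u := by push_cast; linarith [h.hy]
  exact_mod_cast this

lemma up_a (h : Rg N u y) (W : Finset ℕ) (hW : ∀ v ∈ W, v ≠ 0 ∧ log v ≤ log y / 2) :
    (W.card : ℝ) ≤ y / log y / N := by
  refine (card_le_of_le W (exp (log y / 2)) (exp_pos _).le fun v hv => ⟨(hW v hv).1, ?_⟩).trans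
    (le_trans (exp_le_exp.mpr (by linarith [h.lpos])) h.sqrt)
  rw [← log_le_iff_le_exp (by exact_mod_cast Nat.pos_of_ne_zero (hW v hv).1)]
  exact (hW v hv).2

lemma up_b (h : Rg N u y) (W : Finset ℕ) (hW : ∀ v ∈ W, v ≠ 0 ∧ (v : ℝ) ≤ y ∧ log y / 2 ≤ log v ∧
    ∀ q : ℕ, q.Prime → q ∣ v → log q ≤ log y / (N : ℝ) ^ 102) : (W.card : ℝ) ≤ y / log y / N := by
  have hn := h.ok.n
  have hl := h.lpos
  refine (card_le_mul_sum W y fun v hv => ⟨(hW v hv).1, (hW v hv).2.1⟩).trans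
    (le_trans (mul_le_mul_of_nonneg_left (smooth_tail (s := u) (log y / (N : ℝ) ^ 102) (log y / 2)
      (by positivity) W fun v hv => ⟨Sm.of_le (hW v hv).1 (lev_le_iff_Y.mpr
        (h.lt_Y (hW v hv).2.1).le), (hW v hv).2.2.2, (hW v hv).2.2.1⟩) h.ypos.le) (h.err1 ?_))
  have e1 : -(log y / 2) / (4 * (log y / (N : ℝ) ^ 102)) = -((N : ℝ) ^ 102 / 8) := by
    field_simp; norm_num
  have := h.ok.u
  have := h.ok.pw 100 102 (by norm_num)
  have := h.ok.pw 1 100 (by norm_num)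
  rw [e1]; linarith

lemma up_c (h : Rg N u y) (W : Finset ℕ) (hW : ∀ v ∈ W, v ≠ 0 ∧ (v : ℝ) ≤ y ∧
    ∃ p : ℕ, p.Prime ∧ log y / (N : ℝ) ^ 102 < log p ∧ p * (p - 1) ∣ v) :
    (W.card : ℝ) ≤ y / log y / N := by
  have hn := h.ok.n
  have hy := h.ypos
  refine decomp_card W (fun p k => p * (p - 1) * k)
    (fun p : ℕ => p.Prime ∧ log y / (N : ℝ) ^ 102 < log p)
    (fun p k => k ≠ 0 ∧ (k : ℝ) ≤ y / (p * (p - 1))) (fun p => y * (2 * ((p : ℝ) ^ 2)⁻¹)) _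
    (fun v hv => ?_) (fun p hp S hS => ?_) fun S hS => ?_
  · obtain ⟨v0, v1, p, p1, p2, k, rfl⟩ := hW v hv
    have e2 : (2 : ℝ) ≤ p := by exact_mod_cast p1.two_le
    refine ⟨p, k, ⟨p1, p2⟩, ⟨right_ne_zero_of_mul v0, ?_⟩, rfl⟩
    rw [le_div_iff₀ (by nlinarith)]
    rw [Nat.cast_mul, Nat.cast_mul, cast_pred p1] at v1
    linarith
  · have e2 : (2 : ℝ) ≤ p := by exact_mod_cast hp.1.two_le
    have e3 : 0 < (p : ℝ) * (p - 1) := by nlinarith
    refine (card_le_of_le S _ (by positivity) hS).trans ?_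
    rw [div_eq_mul_one_div]
    gcongr
    rw [← div_eq_mul_inv, div_le_div_iff₀ e3 (by positivity)]
    nlinarith
  · rw [← mul_sum, ← mul_sum]
    have h1 := sum_inv_sq_le S ⌊exp (2 * u)⌋₊ (fun p hp => by
      have p0 : (0 : ℝ) < p := by exact_mod_cast (hS p hp).1.pos
      rw [Nat.floor_lt (exp_pos _).le, ← lt_log_iff_exp_lt p0]
      refine lt_of_le_of_lt ?_ (hS p hp).2
      rw [le_div_iff₀ (by positivity)]; exact h.big)
    have h2 : 2 / ((⌊exp (2 * u)⌋₊ : ℝ) + 1) ≤ 2 * exp (-(2 * u)) := by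
      rw [exp_neg, ← div_eq_mul_inv]
      gcongr
      exact (Nat.lt_floor_add_one _).le
    refine le_trans ?_ (h.err1 (a := 2 - 2 * u) ?_)
    · rw [sub_eq_add_neg, exp_add]
      refine mul_le_mul_of_nonneg_left ?_ hy.le
      nlinarith [seven_le_exp_two, exp_pos (-(2 * (u : ℝ)))]
    · have := h.ok.u'
      have := h.ok.pw 1 100 (by norm_num)
      linarith

lemma Rg.lev_ge (h : Rg N u y) {p : ℕ} (hp : log y / (N : ℝ) ^ 102 ≤ log p) : N ^ 5 < lev p := by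
  have hn := h.ok.n
  by_contra hc
  have e1 := lev_le_iff.mp (not_lt.mp hc)
  have e2 := pow_le_exp N (by linarith) 102
  have e3 : log y ≤ exp ((N ^ 5 : ℕ) : ℝ) * exp ((102 : ℕ) * N) := by
    rw [div_le_iff₀ (by positivity)] at hp
    exact hp.trans (by gcongr)
  rw [← exp_add] at e3
  have e4 := exp_le_exp.mp (h.hl.trans e3)
  have := h.ok.u'
  have := h.ok.pw 5 100 (by norm_num)
  have := h.ok.pw 1 5 (by norm_num)
  push_cast at e4
  linarith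

lemma abn_top (h : Rg N u y) (T : ℝ) (hT : 0 ≤ T) (S : Finset ℕ)
    (hS : ∀ p ∈ S, p.Prime ∧ lev p ≤ u ∧ log y / (N : ℝ) ^ 102 ≤ log p ∧ ((p : ℝ) - 1 ≤ T) ∧
      ¬ Nrm N p) : (S.card : ℝ) ≤ T / log y * exp (-(N : ℝ) ^ 5 / 20) := by
  have hn := h.ok.n
  have hl := h.lpos
  have hN1 : 2 ≤ N ^ 5 := by
    have := h.ok.hN
    exact le_trans (by omega) (Nat.le_self_pow (by norm_num) N)
  have h1 := un_card S (range (u + 1)) (fun s p => lev p = s)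
    (fun p hp => ⟨lev p, mem_range.mpr (Nat.lt_succ_of_le (hS p hp).2.1), rfl⟩)
    (fun _ => T / log y * exp (1202 * N - (N : ℝ) ^ 5 / 16)) (fun s hs W hW => by
      rcases W.eq_empty_or_nonempty with rfl | ⟨p0, hp0⟩
      · simp only [card_empty, Nat.cast_zero]; positivity
      obtain ⟨a1, a2⟩ := hW p0 hp0
      refine (abn_count h.ok hN1 (by push_cast; rfl) (a2 ▸ (h.lev_ge (hS p0 a1).2.2.1).le)
        (Nat.le_of_lt_succ (mem_range.mp hs)) T hT W fun p hp => ⟨(hS p (hW p hp).1).1, (hW p hp).2,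
        (hS p (hW p hp).1).2.2.2⟩).trans ?_
      have e1 := (hS p0 a1).2.2.1.trans (log_le_lev p0)
      rw [a2, div_le_iff₀ (by positivity)] at e1
      have e2 := pow_le_exp N (by linarith) 102
      rw [div_mul_eq_mul_div, mul_div_assoc]
      refine mul_le_mul_of_nonneg_left ?_ hT
      rw [le_div_iff₀ hl]
      calc _ ≤ exp (-s + 1100 * N - (N ^ 5 : ℕ) / 16) * (exp s * exp ((102 : ℕ) * N)) := by
            gcongr; exact e1.trans (by gcongr)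
        _ = _ := by rw [← exp_add, ← exp_add]; push_cast; ring_nf)
  rw [sum_const, card_range, nsmul_eq_mul] at h1
  have h2 := h.ok.u1
  calc _ ≤ exp (101 * N) * (T / log y * exp (1202 * N - (N : ℝ) ^ 5 / 16)) := by
        refine h1.trans ?_
        gcongr; push_cast; linarith
    _ ≤ _ := by
        rw [mul_left_comm, ← exp_add]
        refine mul_le_mul_of_nonneg_left (exp_le_exp.mpr ?_) (by positivity)
        have := h.ok.pw 1 5 (by norm_num)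
        linarith

lemma pred_le {p w : ℕ} (hp : p.Prime) (hw : 0 < w) (h : (((p - 1) * w : ℕ) : ℝ) ≤ y) :
    (p : ℝ) - 1 ≤ y / w := by
  rw [le_div_iff₀ (by exact_mod_cast hw), ← cast_pred hp]; exact_mod_cast h

lemma le_of_pred {p w : ℕ} (hp : p.Prime) (h : (((p - 1) * w : ℕ) : ℝ) ≤ y) : (w : ℝ) ≤ y := by
  refine le_trans ?_ h
  have := hp.two_le
  exact_mod_cast Nat.le_mul_of_pos_left w (by omega)

lemma up_d (h : Rg N u y) (W : Finset ℕ) (hW : ∀ v ∈ W, (v : ℝ) ≤ y ∧ ∃ p w : ℕ, p.Prime ∧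
    lev p ≤ u ∧ log y / (N : ℝ) ^ 102 ≤ log p ∧ ¬ Nrm N p ∧ IsTot w ∧ v = (p - 1) * w) :
    (W.card : ℝ) ≤ y / log y / N := by
  have hn := h.ok.n
  have hy := h.ypos
  have hl := h.lpos
  refine decomp_card W (fun w p => (p - 1) * w) (fun w => w ∈ Tot u)
    (fun w p => p.Prime ∧ lev p ≤ u ∧ log y / (N : ℝ) ^ 102 ≤ log p ∧ ((p : ℝ) - 1 ≤ y / w) ∧
      ¬ Nrm N p) (fun w => y / w / log y * exp (-(N : ℝ) ^ 5 / 20)) _
    (fun v hv => ?_) (fun w _ S hS => abn_top h _ (by positivity) S hS) fun S hS => ?_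
  · obtain ⟨v1, p, w, p1, p2, p3, p4, p5, rfl⟩ := hW v hv
    exact ⟨w, p, mem_Tot.mpr ⟨h.lt_Y (le_of_pred p1 v1), p5⟩,
      ⟨p1, p2, p3, pred_le p1 p5.pos v1, p4⟩, rfl⟩
  · have h1 := (sum_le_sum_of_subset_of_nonneg (f := fun v : ℕ => (1 : ℝ) / v) hS
      fun _ _ _ => by positivity).trans (tot_sum h.ok)
    calc _ = y / log y * (exp (-(N : ℝ) ^ 5 / 20) * ∑ w ∈ S, (1 : ℝ) / w) := by
          rw [mul_sum, mul_sum]; exact sum_congr rfl fun _ _ => by ring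
      _ ≤ y / log y * (exp (-(N : ℝ) ^ 5 / 20) * exp ((N : ℝ) ^ 4)) := by gcongr
      _ ≤ _ := by
          rw [← exp_add]; apply h.err2
          have := h.ok.pw 4 5 (by norm_num)
          have := h.ok.pw 1 4 (by norm_num)
          linarith

lemma cheb' {T ρ : ℝ} (hρ : 0 < ρ) (hT : 0 ≤ T) (S : Finset ℕ)
    (hS : ∀ r ∈ S, r.Prime ∧ (r : ℝ) - 1 ≤ T ∧ ρ ≤ log r) : (S.card : ℝ) ≤ 4 * T / ρ := by
  refine (cheb (2 * T) ρ hρ (by linarith) S fun r hr => ⟨(hS r hr).1, ?_, (hS r hr).2.2⟩).trans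
    (le_of_eq (by ring))
  have e2 : (2 : ℝ) ≤ r := by exact_mod_cast (hS r hr).1.two_le
  linarith [(hS r hr).2.1]

lemma up_e (h : Rg N u y) (W : Finset ℕ) (hW : ∀ v ∈ W, (v : ℝ) ≤ y ∧ ∃ p w : ℕ, p.Prime ∧
    log y / (N : ℝ) ^ 102 ≤ log p ∧ 0 < w ∧ (∃ a d, IsTot a ∧ Dx N u (N ^ 5) d ∧ w = a * d) ∧
    v = (p - 1) * w) : (W.card : ℝ) ≤ y / log y / N := by
  have hn := h.ok.n
  have hy := h.ypos
  have hl := h.lpos
  have hN1 : 2 ≤ N ^ 5 := by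
    have := h.ok.hN
    exact le_trans (by omega) (Nat.le_self_pow (by norm_num) N)
  refine decomp_card W (fun w p => (p - 1) * w)
    (fun w => w < Y u ∧ 0 < w ∧ ∃ a d, IsTot a ∧ Dx N u (N ^ 5) d ∧ w = a * d)
    (fun w p => p.Prime ∧ ((p : ℝ) - 1 ≤ y / w) ∧ log y / (N : ℝ) ^ 102 ≤ log p)
    (fun w => 4 * (y / w) / (log y / (N : ℝ) ^ 102)) _
    (fun v hv => ?_) (fun w _ S hS => cheb' (by positivity) (by positivity) S hS) fun S hS => ?_
  · obtain ⟨v1, p, w, p1, p2, p3, p4, rfl⟩ := hW v hv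
    exact ⟨w, p, ⟨h.lt_Y (le_of_pred p1 v1), p3, p4⟩, ⟨p1, pred_le p1 p3 v1, p2⟩, rfl⟩
  · have h1 := tot_dx_sum S hS
    have h2 := tot_sum h.ok
    have h3 := dx_sum h.ok hN1 (by push_cast; rfl) (DS N u (N ^ 5)) (fun d hd => (mem_DS.mp hd).2)
    have e2 := pow_le_exp N (by linarith) 102
    calc _ = y / log y * (4 * (N : ℝ) ^ 102 * ∑ w ∈ S, (1 : ℝ) / w) := by
          rw [mul_sum, mul_sum]; exact sum_congr rfl fun _ _ => by field_simp
      _ ≤ y / log y * (exp 2 * exp ((102 : ℕ) * N) *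
            (exp ((N : ℝ) ^ 4) * exp (1400 * N - (N ^ 5 : ℕ) / 16))) := by
          gcongr
          · linarith [seven_le_exp_two]
          · exact h1.trans (by gcongr)
      _ ≤ _ := by
          rw [← exp_add, ← exp_add, ← exp_add]; apply h.err2
          have := h.ok.pw 4 5 (by norm_num)
          have := h.ok.pw 1 4 (by norm_num)
          push_cast
          linarith

lemma up_f (h : Rg N u y) (W : Finset ℕ) (hW : ∀ v ∈ W, (v : ℝ) ≤ y ∧ ∃ p, ∃ t ∈ Can N u,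
    p ∈ GP N u (N ^ 5) ∧ log y / (N : ℝ) ^ 102 ≤ log p ∧ (∀ q ∈ t.1, q < p) ∧
    lv (N ^ 5) p + (N : ℝ) ^ 58 ≤ TT u (N ^ 5) 0 t.1 ∧ v = (p - 1) * val t) :
    (W.card : ℝ) ≤ y / log y / N := by
  have hn := h.ok.n
  have hy := h.ypos
  have hl := h.lpos
  have hM : N ^ 2 + 1 ≤ 2 * N ^ 2 := by have := h.ok.hN; nlinarith
  refine decomp_card W (fun w r => w * r)
    (fun w => ∃ t ∈ Adm N u (N ^ 5) (N ^ 2 + 1), ∃ r : ℕ, (r = 1 ∨ r.Prime) ∧ w * r = val t ∧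
      (N : ℝ) ^ 58 ≤ Ph u (cn t.1 (lv (N ^ 5))))
    (fun w r => r.Prime ∧ ((r : ℝ) ≤ y / w) ∧ log y / (N : ℝ) ^ 204 ≤ log r)
    (fun w => 2 * (y / w) / (log y / (N : ℝ) ^ 204)) _
    (fun v hv => ?_) (fun w _ S hS => cheb _ _ (by positivity) (by positivity) S hS) fun S hS => ?_
  · obtain ⟨v1, p, t, t1, p1, p2, p3, p4, rfl⟩ := hW v hv
    obtain ⟨r, r1, ⟨m, hm⟩, r3⟩ := (mem_GP.mp p1).2.2.2.1
    have e1 : m * val t * r = (p - 1) * val t := by rw [hm]; ring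
    have e2 := val_ne_zero (ins_adm (Can.adm t1) p1)
    rw [val_ins (not_mem_of_lt p3), ← e1] at e2
    refine ⟨m * val t, r, ⟨ins p t, ins_adm (Can.adm t1) p1, r, Or.inr r1,
      by rw [e1, val_ins (not_mem_of_lt p3)], ?_⟩, ⟨r1, ?_, ?_⟩, e1⟩
    · simp only [ins]
      rw [Ph_insert (not_mem_of_lt p3) (lv_le p1) fun q hq => lv_mono _ (p3 q hq).le]
      linarith
    · rw [le_div_iff₀ (by exact_mod_cast Nat.pos_of_ne_zero (left_ne_zero_of_mul e2)), mul_comm,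
        ← Nat.cast_mul, e1]
      exact v1
    · rw [div_le_iff₀ (by positivity)] at p2 ⊢
      have : log p * (N : ℝ) ^ 102 ≤ (N : ℝ) ^ 102 * log r * (N : ℝ) ^ 102 := by gcongr
      linarith
  · have h1 := B_core h.ok hM _ S hS
    have e2 := pow_le_exp N (by linarith) 204
    calc _ = y / log y * (2 * (N : ℝ) ^ 204 * ∑ w ∈ S, (1 : ℝ) / w) := by
          rw [mul_sum, mul_sum]; exact sum_congr rfl fun _ _ => by field_simp
      _ ≤ y / log y * (exp 2 * exp ((204 : ℕ) * N) * exp (-(N : ℝ) ^ 58 + 8 * (N : ℝ) ^ 56)) := by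
          gcongr
          linarith [seven_le_exp_two]
      _ ≤ _ := by
          rw [← exp_add, ← exp_add]; apply h.err2
          have := h.ok.pw 56 58 (by norm_num)
          have := h.ok.pw 1 56 (by norm_num)
          push_cast
          linarith

lemma log_val_le' {i0 M : ℕ} {t : Finset ℕ × ℕ} (ht : t ∈ Adm N u i0 M) {Λ : ℝ} (h0 : 0 ≤ Λ)
    (hl : ∀ q ∈ t.1, log q ≤ Λ) : log (val t) ≤ (N : ℝ) ^ 6 * exp i0 + M * Λ := by
  obtain ⟨t1, t2, t3⟩ := mem_Adm.mp ht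
  have hp : ∀ p ∈ t.1, p.Prime := fun p hp => (mem_GP.mp (t1 hp)).1
  rw [val, Nat.cast_mul, log_mul (by exact_mod_cast (Bl_sm t3).1) (by exact_mod_cast pv_ne_zero hp),
    pv, Nat.cast_prod, log_prod fun p hp' => by
      have := (hp p hp').two_le
      exact_mod_cast (by omega : p - 1 ≠ 0)]
  apply add_le_add (mem_Bl.mp t3).1
  calc _ ≤ t.1.card • Λ := sum_le_card_nsmul _ _ _ fun q hq =>
        (log_nat_mono (Nat.sub_le _ _)).trans (hl q hq)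
    _ ≤ _ := by rw [nsmul_eq_mul]; gcongr

lemma Rg.blob (h : Rg N u y) : (N : ℝ) ^ 6 * exp ((N ^ 5 : ℕ) : ℝ) ≤ log y / (4 * N) := by
  have hn := h.ok.n
  rw [le_div_iff₀ (by positivity)]
  have e2 := pow_le_exp N (by linarith) 8
  have := h.ok.pw 7 8 (by norm_num)
  calc _ = 4 * (N : ℝ) ^ 7 * exp ((N ^ 5 : ℕ) : ℝ) := by ring
    _ ≤ exp ((8 : ℕ) * N) * exp ((N ^ 5 : ℕ) : ℝ) := by
        gcongr; nlinarith [pow_pos (show (0 : ℝ) < N by linarith) 7]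
    _ ≤ exp (u - 3) := by
        rw [← exp_add]; apply exp_le_exp.mpr
        have := h.ok.u'
        have := h.ok.pw 5 100 (by norm_num)
        have := h.ok.pw 1 5 (by norm_num)
        push_cast; linarith
    _ ≤ _ := h.hl

lemma up_g (h : Rg N u y) (W : Finset ℕ) (hW : ∀ v ∈ W, (v : ℝ) ≤ y ∧ log y / 2 ≤ log v ∧
    ∃ p, ∃ t ∈ Can N u, p ∈ GP N u (N ^ 5) ∧ (∀ q ∈ t.1, q < p) ∧
    u - (N : ℝ) ^ 5 - (N : ℝ) ^ 58 < ck N u 0 t ∧ ck N u 0 t ≤ u - (N : ℝ) ^ 5 + (N : ℝ) ^ 58 ∧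
    v = (p - 1) * val t) :
    (W.card : ℝ) ≤ 32 * (y / log y / N) * FF N u 0 (u - (N : ℝ) ^ 5 - (N : ℝ) ^ 58) := by
  classical
  have hn := h.ok.n
  have hy := h.ypos
  have hl := h.lpos
  refine decomp_card W (fun t p => (p - 1) * val t)
    (fun t => t ∈ Can N u ∧ u - (N : ℝ) ^ 5 - (N : ℝ) ^ 58 < ck N u 0 t ∧
      ck N u 0 t ≤ u - (N : ℝ) ^ 5 + (N : ℝ) ^ 58)
    (fun t p => p.Prime ∧ ((p : ℝ) - 1 ≤ y / val t) ∧ log y / (8 * (N : ℝ) ^ 2) ≤ log p)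
    (fun t => 4 * (y / val t) / (log y / (8 * (N : ℝ) ^ 2))) _
    (fun v hv => ?_) (fun w _ S hS => cheb' (by positivity) (by positivity) S hS) fun S hS => ?_
  · obtain ⟨v1, v2, p, t, t1, p1, p2, p3, p4, rfl⟩ := hW v hv
    refine ⟨t, p, ⟨t1, p3, p4⟩, ⟨(mem_GP.mp p1).1, pred_le (mem_GP.mp p1).1
      (Nat.pos_of_ne_zero (val_ne_zero (Can.adm t1))) v1, ?_⟩, rfl⟩
    have e1 := log_val_le' (ins_adm (Can.adm t1) p1) (log_natCast_nonneg p) fun q hq => by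
      rcases mem_insert.mp hq with rfl | hq
      exacts [le_rfl, log_nat_mono (p2 q hq).le]
    rw [val_ins (not_mem_of_lt p2)] at e1
    have e2 := h.blob
    have e3 : log y / (4 * N) ≤ log y / 4 := by gcongr; linarith
    have e4 := log_natCast_nonneg p
    have e5 := h.ok.pw 0 2 (by norm_num)
    rw [div_le_iff₀ (by positivity)]
    push_cast at e1 e2 v2
    nlinarith
  · have h1 := le_FF (N := N) (u := u) (k := 0) (x := u - (N : ℝ) ^ 5 + (N : ℝ) ^ 58)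
      (S ∪ (Can N u).filter fun t => ck N u 0 t ≤ u - (N : ℝ) ^ 5 - (N : ℝ) ^ 58) (fun t ht => by
        rcases mem_union.mp ht with ht | ht
        · exact ⟨(hS t ht).1, (hS t ht).2.2⟩
        · rw [mem_filter] at ht
          have : (0 : ℝ) ≤ (N : ℝ) ^ 58 := by positivity
          exact ⟨ht.1, by linarith [ht.2]⟩)
    rw [sum_union (disjoint_left.mpr fun t ht ht' => by
      linarith [(hS t ht).2.1, (mem_filter.mp ht').2])] at h1
    have h2 := anti h.ok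
    have h3 : ∑ t ∈ S, (1 : ℝ) / val t ≤
        1 / (N : ℝ) ^ 3 * FF N u 0 (u - (N : ℝ) ^ 5 - (N : ℝ) ^ 58) := by
      unfold FF at *
      linarith
    calc _ = y / log y * (32 * (N : ℝ) ^ 2 * ∑ t ∈ S, (1 : ℝ) / val t) := by
          rw [mul_sum, mul_sum]; exact sum_congr rfl fun _ _ => by field_simp; ring
      _ ≤ y / log y * (32 * (N : ℝ) ^ 2 *
            (1 / (N : ℝ) ^ 3 * FF N u 0 (u - (N : ℝ) ^ 5 - (N : ℝ) ^ 58))) := by gcongr
      _ = _ := by field_simp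

/-- the main term -/
noncomputable def MT (N u : ℕ) (y : ℝ) : ℝ :=
  ∑ t ∈ Can N u with ck N u 0 t ≤ u - (N : ℝ) ^ 5 - (N : ℝ) ^ 58,
    (Nat.primeCounting ⌊y / val t + 1⌋₊ : ℝ)

lemma primeCounting_eq (n : ℕ) : Nat.primeCounting n = ((range (n + 1)).filter Nat.Prime).card := by
  rw [Nat.primeCounting, Nat.primeCounting', Nat.count_eq_card_filter_range]

lemma up_m (h : Rg N u y) (W : Finset ℕ) (hW : ∀ v ∈ W, (v : ℝ) ≤ y ∧ ∃ p : ℕ, ∃ t ∈ Can N u,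
    p.Prime ∧ ck N u 0 t ≤ u - (N : ℝ) ^ 5 - (N : ℝ) ^ 58 ∧ v = (p - 1) * val t) :
    (W.card : ℝ) ≤ MT N u y := by
  have hy := h.ypos
  refine decomp_card W (fun t p => (p - 1) * val t)
    (fun t => t ∈ (Can N u).filter fun t => ck N u 0 t ≤ u - (N : ℝ) ^ 5 - (N : ℝ) ^ 58)
    (fun t p => p.Prime ∧ ((p : ℝ) - 1 ≤ y / val t))
    (fun t => (Nat.primeCounting ⌊y / val t + 1⌋₊ : ℝ)) _
    (fun v hv => ?_) (fun t _ S hS => ?_) fun S hS =>
      sum_le_sum_of_subset_of_nonneg hS fun _ _ _ => by positivity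
  · obtain ⟨v1, p, t, t1, p1, p2, rfl⟩ := hW v hv
    exact ⟨t, p, mem_filter.mpr ⟨t1, p2⟩, ⟨p1, pred_le p1
      (Nat.pos_of_ne_zero (val_ne_zero (Can.adm t1))) v1⟩, rfl⟩
  · rw [primeCounting_eq]
    norm_cast
    apply card_le_card
    intro p hp
    exact mem_filter.mpr ⟨mem_range.mpr (Nat.lt_succ_of_le (Nat.le_floor
      (by linarith [(hS p hp).2]))), (hS p hp).1⟩

lemma exists_prime_ge {q n : ℕ} (hn : n ≠ 0) (hq : q.Prime) (h : q ∣ n.totient) :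
    ∃ p ∈ n.primeFactors, q ≤ p := by
  have h1 : q ∣ n * ∏ p ∈ n.primeFactors, (p - 1) :=
    Nat.totient_mul_prod_primeFactors n ▸ h.mul_right _
  rcases (Nat.Prime.dvd_mul hq).mp h1 with h2 | h2
  · exact ⟨q, Nat.mem_primeFactors.mpr ⟨hq, h2, hn⟩, le_rfl⟩
  · obtain ⟨p, hp, h3⟩ := (Prime.dvd_finset_prod_iff hq.prime _).mp h2
    have := (Nat.prime_of_mem_primeFactors hp).two_le
    exact ⟨p, hp, (Nat.le_of_dvd (by omega) h3).trans (Nat.sub_le _ _)⟩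

lemma upper (h : Rg N u y) (V : Finset ℕ) (hV : ∀ v ∈ V, IsTot v ∧ (v : ℝ) ≤ y) :
    (V.card : ℝ) ≤ MT N u y + 38 * (y / log y / N) * FF N u 0 (u - (N : ℝ) ^ 5 - (N : ℝ) ^ 58) := by
  have hn := h.ok.n
  have key : ∀ v ∈ V, (v ≠ 0 ∧ log v ≤ log y / 2) ∨ (v ≠ 0 ∧ (v : ℝ) ≤ y ∧ log y / 2 ≤ log v ∧
      ∀ q : ℕ, q.Prime → q ∣ v → log q ≤ log y / (N : ℝ) ^ 102) ∨ (v ≠ 0 ∧ (v : ℝ) ≤ y ∧
      ∃ p : ℕ, p.Prime ∧ log y / (N : ℝ) ^ 102 < log p ∧ p * (p - 1) ∣ v) ∨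
      ((v : ℝ) ≤ y ∧ ∃ p w : ℕ, p.Prime ∧
      lev p ≤ u ∧ log y / (N : ℝ) ^ 102 ≤ log p ∧ ¬ Nrm N p ∧ IsTot w ∧ v = (p - 1) * w) ∨
      ((v : ℝ) ≤ y ∧ ∃ p w : ℕ, p.Prime ∧
      log y / (N : ℝ) ^ 102 ≤ log p ∧ 0 < w ∧ (∃ a d, IsTot a ∧ Dx N u (N ^ 5) d ∧ w = a * d) ∧
      v = (p - 1) * w) ∨ ((v : ℝ) ≤ y ∧ ∃ p, ∃ t ∈ Can N u,
      p ∈ GP N u (N ^ 5) ∧ log y / (N : ℝ) ^ 102 ≤ log p ∧ (∀ q ∈ t.1, q < p) ∧
      lv (N ^ 5) p + (N : ℝ) ^ 58 ≤ TT u (N ^ 5) 0 t.1 ∧ v = (p - 1) * val t) ∨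
      ((v : ℝ) ≤ y ∧ log y / 2 ≤ log v ∧
      ∃ p, ∃ t ∈ Can N u, p ∈ GP N u (N ^ 5) ∧ (∀ q ∈ t.1, q < p) ∧
      u - (N : ℝ) ^ 5 - (N : ℝ) ^ 58 < ck N u 0 t ∧ ck N u 0 t ≤ u - (N : ℝ) ^ 5 + (N : ℝ) ^ 58 ∧
      v = (p - 1) * val t) ∨ ((v : ℝ) ≤ y ∧ ∃ p : ℕ, ∃ t ∈ Can N u,
      p.Prime ∧ ck N u 0 t ≤ u - (N : ℝ) ^ 5 - (N : ℝ) ^ 58 ∧ v = (p - 1) * val t) := by
    intro v hv
    obtain ⟨hv1, hv2⟩ := hV v hv
    have v0 := hv1.pos.ne'
    rcases le_total (log v) (log y / 2) with c1 | c1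
    · exact Or.inl ⟨v0, c1⟩
    right
    by_cases c2 : ∀ q : ℕ, q.Prime → q ∣ v → log q ≤ log y / (N : ℝ) ^ 102
    · exact Or.inl ⟨v0, hv2, c1, c2⟩
    right
    push Not at c2
    obtain ⟨q, q1, q2, q3⟩ := c2
    obtain ⟨n, n1, rfl⟩ := hv1
    obtain ⟨p', p'1, p'2⟩ := exists_prime_ge (by omega) q1 q2
    obtain ⟨p, p1, p2⟩ := n.primeFactors.exists_max_image id ⟨p', p'1⟩
    have p3 := Nat.prime_of_mem_primeFactors p1
    have p4 : log y / (N : ℝ) ^ 102 < log p := q3.trans_le (log_nat_mono (p'2.trans (p2 p' p'1)))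
    obtain ⟨m, rfl⟩ := Nat.dvd_of_mem_primeFactors p1
    have hsm := sm_of_totient n1 (h.lt_Y hv2)
    by_cases c3 : p ∣ m
    · refine Or.inl ⟨v0, hv2, p, p3, p4, ?_⟩
      have := Nat.totient_dvd_of_dvd (mul_dvd_mul_left p c3)
      rwa [Nat.totient_mul_of_prime_of_dvd p3 dvd_rfl, Nat.totient_prime p3] at this
    right
    have m0 : 1 ≤ m := Nat.pos_of_ne_zero (right_ne_zero_of_mul hsm.1)
    have hv : (p * m).totient = (p - 1) * m.totient := Nat.totient_mul_of_prime_of_not_dvd p3 c3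
    have p5 := hsm.2 p p3 (dvd_mul_right _ _)
    by_cases c4 : Nrm N p
    swap
    · exact Or.inl ⟨hv2, p, _, p3, p5, p4.le, c4, ⟨m, m0, rfl⟩, hv⟩
    right
    rcases dec h.ok (N ^ 5) m (hsm.of_dvd (dvd_mul_left _ _)) with ⟨t, t1, t2, t3, t4⟩ | c5
    swap
    · exact Or.inl ⟨hv2, p, _, p3, p4.le, Nat.totient_pos.mpr m0, c5, hv⟩
    right
    have hp : p ∈ GP N u (N ^ 5) := mem_GP.mpr ⟨p3, p5, h.lev_ge p4.le, c4⟩
    obtain ⟨s, s1, s2, s3⟩ := exists_can (p := p) (mem_Ad2.mpr ⟨t1, t3⟩) fun r hr => by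
      have r1 := (mem_GP.mp ((mem_Adm.mp t1).1 hr)).1
      have r2 := p2 r (Nat.mem_primeFactors.mpr ⟨r1, (t4 r hr).mul_left _, hsm.1⟩)
      exact lt_of_le_of_ne r2 fun e => c3 (e ▸ t4 r hr)
    rw [← t2, ← s2] at hv
    rcases le_total (lv (N ^ 5) p + (N : ℝ) ^ 58) (TT u (N ^ 5) 0 s.1) with c6 | c6
    · exact Or.inl ⟨hv2, p, s, s1, hp, p4.le, s3, c6, hv⟩
    right
    rcases lt_or_ge (u - (N : ℝ) ^ 5 - (N : ℝ) ^ 58) (ck N u 0 s) with c7 | c7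
    · have e1 : (lv (N ^ 5) p : ℝ) ≤ u - (N : ℝ) ^ 5 := by
        have : N ^ 5 + lv (N ^ 5) p ≤ u := by
          have := (mem_GP.mp hp).2.2.1
          simp only [lv]; omega
        have : ((N ^ 5 + lv (N ^ 5) p : ℕ) : ℝ) ≤ u := by exact_mod_cast this
        push_cast at this; linarith
      have : (0 : ℝ) ≤ (N : ℝ) ^ 58 := by positivity
      exact Or.inl ⟨hv2, c1, p, s, s1, hp, s3, c7, ck_zero_le_of (s := lv (N ^ 5) p)
        (fun q hq => lv_mono _ (s3 q hq).le) (by linarith) (by linarith), hv⟩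
    · exact Or.inr ⟨hv2, p, s, s1, p3, c7, hv⟩
  have := or_card V _ _ key (fun W hW => up_a h W fun v hv => (hW v hv).2) fun W hW =>
    or_card W _ _ (fun v hv => (hW v hv).2) (fun W hW => up_b h W fun v hv => (hW v hv).2)
    fun W hW => or_card W _ _ (fun v hv => (hW v hv).2)
    (fun W hW => up_c h W fun v hv => (hW v hv).2)
    fun W hW => or_card W _ _ (fun v hv => (hW v hv).2)
    (fun W hW => up_d h W fun v hv => (hW v hv).2)
    fun W hW => or_card W _ _ (fun v hv => (hW v hv).2)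
    (fun W hW => up_e h W fun v hv => (hW v hv).2)
    fun W hW => or_card W _ _ (fun v hv => (hW v hv).2)
    (fun W hW => up_f h W fun v hv => (hW v hv).2)
    fun W hW => or_card W _ _ (fun v hv => (hW v hv).2)
    (fun W hW => up_g h W fun v hv => (hW v hv).2)
    (fun W hW => up_m h W fun v hv => (hW v hv).2)
  have z0 := one_le_FF N u 0 (x := u - (N : ℝ) ^ 5 - (N : ℝ) ^ 58) (by
    have := h.ok.u'
    have := h.ok.pw 5 58 (by norm_num)
    have := h.ok.pw 58 100 (by norm_num)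
    have : (0 : ℝ) ≤ (N : ℝ) ^ 5 := by positivity
    linarith)
  have e0 : 0 ≤ y / log y / N := by have := h.ypos; have := h.lpos; positivity
  nlinarith

end Vale.Agent.P031
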